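import Mathlib

/-! Definitions used in the statement of the hand-in. -/

namespace Vale.Agent.P192.H479

/-- `x` and `x'` have the same position with respect to the points of `B` -/
def Cell (B : Finset ℝ) (x x' : ℝ) : Prop := ∀ b ∈ B, (b < x ↔ b < x') ∧ (x < b ↔ x' < b)

end Vale.Agent.P192.H479
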