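import Mathlib

/-!
# P192, rectangle exchanges, block RL5 (helper176): closure lemmas

`Reg act D`: a directed family of relations on the subset `D` of `X` (two points of a piece),
stable under the partial action `act` of `H`. `Pw`: the map is given on each piece by one element of
a finite subset of `H`. Such maps are stable under composition and inverses.
-/

namespace Vale.Agent.P192.RL5

/-- families of pieces -/
structure Reg {H X : Type} [Group H] (act : H →* Equiv.Perm X) (D : Set X) where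
  R : Set (X → X → Prop)
  ne : R.Nonempty
  refl : ∀ r ∈ R, ∀ x ∈ D, r x x
  inf : ∀ r ∈ R, ∀ r' ∈ R, ∃ r'' ∈ R, ∀ x ∈ D, ∀ y ∈ D, r'' x y → r x y ∧ r' x y
  pull : ∀ r ∈ R, ∀ h : H, ∃ r' ∈ R, ∀ x ∈ D, ∀ y ∈ D, r' x y → act h x ∈ D →
    act h y ∈ D ∧ r (act h x) (act h y)

namespace Reg

variable {H X : Type} [Group H] {act : H →* Equiv.Perm X} {D : Set X} (F : Reg act D)

/-- piecewise given by finitely many elements of `H` -/
def Pw (f : X → X) : Prop :=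
  ∃ r ∈ F.R, ∃ Q : Set H, Q.Finite ∧ ∀ x ∈ D, ∃ q ∈ Q, ∀ y ∈ D, r x y →
    f y = act q y ∧ act q y ∈ D

theorem pull_finite {r : X → X → Prop} (hr : r ∈ F.R) {Q : Set H} (hQ : Q.Finite) :
    ∃ r' ∈ F.R, ∀ q ∈ Q, ∀ x ∈ D, ∀ y ∈ D, r' x y → act q x ∈ D →
      act q y ∈ D ∧ r (act q x) (act q y) := by
  induction Q, hQ using Set.Finite.induction_on with
  | empty =>
    obtain ⟨r', hr'⟩ := F.ne
    exact ⟨r', hr', fun q hq => absurd hq (Set.notMem_empty q)⟩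
  | @insert a s _ _ ih =>
    obtain ⟨r₁, h1, h2⟩ := ih
    obtain ⟨r₂, h3, h4⟩ := F.pull r hr a
    obtain ⟨r', h5, h6⟩ := F.inf r₁ h1 r₂ h3
    refine ⟨r', h5, ?_⟩
    rintro q (rfl | hq) x hx y hy hxy hqx
    · exact h4 x hx y hy (h6 x hx y hy hxy).2 hqx
    · exact h2 q hq x hx y hy (h6 x hx y hy hxy).1 hqx

theorem Pw.one : F.Pw id := by
  obtain ⟨r, hr⟩ := F.ne
  refine ⟨r, hr, {1}, Set.finite_singleton 1, fun x hx => ⟨1, rfl, fun y hy _ => ?_⟩⟩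
  rw [map_one]
  exact ⟨rfl, hy⟩

variable {F}

theorem Pw.comp {f g : X → X} (hg : F.Pw g) (hf : F.Pw f) : F.Pw fun x => g (f x) := by
  obtain ⟨r, hr, Q, hQ, h⟩ := hf
  obtain ⟨r₁, hr₁, Q₁, hQ₁, h₁⟩ := hg
  obtain ⟨r₂, hr₂, h₂⟩ := F.pull_finite hr₁ hQ
  obtain ⟨r₃, hr₃, h₃⟩ := F.inf r hr r₂ hr₂
  refine ⟨r₃, hr₃, Set.image2 (fun a b => a * b) Q₁ Q, hQ₁.image2 _ hQ, fun x hx => ?_⟩
  obtain ⟨q, hq, h4⟩ := h x hx
  obtain ⟨-, h5⟩ := h4 x hx (F.refl r hr x hx)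
  obtain ⟨q₁, hq₁, h6⟩ := h₁ (act q x) h5
  refine ⟨q₁ * q, ⟨q₁, hq₁, q, hq, rfl⟩, fun y hy hxy => ?_⟩
  obtain ⟨h7, h8⟩ := h₃ x hx y hy hxy
  obtain ⟨h9, h10⟩ := h4 y hy h7
  obtain ⟨-, h11⟩ := h₂ q hq x hx y hy h8 h5
  obtain ⟨h12, h13⟩ := h6 (act q y) h10 h11
  rw [map_mul, Equiv.Perm.mul_apply]
  refine ⟨?_, h13⟩
  change g (f y) = _
  rw [h9]
  exact h12

theorem Pw.inv {f g : X → X} (hf : F.Pw f) (hfg : ∀ x ∈ D, g (f x) = x)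
    (hgf : ∀ x ∈ D, f (g x) = x) (hg : ∀ x ∈ D, g x ∈ D) : F.Pw g := by
  obtain ⟨r, hr, Q, hQ, h⟩ := hf
  obtain ⟨r₁, hr₁, h₁⟩ := F.pull_finite hr (Q := (fun q => q⁻¹) '' Q) (hQ.image _)
  refine ⟨r₁, hr₁, (fun q => q⁻¹) '' Q, hQ.image _, fun w hw => ?_⟩
  obtain ⟨q, hq, h2⟩ := h (g w) (hg w hw)
  obtain ⟨h3, -⟩ := h2 (g w) (hg w hw) (F.refl r hr _ (hg w hw))
  rw [hgf w hw] at h3
  have e : ∀ z, act q⁻¹ (act q z) = z := by
    intro z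
    rw [map_inv]
    exact (act q).symm_apply_apply z
  have e' : ∀ z, act q (act q⁻¹ z) = z := by
    intro z
    rw [map_inv]
    exact (act q).apply_symm_apply z
  have h4 : act q⁻¹ w = g w := by
    conv_lhs => rw [h3]
    exact e _
  refine ⟨q⁻¹, ⟨q, hq, rfl⟩, fun y hy hwy => ?_⟩
  obtain ⟨h5, h6⟩ := h₁ q⁻¹ ⟨q, hq, rfl⟩ w hw y hy hwy (by rw [h4]; exact hg w hw)
  rw [h4] at h6
  obtain ⟨h7, -⟩ := h2 (act q⁻¹ y) h5 h6
  rw [e'] at h7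
  refine ⟨?_, h5⟩
  have h8 := hfg (act q⁻¹ y) h5
  rw [h7] at h8
  exact h8

/-- **Closure**: an action of a group whose generators are piecewise given by finitely many elements
of `H`. -/
theorem Pw.all {G : Type} [Group G] {S : Set G} (hS : Subgroup.closure S = ⊤)
    (ρ : G →* Equiv.Perm X) (hD : ∀ s ∈ S, ∀ x, x ∈ D ↔ ρ s x ∈ D) (h : ∀ s ∈ S, F.Pw (ρ s)) :
    (∀ g x, x ∈ D ↔ ρ g x ∈ D) ∧ ∀ g, F.Pw (ρ g) := by
  have key : ∀ g ∈ Subgroup.closure S, (∀ x, x ∈ D ↔ ρ g x ∈ D) ∧ F.Pw (ρ g) := by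
    intro g hg
    induction hg using Subgroup.closure_induction with
    | mem s hs => exact ⟨hD s hs, h s hs⟩
    | one =>
      rw [map_one]
      exact ⟨fun x => Iff.rfl, Pw.one F⟩
    | mul a b _ _ iha ihb =>
      rw [map_mul]
      refine ⟨fun x => ?_, iha.2.comp ihb.2⟩
      rw [Equiv.Perm.mul_apply, ← iha.1, ← ihb.1]
    | inv a _ iha =>
      have e1 : ∀ x, ρ a (ρ a⁻¹ x) = x := by
        intro x
        rw [← Equiv.Perm.mul_apply, ← map_mul, mul_inv_cancel, map_one, Equiv.Perm.one_apply]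
      have e2 : ∀ x, ρ a⁻¹ (ρ a x) = x := by
        intro x
        rw [← Equiv.Perm.mul_apply, ← map_mul, inv_mul_cancel, map_one, Equiv.Perm.one_apply]
      have e3 : ∀ x, x ∈ D ↔ ρ a⁻¹ x ∈ D := by
        intro x
        rw [iha.1 (ρ a⁻¹ x), e1]
      exact ⟨e3, iha.2.inv (fun x _ => e2 x) (fun x _ => e1 x) fun x hx => (e3 x).1 hx⟩
  have h' : ∀ g, g ∈ Subgroup.closure S := fun g => by rw [hS]; trivial
  exact ⟨fun g => (key g (h' g)).1, fun g => (key g (h' g)).2⟩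

end Reg

/-! ### The models -/

/-- translations of the real line -/
noncomputable def trans : Multiplicative ℝ →* Equiv.Perm ℝ where
  toFun t := Equiv.addRight t.toAdd
  map_one' := by
    ext x
    change x + (1 : Multiplicative ℝ).toAdd = x
    rw [toAdd_one, add_zero]
  map_mul' s t := by
    ext x
    change x + (s * t).toAdd = (x + t.toAdd) + s.toAdd
    rw [toAdd_mul]
    ring

@[simp] theorem trans_apply (t : Multiplicative ℝ) (x : ℝ) : trans t x = x + t.toAdd := rfl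

/-- products of actions -/
def prodAct {H H' X X' : Type} [Group H] [Group H'] (a : H →* Equiv.Perm X)
    (a' : H' →* Equiv.Perm X') : H × H' →* Equiv.Perm (X × X') where
  toFun h := Equiv.prodCongr (a h.1) (a' h.2)
  map_one' := by
    ext x <;> simp
  map_mul' s t := by
    ext x <;> simp

@[simp] theorem prodAct_apply {H H' X X' : Type} [Group H] [Group H'] (a : H →* Equiv.Perm X)
    (a' : H' →* Equiv.Perm X') (h : H × H') (x : X × X') :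
    prodAct a a' h x = (a h.1 x.1, a' h.2 x.2) := rfl

/-- the pieces of a product -/
def Reg.prod {H H' X X' : Type} [Group H] [Group H'] {a : H →* Equiv.Perm X}
    {a' : H' →* Equiv.Perm X'} {D : Set X} {D' : Set X'} (F : Reg a D) (F' : Reg a' D') :
    Reg (prodAct a a') {z | z.1 ∈ D ∧ z.2 ∈ D'} where
  R := {r | ∃ r₁ ∈ F.R, ∃ r₂ ∈ F'.R, r = fun z w => r₁ z.1 w.1 ∧ r₂ z.2 w.2}
  ne := by
    obtain ⟨r, h⟩ := F.ne
    obtain ⟨r', h'⟩ := F'.ne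
    exact ⟨_, r, h, r', h', rfl⟩
  refl := by
    rintro _ ⟨r, h, r', h', rfl⟩ z hz
    exact ⟨F.refl r h _ hz.1, F'.refl r' h' _ hz.2⟩
  inf := by
    rintro _ ⟨r₁, h₁, r₂, h₂, rfl⟩ _ ⟨r₃, h₃, r₄, h₄, rfl⟩
    obtain ⟨r, h, h'⟩ := F.inf r₁ h₁ r₃ h₃
    obtain ⟨r', k, k'⟩ := F'.inf r₂ h₂ r₄ h₄
    refine ⟨_, ⟨r, h, r', k, rfl⟩, ?_⟩
    rintro z hz w hw ⟨h5, h6⟩
    have h7 := h' _ hz.1 _ hw.1 h5
    have h8 := k' _ hz.2 _ hw.2 h6
    exact ⟨⟨h7.1, h8.1⟩, h7.2, h8.2⟩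
  pull := by
    rintro _ ⟨r₁, h₁, r₂, h₂, rfl⟩ ⟨s, t⟩
    obtain ⟨r, h, h'⟩ := F.pull r₁ h₁ s
    obtain ⟨r', k, k'⟩ := F'.pull r₂ h₂ t
    refine ⟨_, ⟨r, h, r', k, rfl⟩, ?_⟩
    rintro z hz w hw ⟨h5, h6⟩ ⟨h7, h8⟩
    have h9 := h' _ hz.1 _ hw.1 h5 h7
    have h10 := k' _ hz.2 _ hw.2 h6 h8
    exact ⟨⟨h9.1, h10.1⟩, h9.2, h10.2⟩

/-- no condition: the pieces are the points -/
def regPt {H V : Type} [Group H] (a : H →* Equiv.Perm V) : Reg a Set.univ where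
  R := {fun x y => x = y}
  ne := ⟨_, rfl⟩
  refl := by
    rintro _ rfl x _
    rfl
  inf := by
    rintro _ rfl _ rfl
    exact ⟨_, rfl, fun x _ y _ h => ⟨h, h⟩⟩
  pull := by
    rintro _ rfl h
    refine ⟨_, rfl, fun x _ y _ hxy _ => ⟨trivial, ?_⟩⟩
    change a h x = a h y
    rw [show x = y from hxy]

/-- two points of one interval -/
def Band (B : Finset ℝ) (x y : ℝ) : Prop := ∀ b ∈ B, b ≤ x ↔ b ≤ y

theorem Band.refl (B : Finset ℝ) (x : ℝ) : Band B x x := fun _ _ => Iff.rfl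

open Classical in
theorem Band.pull (L : ℝ) (B : Finset ℝ) (t : ℝ) : ∃ B' : Finset ℝ, ∀ x y : ℝ, Band B' x y →
    x + t ∈ Set.Ico 0 L → y + t ∈ Set.Ico 0 L ∧ Band B (x + t) (y + t) := by
  refine ⟨(insert 0 (insert L B)).image fun b => b - t, fun x y h hx => ?_⟩
  have h1 : ∀ b ∈ insert 0 (insert L B), b ≤ x + t ↔ b ≤ y + t := by
    intro b hb
    have := h (b - t) (Finset.mem_image_of_mem _ hb)
    constructor
    · intro h2
      have := this.1 (by linarith)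
      linarith
    · intro h2
      have := this.2 (by linarith)
      linarith
  refine ⟨⟨(h1 0 (Finset.mem_insert_self _ _)).1 hx.1, ?_⟩, fun b hb => h1 b ?_⟩
  · by_contra hcon
    push Not at hcon
    have := (h1 L (Finset.mem_insert_of_mem (Finset.mem_insert_self _ _))).2 hcon
    exact absurd hx.2 (not_lt.2 this)
  · exact Finset.mem_insert_of_mem (Finset.mem_insert_of_mem hb)

/-- the intervals of `[0, L)` -/
def regReal (L : ℝ) : Reg trans (Set.Ico 0 L) where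
  R := {r | ∃ B : Finset ℝ, r = Band B}
  ne := ⟨_, ∅, rfl⟩
  refl := by
    rintro _ ⟨B, rfl⟩ x _
    exact Band.refl B x
  inf := by
    classical
    rintro _ ⟨B, rfl⟩ _ ⟨B', rfl⟩
    refine ⟨_, ⟨B ∪ B', rfl⟩, fun x _ y _ h => ?_⟩
    exact ⟨fun b hb => h b (Finset.mem_union_left _ hb),
      fun b hb => h b (Finset.mem_union_right _ hb)⟩
  pull := by
    rintro _ ⟨B, rfl⟩ t
    obtain ⟨B', hB'⟩ := Band.pull L B t.toAdd
    exact ⟨_, ⟨B', rfl⟩, fun x _ y _ h h' => hB' x y h h'⟩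

/-- finite colourings of `V`, arbitrary permutations -/
def regCol {H V : Type} [Group H] (a : H →* Equiv.Perm V) : Reg a Set.univ where
  R := {r | ∃ (m : ℕ) (c : V → Fin m), r = fun x y => c x = c y}
  ne := ⟨_, 1, fun _ => 0, rfl⟩
  refl := by
    rintro _ ⟨m, c, rfl⟩ x _
    rfl
  inf := by
    rintro _ ⟨m, c, rfl⟩ _ ⟨m', c', rfl⟩
    refine ⟨_, ⟨m * m', fun x => finProdFinEquiv (c x, c' x), rfl⟩, fun x _ y _ h => ?_⟩
    have h1 := finProdFinEquiv.injective h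
    exact ⟨congrArg Prod.fst h1, congrArg Prod.snd h1⟩
  pull := by
    rintro _ ⟨m, c, rfl⟩ h
    exact ⟨_, ⟨m, fun x => c (a h x), rfl⟩, fun x _ y _ hxy _ => ⟨trivial, hxy⟩⟩

/-! ### Closure, in coordinates -/

/-- **One real coordinate**, no condition on the second coordinate: the generators of `G` map
`(x, u)`, `0 ≤ x < L`, to `(x + t, h u)`, where `(t, h)` is in a finite set and depends only on `u`
and on the interval of `x`. Then so do all elements of `G`. -/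
theorem all_one {G H U : Type} [Group G] [Group H] (a : H →* Equiv.Perm U) {S : Set G}
    (hS : Subgroup.closure S = ⊤) (L : ℝ) (ρ : G →* Equiv.Perm (ℝ × U))
    (hD : ∀ s ∈ S, ∀ z, z.1 ∈ Set.Ico 0 L ↔ (ρ s z).1 ∈ Set.Ico 0 L)
    (h : ∀ s ∈ S, ∃ (B : Finset ℝ) (Q : Set (ℝ × H)), Q.Finite ∧
      ∀ x ∈ Set.Ico 0 L, ∀ u, ∃ q ∈ Q, ∀ y ∈ Set.Ico 0 L, Band B x y →
        ρ s (y, u) = (y + q.1, a q.2 u)) :
    (∀ g z, z.1 ∈ Set.Ico 0 L ↔ (ρ g z).1 ∈ Set.Ico 0 L) ∧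
    ∀ g, ∃ (B : Finset ℝ) (Q : Set (ℝ × H)), Q.Finite ∧
      ∀ x ∈ Set.Ico 0 L, ∀ u, ∃ q ∈ Q, ∀ y ∈ Set.Ico 0 L, Band B x y →
        ρ g (y, u) = (y + q.1, a q.2 u) := by
  have key := Reg.Pw.all (F := (regReal L).prod (regPt a)) hS ρ (fun s hs z => by
    constructor
    · rintro ⟨h1, -⟩
      exact ⟨(hD s hs z).1 h1, trivial⟩
    · rintro ⟨h1, -⟩
      exact ⟨(hD s hs z).2 h1, trivial⟩) (fun s hs => by
    obtain ⟨B, Q, hQ, h1⟩ := h s hs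
    refine ⟨_, ⟨Band B, ⟨B, rfl⟩, _, rfl, rfl⟩,
      (fun q : ℝ × H => (Multiplicative.ofAdd q.1, q.2)) '' Q, hQ.image _, ?_⟩
    rintro ⟨x, u⟩ ⟨hx, -⟩
    obtain ⟨q, hq, h2⟩ := h1 x hx u
    refine ⟨_, ⟨q, hq, rfl⟩, ?_⟩
    rintro ⟨y, v⟩ ⟨hy, -⟩ ⟨h3, h4⟩
    have h4 : u = v := h4
    subst h4
    have h5 := h2 y hy h3
    refine ⟨h5, ?_, trivial⟩
    have h6 := (hD s hs (y, u)).1 hy
    rw [h5] at h6
    exact h6)
  refine ⟨fun g z => ?_, fun g => ?_⟩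
  · have := key.1 g z
    constructor
    · intro h1
      exact (this.1 ⟨h1, trivial⟩).1
    · intro h1
      exact (this.2 ⟨h1, trivial⟩).1
  · obtain ⟨_, ⟨_, ⟨B, rfl⟩, _, rfl, rfl⟩, Q, hQ, h1⟩ := key.2 g
    refine ⟨B, (fun q : Multiplicative ℝ × H => (q.1.toAdd, q.2)) '' Q, hQ.image _, ?_⟩
    intro x hx u
    obtain ⟨q, hq, h2⟩ := h1 (x, u) ⟨hx, trivial⟩
    refine ⟨_, ⟨q, hq, rfl⟩, fun y hy hxy => ?_⟩
    exact (h2 (y, u) ⟨hy, trivial⟩ ⟨hxy, rfl⟩).1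

/-- **Two real coordinates** (rectangle exchanges): the generators of `G` map `(x, y)`,
`0 ≤ x < L`, `0 ≤ y < L'`, to `(x + s, y + t)`, where `(s, t)` is in a finite set and depends only
on the intervals of `x` and `y`. Then so do all elements of `G`. -/
theorem all_two {G : Type} [Group G] {S : Set G}
    (hS : Subgroup.closure S = ⊤) (L L' : ℝ) (ρ : G →* Equiv.Perm (ℝ × ℝ))
    (hD : ∀ s ∈ S, ∀ z, (z.1 ∈ Set.Ico 0 L ∧ z.2 ∈ Set.Ico 0 L') ↔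
      ((ρ s z).1 ∈ Set.Ico 0 L ∧ (ρ s z).2 ∈ Set.Ico 0 L'))
    (h : ∀ s ∈ S, ∃ (B B' : Finset ℝ) (Q : Set (ℝ × ℝ)), Q.Finite ∧
      ∀ x ∈ Set.Ico 0 L, ∀ x' ∈ Set.Ico 0 L', ∃ q ∈ Q, ∀ y ∈ Set.Ico 0 L, ∀ y' ∈ Set.Ico 0 L',
        Band B x y → Band B' x' y' → ρ s (y, y') = (y + q.1, y' + q.2)) :
    (∀ g z, (z.1 ∈ Set.Ico 0 L ∧ z.2 ∈ Set.Ico 0 L') ↔
      ((ρ g z).1 ∈ Set.Ico 0 L ∧ (ρ g z).2 ∈ Set.Ico 0 L')) ∧
    ∀ g, ∃ (B B' : Finset ℝ) (Q : Set (ℝ × ℝ)), Q.Finite ∧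
      ∀ x ∈ Set.Ico 0 L, ∀ x' ∈ Set.Ico 0 L', ∃ q ∈ Q, ∀ y ∈ Set.Ico 0 L, ∀ y' ∈ Set.Ico 0 L',
        Band B x y → Band B' x' y' → ρ g (y, y') = (y + q.1, y' + q.2) := by
  have key := Reg.Pw.all (F := (regReal L).prod (regReal L')) hS ρ (fun s hs z => hD s hs z)
    (fun s hs => by
    obtain ⟨B, B', Q, hQ, h1⟩ := h s hs
    refine ⟨_, ⟨Band B, ⟨B, rfl⟩, Band B', ⟨B', rfl⟩, rfl⟩,
      (fun q : ℝ × ℝ => (Multiplicative.ofAdd q.1, Multiplicative.ofAdd q.2)) '' Q,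
      hQ.image _, ?_⟩
    rintro ⟨x, u⟩ ⟨hx, hu⟩
    obtain ⟨q, hq, h2⟩ := h1 x hx u hu
    refine ⟨_, ⟨q, hq, rfl⟩, ?_⟩
    rintro ⟨y, v⟩ ⟨hy, hv⟩ ⟨h3, h4⟩
    have h5 := h2 y hy v hv h3 h4
    refine ⟨h5, ?_⟩
    have h6 := (hD s hs (y, v)).1 ⟨hy, hv⟩
    rw [h5] at h6
    exact h6)
  refine ⟨fun g z => key.1 g z, fun g => ?_⟩
  obtain ⟨_, ⟨_, ⟨B, rfl⟩, _, ⟨B', rfl⟩, rfl⟩, Q, hQ, h1⟩ := key.2 g
  refine ⟨B, B', (fun q : Multiplicative ℝ × Multiplicative ℝ => (q.1.toAdd, q.2.toAdd)) '' Q,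
    hQ.image _, ?_⟩
  intro x hx u hu
  obtain ⟨q, hq, h2⟩ := h1 (x, u) ⟨hx, hu⟩
  refine ⟨_, ⟨q, hq, rfl⟩, fun y hy v hv hxy huv => ?_⟩
  exact (h2 (y, v) ⟨hy, hv⟩ ⟨hxy, huv⟩).1

end Vale.Agent.P192.RL5
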