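import Vale.Agent.P192.H479.RL0
import Vale.Agent.P192.H176.RL5

/-!
# P192, rectangle exchanges, block CLO (helper176): the maps `Gd` form a group
-/

namespace Vale.Agent.P192.H176

open Vale.Agent.P192.H479 (Gd)
open Vale.Agent.P192.RL5

variable {L U : Type} [Group L] [MulAction L U] {lam : ℝ}

/-- the pieces -/
noncomputable abbrev RR (L U : Type) [Group L] [MulAction L U] (lam : ℝ) :
    Reg (prodAct trans (MulAction.toPermHom L U))
      {z : ℝ × U | z.1 ∈ Set.Ico 0 lam ∧ z.2 ∈ Set.univ} :=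
  (regReal lam).prod (regPt (MulAction.toPermHom L U))

/-- the identity outside `[0, lam) × U` -/
theorem mem_of_out {g : Equiv.Perm (ℝ × U)} (h : ∀ x u, x ∉ Set.Ico 0 lam → g (x, u) = (x, u))
    {z : ℝ × U} (hz : z.1 ∈ Set.Ico 0 lam) : (g z).1 ∈ Set.Ico 0 lam := by
  by_contra hcon
  have h1 : g (g z) = g z := h (g z).1 (g z).2 hcon
  have h2 := g.injective h1
  rw [h2] at hcon
  exact hcon hz

theorem out_one (x : ℝ) (u : U) : (1 : Equiv.Perm (ℝ × U)) (x, u) = (x, u) := rfl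

theorem pw_of_gd {g : Equiv.Perm (ℝ × U)} (hg : Gd L lam g) : (RR L U lam).Pw g := by
  obtain ⟨hout, B, K, T, hB, hK, hT, h⟩ := hg
  refine ⟨_, ⟨Band hB.toFinset, ⟨hB.toFinset, rfl⟩, _, rfl, rfl⟩,
    Set.image2 (fun (l : L) (t : ℝ) => (Multiplicative.ofAdd t, l)) K T, hK.image2 _ hT, ?_⟩
  rintro ⟨x, u⟩ ⟨hx, -⟩
  obtain ⟨l, hl, t, ht, h1⟩ := h u x hx.1 hx.2
  refine ⟨_, ⟨l, hl, t, ht, rfl⟩, ?_⟩
  rintro ⟨y, v⟩ ⟨hy, -⟩ ⟨h3, h4⟩
  have h4 : u = v := h4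
  subst h4
  have h5 := h1 y hy.1 hy.2 (fun b hb => h3 b (hB.mem_toFinset.2 hb))
  refine ⟨h5, ?_, trivial⟩
  have h6 := mem_of_out hout (z := (y, u)) hy
  rw [h5] at h6
  exact h6

theorem gd_of_pw {g : Equiv.Perm (ℝ × U)} (hout : ∀ x u, x ∉ Set.Ico 0 lam → g (x, u) = (x, u))
    (hg : (RR L U lam).Pw g) : Gd L lam g := by
  obtain ⟨_, ⟨_, ⟨B, rfl⟩, _, rfl, rfl⟩, Q, hQ, h⟩ := hg
  refine ⟨hout, (B : Set ℝ), (fun q : Multiplicative ℝ × L => q.2) '' Q,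
    (fun q : Multiplicative ℝ × L => q.1.toAdd) '' Q, B.finite_toSet, hQ.image _, hQ.image _, ?_⟩
  intro u x hx hxL
  obtain ⟨q, hq, h1⟩ := h (x, u) ⟨⟨hx, hxL⟩, trivial⟩
  refine ⟨q.2, ⟨q, hq, rfl⟩, q.1.toAdd, ⟨q, hq, rfl⟩, fun y hy hyL hb => ?_⟩
  exact (h1 (y, u) ⟨⟨hy, hyL⟩, trivial⟩ ⟨fun b hb' => hb b hb', rfl⟩).1

theorem gd_one : Gd L lam (1 : Equiv.Perm (ℝ × U)) :=
  gd_of_pw (fun x u _ => out_one x u) (Reg.Pw.one _)

theorem gd_mul {g h : Equiv.Perm (ℝ × U)} (hg : Gd L lam g) (hh : Gd L lam h) :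
    Gd L lam (g * h) := by
  refine gd_of_pw (fun x u hx => ?_) ?_
  · rw [Equiv.Perm.mul_apply, hh.1 x u hx, hg.1 x u hx]
  · exact (pw_of_gd hg).comp (pw_of_gd hh)

theorem out_inv {g : Equiv.Perm (ℝ × U)}
    (h : ∀ x u, x ∉ Set.Ico 0 lam → g (x, u) = (x, u)) :
    ∀ x u, x ∉ Set.Ico 0 lam → g⁻¹ (x, u) = (x, u) := by
  intro x u hx
  have h1 := h x u hx
  conv_lhs => rw [← h1]
  exact g.symm_apply_apply (x, u)

theorem gd_inv {g : Equiv.Perm (ℝ × U)} (hg : Gd L lam g) : Gd L lam g⁻¹ := by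
  refine gd_of_pw (out_inv hg.1) ?_
  refine (pw_of_gd hg).inv (fun z _ => g.symm_apply_apply z) (fun z _ => g.apply_symm_apply z) ?_
  rintro z ⟨hz, -⟩
  exact ⟨mem_of_out (out_inv hg.1) hz, trivial⟩

/-- the maps `Gd` form a subgroup -/
def gdSubgroup (L : Type) [Group L] (U : Type) [MulAction L U] (lam : ℝ) :
    Subgroup (Equiv.Perm (ℝ × U)) where
  carrier := {g | Gd L lam g}
  one_mem' := gd_one
  mul_mem' := gd_mul
  inv_mem' := gd_inv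

/-- **An action whose generators are `Gd`.** -/
theorem gd_all {G : Type} [Group G] {S : Set G} (hS : Subgroup.closure S = ⊤)
    (ρ : G →* Equiv.Perm (ℝ × U)) (h : ∀ s ∈ S, Gd L lam (ρ s)) (g : G) : Gd L lam (ρ g) := by
  have h1 : Subgroup.closure S ≤ (gdSubgroup L U lam).comap ρ :=
    (Subgroup.closure_le _).2 fun s hs => h s hs
  have h2 : g ∈ (gdSubgroup L U lam).comap ρ := h1 (by rw [hS]; trivial)
  exact h2

end Vale.Agent.P192.H176
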