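import Vale.Agent.P192.H176.Cnt0

/-!
# P192, rectangle exchanges with counters (helper176): products of an interval, a free action and
any number of counters
-/

namespace Vale.Agent.P192.H176

open Vale.Agent.P192.RL5 Vale.Agent.P192.H479

section pos

variable {G : Type} [Group G] {L : Type} [Group L] {U : Type} [MulAction L U] {k : ℕ}
  {W : Fin k → Type} {T : ∀ i, Equiv.Perm (W i)} (D : RD G (U × ∀ i, W i))

/-- the elements of `M` move the points of the model as in `GdC` -/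
def HAct (T : ∀ i, Equiv.Perm (W i)) (K₀ : Set (L × (Fin k → ℤ))) (T₁ : Set ℝ)
    (r : (∀ i, W i) → (∀ i, W i) → Prop) : Prop :=
  ∀ a ∈ D.M, ∀ κ, 0 ≤ κ → ∀ (u : U) (w : ∀ i, W i), ∃ l ∈ K₀, ∃ t ∈ T₁, ∀ w' : ∀ i, W i,
    r w w' → D.ρ a (D.p κ, (u, w')) = (D.p κ + t, (l.1 • u, mv T l.2 w'))

variable {D} {K₀ : Set (L × (Fin k → ℤ))} {T₁ : Set ℝ} {r : (∀ i, W i) → (∀ i, W i) → Prop}

theorem HAct.spec (h : HAct D T K₀ T₁ r) (hr : ∀ w, r w w) {a : G} (ha : a ∈ D.M) {κ : ℤ}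
    (hκ : 0 ≤ κ) (u : U) (w : ∀ i, W i) : ∃ l ∈ K₀, ∃ t ∈ T₁, ∀ w' : ∀ i, W i, r w w' →
      D.act a κ (u, w') = D.act a κ (u, w) ∧ D.tr a κ (u, w') = t ∧
        D.act2 a κ (u, w') = (l.1 • u, mv T l.2 w') := by
  obtain ⟨l, hl, t, ht, h1⟩ := h a ha κ hκ u w
  refine ⟨l, hl, t, ht, fun w' hw => ?_⟩
  have h2 := h1 w' hw
  have h3 := h1 w (hr w)
  unfold RD.act RD.tr RD.act2
  rw [h2, h3]
  refine ⟨rfl, ?_, rfl⟩
  change D.p κ + t - D.p κ = t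
  ring

/-- **The potential depends on finite colours of the counters.** -/
theorem pos_col (hgen : Subgroup.closure D.M = ⊤)
    (Ψ : G →* Equiv.Perm ((D.Pt × (U × ∀ i, W i)) × ℝ)) [Fintype Ψ.range]
    (h1 : ∀ a ∈ D.M, ∀ z, Ψ a z = D.φ1 a z) (hK : K₀.Finite) (hT : T₁.Finite)
    (hr : r ∈ (regC T).R) (h : HAct D T K₀ T₁ r) :
    ∃ r' ∈ (regC T).R, ∀ κ u w w', r' w w' → D.pos Ψ κ (u, w) = D.pos Ψ κ (u, w') := by
  classical
  have hrr : ∀ w, r w w := fun w => (regC T).refl r hr w trivial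
  have key := Reg.Pw.all (F := ((regPt (MonoidHom.id (Equiv.Perm D.Pt))).prod
    ((regPt (MulAction.toPermHom L U)).prod (regC T))).prod (regTop trans)) hgen Ψ
    (fun s _ x => ⟨fun _ => ⟨⟨trivial, trivial, trivial⟩, trivial⟩,
      fun _ => ⟨⟨trivial, trivial, trivial⟩, trivial⟩⟩) (fun a ha => by
    refine ⟨_, ⟨_, ⟨_, rfl, _, ⟨_, rfl, r, hr, rfl⟩, rfl⟩, _, rfl, rfl⟩,
      Set.image (fun z : Equiv.Perm D.Pt × (L × (Fin k → ℤ)) × ℝ =>
        ((z.1, (z.2.1.1, Multiplicative.ofAdd z.2.1.2)), Multiplicative.ofAdd z.2.2))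
        (Set.univ ×ˢ (K₀ ×ˢ T₁)), (Set.finite_univ.prod (hK.prod hT)).image _, ?_⟩
    rintro ⟨⟨κ, u, w⟩, s⟩ -
    obtain ⟨l, hl, t, ht, h2⟩ := h.spec hrr ha κ.2.1 u w
    refine ⟨_, ⟨(Equiv.swap κ (D.φ0 a (κ, (u, w))).1, l, t), ⟨trivial, hl, ht⟩, rfl⟩, ?_⟩
    rintro ⟨⟨κ', u', w'⟩, s'⟩ - ⟨⟨e1, e2, e3⟩, -⟩
    have e1 : κ = κ' := e1
    have e2 : u = u' := e2
    subst e1 e2
    refine ⟨?_, ⟨trivial, trivial, trivial⟩, trivial⟩
    obtain ⟨h3, h4, h5⟩ := h2 w' e3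
    have h6 := D.φ0_M ha (κ, (u, w'))
    have h7 := D.φ0_M ha (κ, (u, w))
    rw [h1 a ha]
    refine Prod.ext (Prod.ext ?_ ?_) ?_
    · change (D.φ0 a (κ, (u, w'))).1 = Equiv.swap κ (D.φ0 a (κ, (u, w))).1 κ
      rw [Equiv.swap_apply_left]
      apply Subtype.ext
      rw [h6.1, h7.1]
      exact h3
    · change (D.φ0 a (κ, (u, w'))).2 = (l.1 • u, mv T l.2 w')
      rw [h6.2]
      exact h5
    · change D.tr a κ.1 (u, w') + s' = s' + t
      rw [h4, add_comm])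
  have hg : ∀ g, ∃ r' ∈ (regC T).R, ∀ (κ : D.Pt) u w w', r' w w' →
      (Ψ g ((κ, (u, w)), 0)).2 = (Ψ g ((κ, (u, w')), 0)).2 := by
    intro g
    obtain ⟨_, ⟨_, ⟨_, rfl, _, ⟨_, rfl, r', hr', rfl⟩, rfl⟩, _, rfl, rfl⟩, Q, hQ, h2⟩ := key.2 g
    refine ⟨r', hr', fun κ u w w' hw => ?_⟩
    obtain ⟨q, hq, h3⟩ := h2 ((κ, (u, w)), 0) ⟨⟨trivial, trivial, trivial⟩, trivial⟩
    have h4 := (h3 ((κ, (u, w)), 0) ⟨⟨trivial, trivial, trivial⟩, trivial⟩
      ⟨⟨rfl, rfl, (regC T).refl r' hr' w trivial⟩, trivial⟩).1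
    have h5 := (h3 ((κ, (u, w')), 0) ⟨⟨trivial, trivial, trivial⟩, trivial⟩
      ⟨⟨rfl, rfl, hw⟩, trivial⟩).1
    rw [h4, h5]
    rfl
  have hq : ∀ q : Ψ.range, ∃ r' ∈ (regC T).R, ∀ (κ : D.Pt) u w w', r' w w' →
      ((q : Equiv.Perm ((D.Pt × (U × ∀ i, W i)) × ℝ)) ((κ, (u, w)), 0)).2 =
        ((q : Equiv.Perm ((D.Pt × (U × ∀ i, W i)) × ℝ)) ((κ, (u, w')), 0)).2 := by
    rintro ⟨_, g, rfl⟩
    exact hg g
  choose rq hrq hrq' using hq
  obtain ⟨r', hr', h3⟩ := inf_finite (regC T) (Set.univ : Set Ψ.range) Set.finite_univ rq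
    (fun i _ => hrq i)
  refine ⟨r', hr', fun κ u w w' hw => ?_⟩
  by_cases hκ : 0 ≤ κ ∧ κ < D.ν D.L
  · rw [D.pos_of Ψ hκ, D.pos_of Ψ hκ]
    unfold avg
    congr 2
    refine Finset.sum_congr rfl fun q _ => ?_
    exact hrq' q ⟨κ, hκ⟩ u w w' (h3 q trivial w trivial w' trivial hw)
  · unfold RD.pos
    rw [dif_neg hκ, dif_neg hκ]

theorem W_col {R : Set ℝ} {pos : ℤ → (U × ∀ i, W i) → ℝ} {u : U} {w w' : ∀ i, W i}
    (h : ∀ κ, pos κ (u, w) = pos κ (u, w')) (κ : ℤ) :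
    RD.W R pos κ (u, w) = RD.W R pos κ (u, w') := by
  have h1 : ∀ n : ℕ, RD.wd R pos (u, w) n = RD.wd R pos (u, w') n := by
    intro n
    induction n with
    | zero =>
      change RD.gen R (pos 0 (u, w)) = RD.gen R (pos 0 (u, w'))
      rw [h]
    | succ n ih =>
      change RD.wd R pos (u, w) n * RD.gen R (pos (n + 1) (u, w) - pos n (u, w)) =
        RD.wd R pos (u, w') n * RD.gen R (pos (n + 1) (u, w') - pos n (u, w'))
      rw [ih, h, h]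
  exact h1 _

end pos

/-- **Products of an interval, a free action of a group of asymptotic dimension at most one and any
number of counters.** -/
theorem A2C (G : Type) [Group G] [Group.IsFinitelyPresented G]
    (hG : ∀ x : G, IsOfFinOrder x) (L : Type) [Group L]
    (hL : ∀ E : Set L, E.Finite → ∃ m : ℕ, ∃ C : Set L, ∀ x : L,
      {y | Relation.ReflTransGen (fun a b => (a ∈ C ↔ b ∈ C) ∧ ∃ e ∈ E, b = e * a) x y}.encard ≤ m)
    (U : Type) [MulAction L U] (hU : ∀ (l : L) (u : U), l • u = u → l = 1)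
    {k : ℕ} {W : Fin k → Type} (T : ∀ i, Equiv.Perm (W i)) (lam : ℝ)
    (ρ : G →* Equiv.Perm (ℝ × (U × ∀ i, W i))) (hρ : ∀ g, GdC L T lam (ρ g)) :
    Finite ρ.range := by
  classical
  have hout : ∀ g x v, x ∉ Set.Ico 0 lam → ρ g (x, v) = (x, v) := fun g => (hρ g).1
  rcases le_or_gt lam 0 with hlam | hlam
  · have h1 : ∀ g, ρ g = 1 := by
      intro g
      apply Equiv.ext
      rintro ⟨x, u⟩
      refine hout g x u ?_
      rintro ⟨h2, h3⟩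
      linarith
    have : Subsingleton ρ.range := by
      refine ⟨?_⟩
      rintro ⟨_, g, rfl⟩ ⟨_, g', rfl⟩
      apply Subtype.ext
      change ρ g = ρ g'
      rw [h1, h1]
    infer_instance
  obtain ⟨M, hMf, hM1, hMinv, hgen, htab⟩ := H260.exists_table G
  choose B K Tr m c hB hK hT hpt using fun g => (hρ g).2
  obtain ⟨D, hDM, hDL, hDρ⟩ := exists_RD M hMf hM1 lam hlam ρ hout (⋃ a ∈ M, B a) (⋃ a ∈ M, Tr a)
    (hMf.biUnion fun a _ => hB a) (hMf.biUnion fun a _ => hT a) (by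
      rintro a ha ⟨u, w⟩ x h0 h1
      obtain ⟨l, hl, t, ht, h⟩ := hpt a u w x h0 h1
      exact ⟨t, Set.mem_biUnion ha ht, (l.1 • u, mv T l.2 w), fun y hy0 hy1 hb =>
        h y w hy0 hy1 (fun b hbB => hb b (Set.mem_biUnion ha hbB)) fun _ => rfl⟩)
  subst hDM hDL hDρ
  obtain ⟨K₀, hK₀d⟩ : ∃ K₀ : Set (L × (Fin k → ℤ)), K₀ = insert (1, 0) (⋃ a ∈ D.M, K a) := ⟨_, rfl⟩
  obtain ⟨T₁, hT₁d⟩ : ∃ T₁ : Set ℝ, T₁ = ⋃ a ∈ D.M, Tr a := ⟨_, rfl⟩
  have hK₀ : K₀.Finite := by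
    rw [hK₀d]
    exact (hMf.biUnion fun a _ => hK a).insert _
  have hT₁ : T₁.Finite := by
    rw [hT₁d]
    exact hMf.biUnion fun a _ => hT a
  -- common colours
  obtain ⟨r, hr, hra⟩ := inf_finite (regC T) D.M hMf
    (fun a x y => ∀ i, c a i (x i) = c a i (y i)) (fun a _ => ⟨m a, c a, rfl⟩)
  have hrr : ∀ w, r w w := fun w => (regC T).refl r hr w trivial
  have hact : HAct D T K₀ T₁ r := by
    intro a ha κ hκ u w
    obtain ⟨l, hl, t, ht, h⟩ := hpt a u w (D.p κ) (D.p_ge hκ).1 (D.p_ge hκ).2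
    refine ⟨l, ?_, t, ?_, fun w' hw => ?_⟩
    · rw [hK₀d]
      exact Set.mem_insert_of_mem _ (Set.mem_biUnion ha hl)
    · rw [hT₁d]
      exact Set.mem_biUnion ha ht
    · exact h (D.p κ) w' (D.p_ge hκ).1 (D.p_ge hκ).2 (fun b _ => Iff.rfl)
        (hra a ha w trivial w' trivial hw)
  have hνL : 0 < D.ν D.L := by
    rw [← D.ν0]
    exact D.ν_lt (D.ZC0 _ D.C0) D.ZL D.hL
  -- the mixed model
  have hmix : ∀ Ψ0 : G →* Equiv.Perm (D.Pt × (U × ∀ i, W i)),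
      (∀ a ∈ D.M, ∀ z, Ψ0 a z = D.φ0 a z) → Finite Ψ0.range := by
    intro Ψ0 h0
    obtain ⟨mm, cc, rfl⟩ := hr
    have hne : Nonempty D.Pt := ⟨⟨0, le_rfl, hνL⟩⟩
    let _ : Fintype D.Pt := Fintype.ofFinite _
    have hn : NeZero (Fintype.card D.Pt) := ⟨Fintype.card_ne_zero⟩
    let Q : Type := Multiplicative (ZMod (Fintype.card D.Pt))
    have hQf : Finite Q := inferInstanceAs (Finite (ZMod (Fintype.card D.Pt)))
    let e : D.Pt ≃ Q := (Fintype.equivOfCardEq (by rw [ZMod.card])).trans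
      (Multiplicative.ofAdd (α := ZMod (Fintype.card D.Pt)))
    let E : (D.Pt × (U × ∀ i, W i)) ≃ (U × (∀ i, W i) × Q) :=
      { toFun := fun z => (z.2.1, z.2.2, e z.1)
        invFun := fun y => (e.symm y.2.2, (y.1, y.2.1))
        left_inv := fun z => by
          change (e.symm (e z.1), (z.2.1, z.2.2)) = z
          rw [e.symm_apply_apply]
        right_inv := fun y => by
          change (y.1, y.2.1, e (e.symm y.2.2)) = y
          rw [e.apply_symm_apply] }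
    refine finite_of_cj E Ψ0 ?_
    refine twoC G hG D.M hgen hMinv L Q hL (vfree_fin Q) U Q T hU ?_ _
      (Set.image (fun z : (L × (Fin k → ℤ)) × Q => (z.1.1, z.1.2, z.2)) (K₀ ×ˢ Set.univ))
      ((hK₀.prod Set.finite_univ).image _) mm cc Q id ?_
    · intro x v h
      exact mul_eq_right.1 h
    · intro a ha u w v
      obtain ⟨l, hl, t, ht, h⟩ := hact.spec hrr ha (e.symm v).2.1 u w
      refine ⟨_, ⟨(l, e (D.φ0 a (e.symm v, (u, w))).1 * v⁻¹), ⟨hl, trivial⟩, rfl⟩, ?_⟩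
      rintro w' v' hw hv
      have hv : v = v' := hv
      subst hv
      obtain ⟨h3, h4, h5⟩ := h w' hw
      change E (Ψ0 a (E.symm (u, w', v))) = _
      have e1 : E.symm (u, w', v) = (e.symm v, (u, w')) := rfl
      rw [e1, h0 a ha]
      have h6 := D.φ0_M ha (e.symm v, (u, w'))
      have h7 := D.φ0_M ha (e.symm v, (u, w))
      have h8 : (D.φ0 a (e.symm v, (u, w'))).1 = (D.φ0 a (e.symm v, (u, w))).1 := by
        apply Subtype.ext
        rw [h6.1, h7.1]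
        exact h3
      refine Prod.ext ?_ (Prod.ext ?_ ?_)
      · change (D.φ0 a (e.symm v, (u, w'))).2.1 = l.1 • u
        rw [h6.2]
        exact congrArg Prod.fst h5
      · change (D.φ0 a (e.symm v, (u, w'))).2.2 = mv T l.2 w'
        rw [h6.2]
        exact congrArg Prod.snd h5
      · change e (D.φ0 a (e.symm v, (u, w'))).1 = e (D.φ0 a (e.symm v, (u, w))).1 * v⁻¹ * v
        rw [inv_mul_cancel_right, h8]
  obtain ⟨Ψ0, Ψ, h0, h1, hΨ, hb, hfin⟩ := D.exists_mixed hG hgen htab hmix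
  let _ : Fintype Ψ.range := Fintype.ofFinite _
  have hTT : ∀ a ∈ D.M, ∀ x v, 0 ≤ x → x < D.L → (D.ρ a (x, v)).1 - x ∈ T₁ := by
    rintro a ha x ⟨u, w⟩ hx0 hx1
    obtain ⟨l, hl, t, ht, h⟩ := hpt a u w x hx0 hx1
    rw [h x w hx0 hx1 (fun b _ => Iff.rfl) fun _ => rfl, hT₁d]
    refine Set.mem_biUnion ha ?_
    change x + t - x ∈ Tr a
    rwa [add_sub_cancel_left]
  have hf := D.finite_tr hgen Ψ h1 hΨ _ hT₁ hTT
  obtain ⟨R, hRf, hR0, hR1⟩ := D.exists_R Ψ hνL (RD.finite_avg Ψ hf)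
  have hpos := D.pos_spec Ψ h1 hΨ
  obtain ⟨Φ, hΦ, hΦρ⟩ := D.exists_lift R hpos hgen htab
  have hRfin : Finite R := hRf
  -- colours of the words
  obtain ⟨rp, hrp, hrp'⟩ := pos_col hgen Ψ h1 hK₀ hT₁ hr hact
  obtain ⟨rl, hrl, hrl'⟩ := (regC T).pull_finite hrp
    (Q := (fun l : L × (Fin k → ℤ) => Multiplicative.ofAdd l.2) '' K₀) (hK₀.image _)
  obtain ⟨r₂, hr₂, hr₂'⟩ := (regC T).inf r hr rp hrp
  obtain ⟨r₃, hr₃, hr₃'⟩ := (regC T).inf r₂ hr₂ rl hrl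
  have hcol : ∀ a ∈ D.M, ∀ (κ : D.Pt) u w, ∃ l ∈ K₀, ∀ w', r₃ w w' →
      D.act2 a κ.1 (u, w') = (l.1 • u, mv T l.2 w') ∧
      D.cc R (D.pos Ψ) a κ.1 (u, w') = D.cc R (D.pos Ψ) a κ.1 (u, w) := by
    intro a ha κ u w
    obtain ⟨l, hl, t, ht, h⟩ := hact.spec hrr ha κ.2.1 u w
    refine ⟨l, hl, fun w' hw => ?_⟩
    have g1 := hr₃' w trivial w' trivial hw
    have g2 := hr₂' w trivial w' trivial g1.1
    obtain ⟨h3, h4, h5⟩ := h w' g2.1
    obtain ⟨-, -, h6⟩ := h w (hrr w)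
    refine ⟨h5, ?_⟩
    unfold RD.cc
    have g3 := (hrl' (Multiplicative.ofAdd l.2) ⟨l, hl, rfl⟩ w trivial w' trivial g1.2 trivial).2
    have g4 : RD.W R (D.pos Ψ) (D.act a κ.1 (u, w')) (D.act2 a κ.1 (u, w')) =
        RD.W R (D.pos Ψ) (D.act a κ.1 (u, w)) (D.act2 a κ.1 (u, w)) := by
      rw [h3, h5, h6]
      exact (W_col (fun κ' => hrp' κ' (l.1 • u) _ _ g3) _).symm
    have g5 : RD.W R (D.pos Ψ) κ.1 (u, w') = RD.W R (D.pos Ψ) κ.1 (u, w) :=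
      (W_col (fun κ' => hrp' κ' u _ _ g2.2) _).symm
    rw [g4, g5]
  obtain ⟨mm, cc, rfl⟩ := hr₃
  let _ := Iet.fact (RD.tau R)
  let E : ((ℝ × FreeGroup R) × (U × ∀ i, W i)) ≃ (U × (∀ i, W i) × (ℝ × FreeGroup R)) :=
    { toFun := fun z => (z.2.1, z.2.2, z.1)
      invFun := fun y => (y.2.2, (y.1, y.2.1))
      left_inv := fun z => rfl
      right_inv := fun y => rfl }
  let KM : Set (FreeGroup R) := insert 1 (Set.image2 (fun x y => x * y⁻¹)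
    {w : FreeGroup R | ∃ k v, 0 ≤ k ∧ k < D.ν D.L ∧ w = RD.W R (D.pos Ψ) k v}
    {w : FreeGroup R | ∃ k v, 0 ≤ k ∧ k < D.ν D.L ∧ w = RD.W R (D.pos Ψ) k v})
  have hKM : KM.Finite := ((W_finite hRf _ _).image2 _ (W_finite hRf _ _)).insert 1
  let b : (ℝ × FreeGroup R) → Option D.Pt := fun z =>
    if h : 0 ≤ z.1 ∧ z.1 < D.L then some ⟨D.kk z.1, D.kk_ge h⟩ else none
  have hb0 : ∀ z, b z = none → ¬ (0 ≤ z.1 ∧ z.1 < D.L) := by
    intro z hz h
    change dite _ _ _ = none at hz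
    rw [dif_pos h] at hz
    exact Option.some_ne_none _ hz
  have hb1 : ∀ z κ, b z = some κ → (0 ≤ z.1 ∧ z.1 < D.L) ∧ D.kk z.1 = κ.1 := by
    intro z κ hz
    have hz' : 0 ≤ z.1 ∧ z.1 < D.L := by
      by_contra h
      change dite _ _ _ = some κ at hz
      rw [dif_neg h] at hz
      exact Option.some_ne_none _ hz.symm
    refine ⟨hz', ?_⟩
    change dite _ _ _ = some κ at hz
    rw [dif_pos hz'] at hz
    exact congrArg Subtype.val (Option.some.inj hz)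
  have hrange : Finite ((cj E).comp Φ).range := by
    refine twoC G hG D.M hgen hMinv L (FreeGroup R) hL (vfree_free R) U (ℝ × FreeGroup R) T hU ?_
      _ (Set.image (fun z : (L × (Fin k → ℤ)) × FreeGroup R => (z.1.1, z.1.2, z.2)) (K₀ ×ˢ KM))
      ((hK₀.prod hKM).image _) mm cc (Option D.Pt) b ?_
    · intro f z hz
      have h1 : f * z.2 = z.2 := congrArg Prod.snd hz
      exact mul_eq_right.1 h1
    · intro a ha u w v
      rcases hv : b v with _ | κ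
      · refine ⟨_, ⟨((1, 0), 1), ⟨by rw [hK₀d]; exact Set.mem_insert _ _,
          Set.mem_insert _ _⟩, rfl⟩, fun w' v' hw hv' => ?_⟩
        have hz' := hb0 v' hv'.symm
        rw [one_smul, one_smul, mv_zero]
        change E (Φ a (v', (u, w'))) = (u, w', v')
        rw [hΦ a ha, D.φ2_of' R _ (v', (u, w')) hz']
        rfl
      · obtain ⟨l, hl, h⟩ := hcol a ha κ u w
        refine ⟨_, ⟨(l, D.cc R (D.pos Ψ) a κ.1 (u, w)), ⟨hl, ?_⟩, rfl⟩, fun w' v' hw hv' => ?_⟩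
        · exact Set.mem_insert_of_mem _ ⟨_, ⟨_, _, (D.act_ge κ.2.1 κ.2.2 ha (u, w)).1,
            (D.act_ge κ.2.1 κ.2.2 ha (u, w)).2, rfl⟩, _, ⟨_, _, κ.2.1, κ.2.2, rfl⟩, rfl⟩
        · obtain ⟨hz', hk⟩ := hb1 v' κ hv'.symm
          obtain ⟨g1, g2⟩ := h w' hw
          have g3 : (D.ρ a (v'.1, (u, w'))).2 = (l.1 • u, mv T l.2 w') := by
            rw [← D.act2_kk hz' ha, hk]
            exact g1
          change E (Φ a (v', (u, w'))) = _
          rw [hΦ a ha, D.φ2_of R _ (v', (u, w')) hz']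
          refine Prod.ext ?_ (Prod.ext ?_ (Prod.ext ?_ ?_))
          · change (D.ρ a (v'.1, (u, w'))).2.1 = l.1 • u
            rw [g3]
          · change (D.ρ a (v'.1, (u, w'))).2.2 = mv T l.2 w'
            rw [g3]
          · change (D.ρ a (v'.1, (u, w'))).1 =
              v'.1 + (RD.tau R (D.cc R (D.pos Ψ) a κ.1 (u, w))).toAdd
            rw [← g2, ← hk, D.tau_cc R hpos hR0 hR1 hz' ha (u, w')]
          · change D.cc R (D.pos Ψ) a (D.kk v'.1) (u, w') * v'.2 =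
              D.cc R (D.pos Ψ) a κ.1 (u, w) * v'.2
            rw [hk, g2]
  have hΦf : Finite Φ.range := finite_of_cj E Φ hrange
  refine finite_range_of_ker Φ D.ρ hΦf (fun g hg => ?_)
  apply Equiv.ext
  rintro ⟨x, u⟩
  have h := hΦρ g ((x, 1), u)
  rw [hg] at h
  exact h.symm

end Vale.Agent.P192.H176
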