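import Vale.Agent.P192.H176.Clo
import Vale.Agent.P192.H479.RL5
import Vale.Agent.P192.H567.CtUnif

/-!
# P192, rectangle exchanges with counters, part 0 (helper176): definitions, the case of two factors
-/

namespace Vale.Agent.P192.H176

open Vale.Agent.P192.RL5

/-- the move of the counters -/
def mv {k : ℕ} {W : Fin k → Type} (T : ∀ i, Equiv.Perm (W i)) (q : Fin k → ℤ) (w : ∀ i, W i) :
    ∀ i, W i := fun i => (T i ^ q i) (w i)

theorem mv_zero {k : ℕ} {W : Fin k → Type} (T : ∀ i, Equiv.Perm (W i)) (w : ∀ i, W i) :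
    mv T 0 w = w := by
  funext i
  change (T i ^ (0 : ℤ)) (w i) = w i
  rw [zpow_zero]
  rfl

theorem mv_add {k : ℕ} {W : Fin k → Type} (T : ∀ i, Equiv.Perm (W i)) (q q' : Fin k → ℤ)
    (w : ∀ i, W i) : mv T (q + q') w = mv T q (mv T q' w) := by
  funext i
  change (T i ^ (q i + q' i)) (w i) = (T i ^ q i) ((T i ^ q' i) (w i))
  rw [zpow_add]
  rfl

/-- the action of `ℤ ^ k` on the counters -/
def cact {k : ℕ} {W : Fin k → Type} (T : ∀ i, Equiv.Perm (W i)) :
    Multiplicative (Fin k → ℤ) →* Equiv.Perm (∀ i, W i) where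
  toFun q :=
    { toFun := mv T q.toAdd
      invFun := mv T (-q.toAdd)
      left_inv := fun w => by rw [← mv_add, neg_add_cancel, mv_zero]
      right_inv := fun w => by rw [← mv_add, add_neg_cancel, mv_zero] }
  map_one' := by
    apply Equiv.ext
    intro w
    exact mv_zero T w
  map_mul' p q := by
    apply Equiv.ext
    intro w
    exact mv_add T p.toAdd q.toAdd w

theorem cact_apply {k : ℕ} {W : Fin k → Type} (T : ∀ i, Equiv.Perm (W i))
    (q : Multiplicative (Fin k → ℤ)) (w : ∀ i, W i) : cact T q w = mv T q.toAdd w := rfl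

/-- finite colourings of the counters -/
def regC {k : ℕ} {W : Fin k → Type} (T : ∀ i, Equiv.Perm (W i)) : Reg (cact T) Set.univ where
  R := {r | ∃ (m : ℕ) (c : ∀ i, W i → Fin m), r = fun x y => ∀ i, c i (x i) = c i (y i)}
  ne := ⟨_, 1, fun _ _ => 0, rfl⟩
  refl := by
    rintro _ ⟨m, c, rfl⟩ x _ i
    rfl
  inf := by
    rintro _ ⟨m, c, rfl⟩ _ ⟨m', c', rfl⟩
    refine ⟨_, ⟨m * m', fun i x => finProdFinEquiv (c i x, c' i x), rfl⟩, fun x _ y _ h => ?_⟩
    have h1 := fun i => finProdFinEquiv.injective (h i)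
    exact ⟨fun i => congrArg Prod.fst (h1 i), fun i => congrArg Prod.snd (h1 i)⟩
  pull := by
    rintro _ ⟨m, c, rfl⟩ h
    exact ⟨_, ⟨m, fun i x => c i ((T i ^ h.toAdd i) x), rfl⟩, fun x _ y _ hxy _ => ⟨trivial, hxy⟩⟩

/-- no condition -/
def regTop {H V : Type} [Group H] (a : H →* Equiv.Perm V) : Reg a Set.univ where
  R := {fun _ _ => True}
  ne := ⟨_, rfl⟩
  refl := by
    rintro _ rfl x _
    trivial
  inf := by
    rintro _ rfl _ rfl
    exact ⟨_, rfl, fun x _ y _ h => ⟨h, h⟩⟩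
  pull := by
    rintro _ rfl h
    exact ⟨_, rfl, fun x _ y _ hxy _ => ⟨trivial, trivial⟩⟩

theorem inf_finite {H X : Type} [Group H] {act : H →* Equiv.Perm X} {D : Set X} (F : Reg act D)
    {ι : Type} (s : Set ι) (hs : s.Finite) (r : ι → X → X → Prop) (hr : ∀ i ∈ s, r i ∈ F.R) :
    ∃ r' ∈ F.R, ∀ i ∈ s, ∀ x ∈ D, ∀ y ∈ D, r' x y → r i x y := by
  induction s, hs using Set.Finite.induction_on with
  | empty =>
    obtain ⟨r', hr'⟩ := F.ne
    exact ⟨r', hr', fun i hi => absurd hi (Set.notMem_empty i)⟩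
  | @insert a s _ _ ih =>
    obtain ⟨r₁, h1, h2⟩ := ih fun i hi => hr i (Set.mem_insert_of_mem a hi)
    obtain ⟨r', h5, h6⟩ := F.inf r₁ h1 (r a) (hr a (Set.mem_insert a s))
    refine ⟨r', h5, ?_⟩
    rintro i (rfl | hi) x hx y hy hxy
    · exact (h6 x hx y hy hxy).2
    · exact h2 i hi x hx y hy (h6 x hx y hy hxy).1

/-- `g` is the identity outside of `[0, lam) × U × W`, and moves the points by translations of the
first coordinate, elements of a finite subset of `L × ℤ ^ k` and translations of a finite set, which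
depend on `u`, on the interval of the first coordinate and on finite colours of the `w i`. -/
def GdC (L : Type) [Group L] {U : Type} [MulAction L U] {k : ℕ} {W : Fin k → Type}
    (T : ∀ i, Equiv.Perm (W i)) (lam : ℝ) (g : Equiv.Perm (ℝ × (U × ∀ i, W i))) : Prop :=
  (∀ x v, x ∉ Set.Ico 0 lam → g (x, v) = (x, v)) ∧
  ∃ (B : Set ℝ) (K : Set (L × (Fin k → ℤ))) (T₀ : Set ℝ) (m : ℕ) (c : ∀ i, W i → Fin m),
    B.Finite ∧ K.Finite ∧ T₀.Finite ∧
    ∀ (u : U) (w : ∀ i, W i) (x : ℝ), 0 ≤ x → x < lam → ∃ l ∈ K, ∃ t ∈ T₀,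
      ∀ (y : ℝ) (w' : ∀ i, W i), 0 ≤ y → y < lam →
      (∀ b ∈ B, b ≤ x ↔ b ≤ y) → (∀ i, c i (w i) = c i (w' i)) →
      g (y, (u, w')) = (y + t, (l.1 • u, mv T l.2 w'))

theorem exists_inj {A : Type} [Finite A] {m : ℕ} (h : Nat.card A ≤ m) :
    ∃ f : A → Fin m, Function.Injective f :=
  ⟨fun x => Fin.castLE h (Finite.equivFin A x),
    (Fin.castLE_injective _).comp (Finite.equivFin A).injective⟩

/-- **The case of two tree-like factors and counters** (from `ct_uniform`). -/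
theorem twoC (G : Type) [Group G] [Group.IsFinitelyPresented G] (hG : ∀ x : G, IsOfFinOrder x)
    (M₀ : Set G) (hM₀ : Subgroup.closure M₀ = ⊤) (hinv : ∀ a ∈ M₀, a⁻¹ ∈ M₀)
    (L M : Type) [Group L] [Group M]
    (hL : ∀ E : Set L, E.Finite → ∃ m : ℕ, ∃ C : Set L, ∀ x : L,
      {y | Relation.ReflTransGen (fun a b => (a ∈ C ↔ b ∈ C) ∧ ∃ e ∈ E, b = e * a) x y}.encard ≤ m)
    (hM : ∃ (Γ : Subgroup M) (k : ℕ), Γ.FiniteIndex ∧ Nonempty (Γ ≃* FreeGroup (Fin k)))
    (U V : Type) [MulAction L U] [MulAction M V] {k : ℕ} {W : Fin k → Type}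
    (T : ∀ i, Equiv.Perm (W i))
    (hU : ∀ (l : L) (u : U), l • u = u → l = 1) (hV : ∀ (x : M) (v : V), x • v = v → x = 1)
    (ρ : G →* Equiv.Perm (U × (∀ i, W i) × V)) (K : Set (L × (Fin k → ℤ) × M)) (hK : K.Finite)
    (m : ℕ) (c : ∀ i, W i → Fin m) (β : Type) [Finite β] (b : V → β)
    (h : ∀ a ∈ M₀, ∀ (u : U) (w : ∀ i, W i) (v : V), ∃ l ∈ K, ∀ (w' : ∀ i, W i) (v' : V),
      (∀ i, c i (w i) = c i (w' i)) → b v = b v' →
      ρ a (u, w', v') = (l.1 • u, mv T l.2.1 w', l.2.2 • v')) : Finite ρ.range := by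
  classical
  obtain ⟨Γ, k₀, hΓ, ⟨e⟩⟩ := hM
  obtain ⟨β', hβ'⟩ := exists_inj (A := β) (m := m + Nat.card β) (Nat.le_add_left _ _)
  obtain ⟨ι, hι⟩ := exists_inj (A := Fin m) (m := m + Nat.card β) (by
    rw [Nat.card_fin]; exact Nat.le_add_right _ _)
  obtain ⟨N, h1, h2, h3⟩ := H567.ct_uniform G hG M₀ hM₀ L M hL Γ k₀ e k (m + Nat.card β)
    (insert 1 K) (hK.insert _)
  refine H479.finite_range_of_index ρ N h2 (h3 U V W T hU hV ρ ?_)
  intro s hs
  have hs' : s ∈ M₀ := by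
    rcases hs with hs | hs
    · exact hs
    · have := hinv _ hs
      rwa [inv_inv] at this
  choose l hl hl' using h s hs'
  refine ⟨fun i x => ι (c i x), fun v => β' (b v), fun u α γ =>
    if hh : ∃ z : (∀ i, W i) × V, (fun i => ι (c i (z.1 i))) = α ∧ β' (b z.2) = γ then
      l u hh.choose.1 hh.choose.2 else 1, ?_, ?_⟩
  · intro u α γ
    by_cases hh : ∃ z : (∀ i, W i) × V, (fun i => ι (c i (z.1 i))) = α ∧ β' (b z.2) = γ
    · simp only [dif_pos hh]
      exact Set.mem_insert_of_mem _ (hl _ _ _)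
    · simp only [dif_neg hh]
      exact Set.mem_insert _ _
  · intro u w v
    have hh : ∃ z : (∀ i, W i) × V, (fun i => ι (c i (z.1 i))) = (fun i => ι (c i (w i))) ∧
        β' (b z.2) = β' (b v) := ⟨(w, v), rfl, rfl⟩
    simp only [dif_pos hh]
    obtain ⟨g1, g2⟩ := hh.choose_spec
    exact hl' u hh.choose.1 hh.choose.2 w v (fun i => hι (congrFun g1 i)) (hβ' g2)

end Vale.Agent.P192.H176
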