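import Vale.Agent.P192.H176.Wrd

/-!
# P192: one-sided germs (helper176)

Near actions modulo finitely many hyperplanes `x = b` by piecewise isometries of the last
coordinate become actions by translations on one-sided germs.
-/

namespace Vale.Agent.P192.H176

open Vale.Agent.P192.RL5 Vale.Agent.P192.H479 Vale.Agent.P192.H567 Filter Topology

/-- the real sign -/
noncomputable def sg (σ : ℤˣ) : ℝ := ((σ : ℤ) : ℝ)

theorem sg_one : sg 1 = 1 := by simp [sg]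

theorem sg_neg : sg (-1) = -1 := by simp [sg]

theorem sg_mul (σ τ : ℤˣ) : sg (σ * τ) = sg σ * sg τ := by simp [sg]

theorem sg_sq (σ : ℤˣ) : sg σ * sg σ = 1 := by
  rw [← sg_mul, Int.units_mul_self, sg_one]

theorem sg_inj {σ τ : ℤˣ} (h : sg σ = sg τ) : σ = τ := by
  unfold sg at h
  exact Units.ext (Int.cast_injective h)

/-- the points of the germ `s = (v, σ, a)` -/
noncomputable def pt {V : Type} (s : V × ℤˣ × ℝ) (d : ℝ) : V × ℝ := (s.1, sg s.2.1 * (s.2.2 + d))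

theorem two_of_ev {P : ℝ → Prop} (h : ∀ᶠ d in 𝓝[>] (0 : ℝ), P d) :
    ∃ d₁ d₂, P d₁ ∧ P d₂ ∧ d₂ < d₁ := by
  obtain ⟨d₁, h1, h2⟩ := (h.and self_mem_nhdsWithin).exists
  have h2 : 0 < d₁ := h2
  obtain ⟨d₂, h3, h4⟩ := (h.and (Ioo_mem_nhdsGT h2)).exists
  exact ⟨d₁, d₂, h1, h3, h4.2⟩

theorem pt_inj {V : Type} {s s' : V × ℤˣ × ℝ}
    (h : ∀ᶠ d in 𝓝[>] (0 : ℝ), pt s d = pt s' d) : s = s' := by
  obtain ⟨v, σ, a⟩ := s
  obtain ⟨v', σ', a'⟩ := s'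
  obtain ⟨d₁, d₂, h1, h2, hd⟩ := two_of_ev h
  have e0 : v = v' := congrArg Prod.fst h1
  have e1 : sg σ * (a + d₁) = sg σ' * (a' + d₁) := congrArg Prod.snd h1
  have e2 : sg σ * (a + d₂) = sg σ' * (a' + d₂) := congrArg Prod.snd h2
  have e3 : (sg σ - sg σ') * (d₁ - d₂) = 0 := by linear_combination e1 - e2
  have e4 : sg σ = sg σ' := by
    rcases mul_eq_zero.1 e3 with h3 | h3
    · linarith
    · linarith
  have e5 : σ = σ' := sg_inj e4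
  subst e0 e5
  have e6 : a = a' := by
    have h4 := congrArg (fun x => sg σ * x) e1
    have h5 := sg_sq σ
    have h6 : sg σ * sg σ * (a + d₁) = sg σ * sg σ * (a' + d₁) := by linear_combination h4
    rw [h5] at h6
    linarith
  rw [e6]

/-- the action on the germs -/
theorem germ_act {G V : Type} [Group G] (A : V → Prop) (ρ : G → V × ℝ → V × ℝ)
    (hex : ∀ g (s : V × ℤˣ × ℝ), A s.1 → ∃ s' : V × ℤˣ × ℝ, A s'.1 ∧
      ∀ᶠ d in 𝓝[>] (0 : ℝ), ρ g (pt s d) = pt s' d)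
    (h1 : ∀ s : V × ℤˣ × ℝ, A s.1 → ∀ᶠ d in 𝓝[>] (0 : ℝ), ρ 1 (pt s d) = pt s d)
    (hmul : ∀ g h (s : V × ℤˣ × ℝ), A s.1 →
      ∀ᶠ d in 𝓝[>] (0 : ℝ), ρ (g * h) (pt s d) = ρ g (ρ h (pt s d))) :
    ∃ Φ : G →* Equiv.Perm ({v // A v} × ℤˣ × ℝ), ∀ g s,
      ∀ᶠ d in 𝓝[>] (0 : ℝ), ρ g (pt (s.1.1, s.2) d) = pt ((Φ g s).1.1, (Φ g s).2) d := by
  have hex' : ∀ g (s : {v // A v} × ℤˣ × ℝ), ∃ s' : {v // A v} × ℤˣ × ℝ,
      ∀ᶠ d in 𝓝[>] (0 : ℝ), ρ g (pt (s.1.1, s.2) d) = pt (s'.1.1, s'.2) d := by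
    rintro g ⟨⟨v, hv⟩, s⟩
    obtain ⟨⟨v', s'⟩, h2, h3⟩ := hex g (v, s) hv
    exact ⟨(⟨v', h2⟩, s'), h3⟩
  choose f hf using hex'
  have hinj : ∀ s s' : {v // A v} × ℤˣ × ℝ,
      (∀ᶠ d in 𝓝[>] (0 : ℝ), pt (s.1.1, s.2) d = pt (s'.1.1, s'.2) d) → s = s' := by
    rintro ⟨⟨v, hv⟩, s⟩ ⟨⟨v', hv'⟩, s'⟩ h
    have h2 := pt_inj h
    have e1 : v = v' := congrArg Prod.fst h2
    have e2 : s = s' := congrArg Prod.snd h2
    subst e1 e2
    rfl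
  let inst : MulAction G ({v // A v} × ℤˣ × ℝ) :=
    { smul := f
      one_smul := by
        intro s
        apply hinj
        filter_upwards [hf 1 s, h1 (s.1.1, s.2) s.1.2] with d e1 e2
        exact e1.symm.trans e2
      mul_smul := by
        intro g h s
        apply hinj
        filter_upwards [hf (g * h) s, hmul g h (s.1.1, s.2) s.1.2, hf h s, hf g (f h s)]
          with d e1 e2 e3 e4
        refine e1.symm.trans (e2.trans ?_)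
        rw [e3]
        exact e4 }
  exact ⟨MulAction.toPermHom G _, hf⟩

/-- the sides of a point -/
theorem ev_side (B : Finset ℝ) (σ : ℤˣ) (a : ℝ) : ∀ᶠ d in 𝓝[>] (0 : ℝ), ∀ b ∈ B,
    sg σ * (a + d) ≠ b ∧ (b ≤ sg σ * (a + d) ↔
      ((σ = 1 ∧ b ≤ a) ∨ (σ = -1 ∧ ¬ -b ≤ a))) := by
  have hne : (1 : ℤˣ) ≠ -1 := by decide
  rw [Filter.eventually_all_finset]
  intro b _
  rcases Int.units_eq_one_or σ with rfl | rfl
  · rcases le_or_gt b a with h | h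
    · filter_upwards [self_mem_nhdsWithin] with d hd
      have hd : 0 < d := hd
      rw [sg_one, one_mul]
      exact ⟨by linarith, ⟨fun _ => Or.inl ⟨rfl, h⟩, fun _ => by linarith⟩⟩
    · have h2 : 0 < b - a := by linarith
      filter_upwards [Ioo_mem_nhdsGT h2] with d hd
      rw [sg_one, one_mul]
      refine ⟨by linarith [hd.2], ⟨fun h3 => by linarith [hd.2], ?_⟩⟩
      rintro (⟨-, h3⟩ | ⟨h3, -⟩)
      · linarith
      · exact absurd h3 hne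
  · rcases le_or_gt (-b) a with h | h
    · filter_upwards [self_mem_nhdsWithin] with d hd
      have hd : 0 < d := hd
      rw [sg_neg]
      refine ⟨by linarith, ⟨fun h3 => by linarith, ?_⟩⟩
      rintro (⟨h3, -⟩ | ⟨-, h3⟩)
      · exact absurd h3.symm hne
      · exact absurd h h3
    · have h2 : 0 < -b - a := by linarith
      filter_upwards [Ioo_mem_nhdsGT h2] with d hd
      rw [sg_neg]
      refine ⟨by linarith [hd.2], ⟨fun h3 => Or.inr ⟨rfl, not_le.2 h⟩, fun _ => by linarith [hd.2]⟩⟩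

/-- the breakpoints for the parameters -/
noncomputable def dbl (B : Finset ℝ) : Finset ℝ := B ∪ B.image (fun b => -b)

theorem ev_band (B : Finset ℝ) (σ : ℤˣ) (a : ℝ) : ∃ x : ℝ, x ∉ B ∧
    ∀ a', Same (dbl B) a a' → ∀ᶠ d in 𝓝[>] (0 : ℝ),
      sg σ * (a' + d) ∉ B ∧ Same B x (sg σ * (a' + d)) := by
  obtain ⟨d₀, h1⟩ := (ev_side B σ a).exists
  refine ⟨sg σ * (a + d₀), fun h => (h1 _ h).1 rfl, fun a' ha => ?_⟩
  filter_upwards [ev_side B σ a'] with d hd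
  refine ⟨fun h => (hd _ h).1 rfl, fun b hb => ?_⟩
  rw [(h1 b hb).2, (hd b hb).2, ha b (Finset.mem_union_left _ hb),
    ha (-b) (Finset.mem_union_right _ (Finset.mem_image_of_mem _ hb))]

/-- a point belongs to the band of its right germ -/
theorem ev_pt (B : Finset ℝ) (x : ℝ) : ∀ᶠ d in 𝓝[>] (0 : ℝ),
    sg 1 * (x + d) ∉ B ∧ Same B x (sg 1 * (x + d)) := by
  filter_upwards [ev_side B 1 x] with d hd
  refine ⟨fun h => (hd _ h).1 rfl, fun b hb => ?_⟩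
  rw [(hd b hb).2]
  constructor
  · exact fun h => Or.inl ⟨rfl, h⟩
  · rintro (⟨-, h⟩ | ⟨h, -⟩)
    · exact h
    · exact absurd h (by decide)

/-- finite products keep two-colourings -/
theorem ad_prod (L Q : Type) [Group L] [Group Q] [Finite Q]
    (hL : ∀ E : Set L, E.Finite → ∃ m : ℕ, ∃ C : Set L, ∀ x : L,
      {y | Relation.ReflTransGen (fun a b => (a ∈ C ↔ b ∈ C) ∧ ∃ e ∈ E, b = e * a) x y}.encard ≤ m)
    (E : Set (L × Q)) (hE : E.Finite) : ∃ m : ℕ, ∃ C : Set (L × Q), ∀ x : L × Q,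
      {y | Relation.ReflTransGen (fun a b => (a ∈ C ↔ b ∈ C) ∧ ∃ e ∈ E, b = e * a) x y}.encard
        ≤ m := by
  obtain ⟨m, C, hC⟩ := hL (Prod.fst '' E) (hE.image _)
  refine ⟨m * Nat.card Q, Prod.fst ⁻¹' C, fun x => ?_⟩
  have h1 : {y | Relation.ReflTransGen (fun a b : L × Q => (a ∈ Prod.fst ⁻¹' C ↔
      b ∈ Prod.fst ⁻¹' C) ∧ ∃ e ∈ E, b = e * a) x y} ⊆
      {y | Relation.ReflTransGen (fun a b => (a ∈ C ↔ b ∈ C) ∧ ∃ e ∈ Prod.fst '' E, b = e * a)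
        x.1 y} ×ˢ (Set.univ : Set Q) := by
    intro y hy
    refine ⟨?_, trivial⟩
    have hy' : Relation.ReflTransGen (fun a b : L × Q => (a ∈ Prod.fst ⁻¹' C ↔
      b ∈ Prod.fst ⁻¹' C) ∧ ∃ e ∈ E, b = e * a) x y := hy
    change Relation.ReflTransGen _ x.1 y.1
    clear hy
    induction hy' with
    | refl => exact Relation.ReflTransGen.refl
    | tail _ h2 ih =>
      obtain ⟨h3, e, he, rfl⟩ := h2
      exact ih.tail ⟨h3, e.1, ⟨e, he, rfl⟩, rfl⟩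
  refine (Set.encard_le_encard h1).trans ?_
  rw [Set.encard_prod, Nat.cast_mul]
  refine mul_le_mul' (hC x.1) ?_
  rw [Set.encard_univ, ENat.card_eq_coe_natCard]

/-- the case of the whole line -/
def LineOne : Prop := ∀ (G : Type) [Group G] [Group.IsFinitelyPresented G],
    (∀ x : G, IsOfFinOrder x) → ∀ S : Set G, Subgroup.closure S = ⊤ →
    ∀ (L : Type) [Group L],
    (∀ E : Set L, E.Finite → ∃ m : ℕ, ∃ C : Set L, ∀ x : L,
      {y | Relation.ReflTransGen (fun a b => (a ∈ C ↔ b ∈ C) ∧ ∃ e ∈ E, b = e * a) x y}.encard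
        ≤ m) →
    ∀ (U : Type) [MulAction L U], (∀ (l : L) (u : U), l • u = u → l = 1) →
    ∀ (k : ℕ) (W : Fin k → Type) (T : ∀ i, Equiv.Perm (W i))
      (ρ : G →* Equiv.Perm (U × (∀ i, W i) × ℝ)),
    (∀ s ∈ S, ∃ (m : ℕ) (c : ∀ i, W i → Fin m) (B : Finset ℝ)
      (K : Set (L × (Fin k → ℤ) × ℝ)), K.Finite ∧ ∀ (u : U) (w : ∀ i, W i), ∀ x : ℝ,
        ∃ q ∈ K, ∀ w' : ∀ i, W i, (∀ i, c i (w i) = c i (w' i)) → ∀ x' : ℝ, Same B x x' →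
          ρ s (u, w', x') = (q.1 • u, fun i => (T i ^ q.2.1 i) (w' i), x' + q.2.2)) →
    Finite ρ.range

/-- subsets of free actions -/
theorem emb_line (hLine : LineOne) (G : Type) [Group G] [Group.IsFinitelyPresented G]
    (hG : ∀ x : G, IsOfFinOrder x) (L : Type) [Group L]
    (hL : ∀ E : Set L, E.Finite → ∃ m : ℕ, ∃ C : Set L, ∀ x : L,
      {y | Relation.ReflTransGen (fun a b => (a ∈ C ↔ b ∈ C) ∧ ∃ e ∈ E, b = e * a) x y}.encard ≤ m)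
    (U : Type) [MulAction L U] (hU : ∀ (l : L) (u : U), l • u = u → l = 1)
    (Ω : Type) (j₀ : Ω → U) (hj₀ : Function.Injective j₀)
    {k : ℕ} {W : Fin k → Type} (T : ∀ i, Equiv.Perm (W i))
    (ρ : G →* Equiv.Perm (Ω × (∀ i, W i) × ℝ))
    (hρ : ∀ g, ∃ (B : Finset ℝ) (K : Set (L × (Fin k → ℤ) × ℝ)) (m : ℕ)
      (c : ∀ i, W i → Fin m), K.Finite ∧
        ∀ (ω : Ω) (w : ∀ i, W i), ∀ x : ℝ, ∃ q ∈ K, ∀ w', (∀ i, c i (w i) = c i (w' i)) →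
          ∀ x' : ℝ, Same B x x' →
            j₀ (ρ g (ω, w', x')).1 = q.1 • j₀ ω ∧
              (ρ g (ω, w', x')).2 = (mv T q.2.1 w', x' + q.2.2)) :
    Finite ρ.range := by
  classical
  let j : Ω × (∀ i, W i) × ℝ → U × (∀ i, W i) × ℝ := fun z => (j₀ z.1, z.2)
  have hj : Function.Injective j := by
    rintro ⟨ω, z⟩ ⟨ω', z'⟩ h
    have e2 : j₀ ω = j₀ ω' := congrArg Prod.fst h
    have e3 : z = z' := congrArg Prod.snd h
    rw [hj₀ e2, e3]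
  let f := Equiv.ofInjective j hj
  let Φ : G →* Equiv.Perm (U × (∀ i, W i) × ℝ) := (Equiv.Perm.extendDomainHom f).comp ρ
  have hin : ∀ g z, Φ g (j z) = j (ρ g z) := by
    intro g z
    exact Equiv.Perm.extendDomain_apply_image (ρ g) f z
  have hout : ∀ g y, y ∉ Set.range j → Φ g y = y := by
    intro g y hy
    exact Equiv.Perm.extendDomain_apply_not_subtype (ρ g) f hy
  have hfin : Finite Φ.range := by
    refine hLine G hG Set.univ Subgroup.closure_univ L hL U hU k W T Φ fun g _ => ?_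
    obtain ⟨B, K, m, c, hK, h2⟩ := hρ g
    refine ⟨m, c, B, insert (1, 0, 0) K, hK.insert _, ?_⟩
    intro u w x
    by_cases hu : u ∈ Set.range j₀
    · obtain ⟨ω, rfl⟩ := hu
      obtain ⟨q, hq, h3⟩ := h2 ω w x
      refine ⟨q, Or.inr hq, fun w' hc x' hb => ?_⟩
      obtain ⟨h4, h5⟩ := h3 w' hc x' hb
      change Φ g (j (ω, w', x')) = _
      rw [hin]
      exact Prod.ext h4 h5
    · refine ⟨(1, 0, 0), Or.inl rfl, fun w' _ x' _ => ?_⟩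
      rw [hout g (u, w', x') ?_]
      · change _ = (((1 : L) • u, mv T 0 w', x' + 0) : U × (∀ i, W i) × ℝ)
        rw [one_smul, mv_zero, add_zero]
      · rintro ⟨⟨ω, w₁, x₁⟩, e⟩
        exact hu ⟨ω, congrArg Prod.fst e⟩
  refine finite_range_of_ker Φ ρ hfin fun g hg => ?_
  apply Equiv.ext
  intro z
  apply hj
  rw [← hin, hg]
  rfl

/-- the action of `L × ℤˣ` -/
@[instance_reducible] def lact (L U : Type) [Group L] [MulAction L U] :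
    MulAction (L × ℤˣ) (U × ℤˣ) where
  smul l u := (l.1 • u.1, l.2 * u.2)
  one_smul u := Prod.ext (one_smul L u.1) (one_mul u.2)
  mul_smul l l' u := Prod.ext (mul_smul l.1 l'.1 u.1) (mul_assoc _ _ _)

/-- **Near actions by piecewise isometries of the line, times subsets of free actions and
counters.** -/
theorem near_emb (hLine : LineOne) (G : Type) [Group G] [Group.IsFinitelyPresented G]
    (hG : ∀ x : G, IsOfFinOrder x) (L : Type) [Group L]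
    (hL : ∀ E : Set L, E.Finite → ∃ m : ℕ, ∃ C : Set L, ∀ x : L,
      {y | Relation.ReflTransGen (fun a b => (a ∈ C ↔ b ∈ C) ∧ ∃ e ∈ E, b = e * a) x y}.encard ≤ m)
    (U : Type) [MulAction L U] (hU : ∀ (l : L) (u : U), l • u = u → l = 1)
    (Ω : Type) (A : Ω → Prop) (j₀ : Ω → U) (hj₀ : ∀ ω ω', A ω → A ω' → j₀ ω = j₀ ω' → ω = ω')
    {k : ℕ} {W : Fin k → Type} (T : ∀ i, Equiv.Perm (W i))
    (ρ : G → Ω × (∀ i, W i) × ℝ → Ω × (∀ i, W i) × ℝ)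
    (h1 : ∃ B : Finset ℝ, ∀ ω w x, A ω → x ∉ B → ρ 1 (ω, w, x) = (ω, w, x))
    (hmul : ∀ g h, ∃ B : Finset ℝ, ∀ ω w x, A ω → x ∉ B →
      ρ (g * h) (ω, w, x) = ρ g (ρ h (ω, w, x)))
    (hρ : ∀ g, ∃ (B : Finset ℝ) (K : Set (L × (Fin k → ℤ) × ℤˣ × ℝ)) (m : ℕ)
      (c : ∀ i, W i → Fin m), K.Finite ∧
        ∀ (ω : Ω) (w : ∀ i, W i) (x : ℝ), A ω → x ∉ B → ∃ q ∈ K,
          ∀ (w' : ∀ i, W i) (x' : ℝ), (∀ i, c i (w i) = c i (w' i)) → x' ∉ B → Same B x x' →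
            A (ρ g (ω, w', x')).1 ∧ j₀ (ρ g (ω, w', x')).1 = q.1 • j₀ ω ∧
              (ρ g (ω, w', x')).2 = (mv T q.2.1 w', sg q.2.2.1 * x' + q.2.2.2)) :
    ∃ N : Subgroup G, N.Normal ∧ N.FiniteIndex ∧ ∀ g ∈ N, ∃ B : Finset ℝ, ∀ ω w x, A ω →
      x ∉ B → ρ g (ω, w, x) = (ω, w, x) := by
  classical
  let ρ' : G → (Ω × (∀ i, W i)) × ℝ → (Ω × (∀ i, W i)) × ℝ := fun g z =>
    (((ρ g (z.1.1, z.1.2, z.2)).1, (ρ g (z.1.1, z.1.2, z.2)).2.1), (ρ g (z.1.1, z.1.2, z.2)).2.2)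
  choose B K m c hK hq using hρ
  have hD : ∀ g (ω : Ω) (w : ∀ i, W i) (σ : ℤˣ) (a : ℝ), A ω → ∃ q ∈ K g,
      ∀ (w' : ∀ i, W i) (a' : ℝ), (∀ i, c g i (w i) = c g i (w' i)) → Same (dbl (B g)) a a' →
      ∃ ω', A ω' ∧ j₀ ω' = q.1 • j₀ ω ∧ ∀ᶠ d in 𝓝[>] (0 : ℝ),
        ρ' g (pt ((ω, w'), σ, a') d) =
          pt ((ω', mv T q.2.1 w'), q.2.2.1 * σ, a' + sg (q.2.2.1 * σ) * q.2.2.2) d := by
    intro g ω w σ a hω
    obtain ⟨x, hx, h2⟩ := ev_band (B g) σ a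
    obtain ⟨q, hqK, h3⟩ := hq g ω w x hω hx
    refine ⟨q, hqK, fun w' a' hw ha => ?_⟩
    obtain ⟨d₁, h4, h5⟩ := (h2 a' ha).exists
    obtain ⟨g1, g2, -⟩ := h3 w' _ hw h4 h5
    refine ⟨_, g1, g2, ?_⟩
    filter_upwards [h2 a' ha] with d hd
    obtain ⟨g3, g4, g5⟩ := h3 w' _ hw hd.1 hd.2
    have e1 : (ρ g (ω, w', sg σ * (a' + d))).1 = (ρ g (ω, w', sg σ * (a' + d₁))).1 :=
      hj₀ _ _ g3 g1 (g4.trans g2.symm)
    refine Prod.ext (Prod.ext e1 (congrArg Prod.fst g5)) ?_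
    refine (congrArg Prod.snd g5).trans ?_
    change sg q.2.2.1 * (sg σ * (a' + d)) + q.2.2.2 =
      sg (q.2.2.1 * σ) * (a' + sg (q.2.2.1 * σ) * q.2.2.2 + d)
    have e2 := sg_sq (q.2.2.1 * σ)
    have e3 := sg_mul q.2.2.1 σ
    linear_combination (-q.2.2.2) * e2 - (a' + d) * e3
  obtain ⟨Φ, hΦ⟩ := germ_act (fun v : Ω × (∀ i, W i) => A v.1) ρ' (by
    rintro g ⟨⟨ω, w⟩, σ, a⟩ hω
    obtain ⟨q, -, h2⟩ := hD g ω w σ a hω
    obtain ⟨ω', h3, -, h4⟩ := h2 w a (fun _ => rfl) (fun _ _ => Iff.rfl)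
    exact ⟨_, h3, h4⟩) (by
    rintro ⟨⟨ω, w⟩, σ, a⟩ hω
    obtain ⟨B₁, h2⟩ := h1
    filter_upwards [ev_side B₁ σ a] with d hd
    have h3 := h2 ω w (sg σ * (a + d)) hω (fun h => (hd _ h).1 rfl)
    change (((ρ 1 (ω, w, sg σ * (a + d))).1, (ρ 1 (ω, w, sg σ * (a + d))).2.1),
      (ρ 1 (ω, w, sg σ * (a + d))).2.2) = ((ω, w), sg σ * (a + d))
    rw [h3]) (by
    rintro g h ⟨⟨ω, w⟩, σ, a⟩ hω
    obtain ⟨B₁, h2⟩ := hmul g h
    filter_upwards [ev_side B₁ σ a] with d hd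
    have h3 := h2 ω w (sg σ * (a + d)) hω (fun h => (hd _ h).1 rfl)
    change (((ρ (g * h) (ω, w, sg σ * (a + d))).1, (ρ (g * h) (ω, w, sg σ * (a + d))).2.1),
      (ρ (g * h) (ω, w, sg σ * (a + d))).2.2) = (((ρ g (ρ h (ω, w, sg σ * (a + d)))).1,
        (ρ g (ρ h (ω, w, sg σ * (a + d)))).2.1), (ρ g (ρ h (ω, w, sg σ * (a + d)))).2.2)
    rw [h3])
  -- the germ action as a partial action
  let E : ({v : Ω × (∀ i, W i) // A v.1} × ℤˣ × ℝ) ≃ (({ω // A ω} × ℤˣ) × (∀ i, W i) × ℝ) :=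
    { toFun := fun z => ((⟨z.1.1.1, z.1.2⟩, z.2.1), z.1.1.2, z.2.2)
      invFun := fun z => (⟨(z.1.1.1, z.2.1), z.1.1.2⟩, z.1.2, z.2.2)
      left_inv := fun z => rfl
      right_inv := fun z => rfl }
  let _ : MulAction (L × ℤˣ) (U × ℤˣ) := lact L U
  have hfin : Finite Φ.range := by
    refine finite_of_cj E Φ ?_
    refine emb_line hLine G hG (L × ℤˣ) (ad_prod L ℤˣ hL) (U × ℤˣ) ?_ ({ω // A ω} × ℤˣ)
      (fun z => (j₀ z.1.1, z.2)) ?_ T _ ?_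
    · intro l u h
      have e1 : l.1 • u.1 = u.1 := congrArg Prod.fst h
      have e2 : l.2 * u.2 = u.2 := congrArg Prod.snd h
      exact Prod.ext (hU _ _ e1) (mul_eq_right.1 e2)
    · rintro ⟨⟨ω, hω⟩, σ⟩ ⟨⟨ω', hω'⟩, σ'⟩ h
      have e1 : ω = ω' := hj₀ _ _ hω hω' (congrArg Prod.fst h)
      have e2 : σ = σ' := congrArg Prod.snd h
      subst e1 e2
      rfl
    · intro g
      refine ⟨dbl (B g), (fun r : (L × (Fin k → ℤ) × ℤˣ × ℝ) × ℤˣ =>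
        ((r.1.1, r.1.2.2.1), r.1.2.1, sg r.2 * r.1.2.2.2)) '' (K g ×ˢ Set.univ), m g, c g,
        ((hK g).prod Set.finite_univ).image _, ?_⟩
      rintro ⟨⟨ω, hω⟩, σ⟩ w a
      obtain ⟨q, hqK, h2⟩ := hD g ω w σ a hω
      refine ⟨_, ⟨(q, q.2.2.1 * σ), ⟨hqK, trivial⟩, rfl⟩, fun w' hw a' ha => ?_⟩
      obtain ⟨ω', h3, h4, h5⟩ := h2 w' a' hw ha
      have h6 := hΦ g (⟨(ω, w'), hω⟩, σ, a')
      have h7 := pt_inj ((h6.and h5).mono fun d hd => hd.1.symm.trans hd.2)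
      change (j₀ (Φ g (⟨(ω, w'), hω⟩, σ, a')).1.1.1, (Φ g (⟨(ω, w'), hω⟩, σ, a')).2.1) = _ ∧
        ((Φ g (⟨(ω, w'), hω⟩, σ, a')).1.1.2, (Φ g (⟨(ω, w'), hω⟩, σ, a')).2.2) = _
      have e1 : (Φ g (⟨(ω, w'), hω⟩, σ, a')).1.1 = (ω', mv T q.2.1 w') := congrArg Prod.fst h7
      have e2 : (Φ g (⟨(ω, w'), hω⟩, σ, a')).2 =
        (q.2.2.1 * σ, a' + sg (q.2.2.1 * σ) * q.2.2.2) := congrArg Prod.snd h7
      rw [e1, e2]
      exact ⟨Prod.ext h4 rfl, rfl⟩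
  have hker : Φ.ker.FiniteIndex := by
    have : Finite (G ⧸ Φ.ker) :=
      Finite.of_equiv _ (QuotientGroup.quotientKerEquivRange Φ).symm.toEquiv
    exact Subgroup.finiteIndex_of_finite_quotient
  refine ⟨Φ.ker, inferInstance, hker, fun g hg => ⟨B g, fun ω w x hω hx => ?_⟩⟩
  have hg' : Φ g = 1 := hg
  obtain ⟨q, hqK, h2⟩ := hq g ω w x hω hx
  have h3 := hΦ g (⟨(ω, w), hω⟩, 1, x)
  rw [hg'] at h3
  have h4 : ∀ᶠ d in 𝓝[>] (0 : ℝ), q.1 • j₀ ω = j₀ ω ∧ mv T q.2.1 w = w ∧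
      sg q.2.2.1 * (x + d) + q.2.2.2 = x + d := by
    filter_upwards [h3, ev_pt (B g) x] with d e1 e2
    obtain ⟨g1, g2, g3⟩ := h2 w _ (fun _ => rfl) e2.1 e2.2
    have e3 : (ρ g (ω, w, sg 1 * (x + d))).1 = ω := congrArg (fun z => z.1.1) e1
    have e4 : (ρ g (ω, w, sg 1 * (x + d))).2.1 = w := congrArg (fun z => z.1.2) e1
    have e5 : (ρ g (ω, w, sg 1 * (x + d))).2.2 = sg 1 * (x + d) := congrArg (fun z => z.2) e1
    rw [e3] at g2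
    rw [g3] at e4 e5
    refine ⟨g2.symm, e4, ?_⟩
    have e6 : sg q.2.2.1 * (sg 1 * (x + d)) + q.2.2.2 = sg 1 * (x + d) := e5
    rw [sg_one, one_mul] at e6
    exact e6
  obtain ⟨d₁, d₂, ⟨e1, e2, e3⟩, ⟨-, -, e4⟩, hd⟩ := two_of_ev h4
  have e5 : (sg q.2.2.1 - 1) * (d₁ - d₂) = 0 := by linear_combination e3 - e4
  have e6 : sg q.2.2.1 = 1 := by
    rcases mul_eq_zero.1 e5 with h | h
    · linarith
    · linarith
  have e7 : q.2.2.2 = 0 := by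
    rw [e6] at e3
    linarith
  obtain ⟨g1, g2, g3⟩ := h2 w x (fun _ => rfl) hx (fun _ _ => Iff.rfl)
  refine Prod.ext (hj₀ _ _ g1 hω (g2.trans e1)) ?_
  rw [g3, e2, e6, e7, one_mul, add_zero]

end Vale.Agent.P192.H176
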