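import Vale.Agent.P192.H291.Unif
import Vale.Agent.P192.H479.StmtCell

/-!
# P192: heads and lines (helper176): the class of products of a free action, counters and a line
-/

set_option linter.unusedSectionVars false

namespace Vale.Agent.P192.H176.Hd

open Vale.Agent.P192 Vale.Agent.P192.H567
open Vale.Agent.P192.H479 (CellK)

section fld

variable {𝕜 : Type} [Field 𝕜] [LinearOrder 𝕜] [IsStrictOrderedRing 𝕜]

/-- the sign -/
def sgK (𝕜 : Type) [Field 𝕜] (σ : ℤˣ) : 𝕜 := ((σ : ℤ) : 𝕜)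

theorem sgK_one : sgK 𝕜 1 = 1 := by simp [sgK]

theorem sgK_neg : sgK 𝕜 (-1) = -1 := by simp [sgK]

theorem sgK_mul (σ τ : ℤˣ) : sgK 𝕜 (σ * τ) = sgK 𝕜 σ * sgK 𝕜 τ := by simp [sgK]

theorem sgK_sq (σ : ℤˣ) : sgK 𝕜 σ * sgK 𝕜 σ = 1 := by
  rw [← sgK_mul, Int.units_mul_self, sgK_one]

theorem abs_sgK (σ : ℤˣ) : |sgK 𝕜 σ| = 1 := by
  rcases Int.units_eq_one_or σ with rfl | rfl
  · rw [sgK_one, abs_one]
  · rw [sgK_neg, abs_neg, abs_one]

theorem exists_sgK {e : 𝕜} (h : |e| = 1) : ∃ σ : ℤˣ, sgK 𝕜 σ = e := by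
  rcases eq_or_eq_neg_of_abs_eq h with rfl | rfl
  · exact ⟨1, sgK_one⟩
  · exact ⟨-1, sgK_neg⟩

/-- the isometry `x ↦ ± x + t` -/
def mkK (σ : ℤˣ) (t : 𝕜) : Equiv.Perm 𝕜 where
  toFun x := sgK 𝕜 σ * x + t
  invFun x := sgK 𝕜 σ * (x - t)
  left_inv x := by
    have := sgK_sq (𝕜 := 𝕜) σ
    linear_combination x * this
  right_inv x := by
    have := sgK_sq (𝕜 := 𝕜) σ
    linear_combination (x - t) * this

theorem mkK_apply (σ : ℤˣ) (t x : 𝕜) : mkK σ t x = sgK 𝕜 σ * x + t := rfl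

/-- the letter `(σ, j)` acts by `x ↦ ± x + t j` -/
def wact (t : ℕ → 𝕜) : FreeGroup (ℤˣ × ℕ) →* Equiv.Perm 𝕜 :=
  FreeGroup.lift fun p => mkK p.1 (t p.2)

theorem wact_of (t : ℕ → 𝕜) (p : ℤˣ × ℕ) : wact t (FreeGroup.of p) = mkK p.1 (t p.2) := by
  unfold wact
  rw [FreeGroup.lift_apply_of]

/-- words act by isometries -/
theorem wact_iso (t : ℕ → 𝕜) (g : FreeGroup (ℤˣ × ℕ)) :
    ∃ (σ : ℤˣ) (s : 𝕜), wact t g = mkK σ s := by
  induction g using FreeGroup.induction_on with
  | C1 =>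
    refine ⟨1, 0, ?_⟩
    rw [map_one]
    apply Equiv.ext
    intro x
    rw [mkK_apply, sgK_one, one_mul, add_zero]
    rfl
  | of p => exact ⟨p.1, t p.2, wact_of t p⟩
  | inv_of p _ =>
    refine ⟨p.1, -(sgK 𝕜 p.1 * t p.2), ?_⟩
    rw [map_inv, wact_of]
    apply Equiv.ext
    intro x
    change sgK 𝕜 p.1 * (x - t p.2) = sgK 𝕜 p.1 * x + -(sgK 𝕜 p.1 * t p.2)
    ring
  | mul g g' h h' =>
    obtain ⟨σ, s, h⟩ := h
    obtain ⟨σ', s', h'⟩ := h'
    refine ⟨σ * σ', sgK 𝕜 σ * s' + s, ?_⟩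
    rw [map_mul, h, h']
    apply Equiv.ext
    intro x
    rw [Equiv.Perm.mul_apply, mkK_apply, mkK_apply, mkK_apply, sgK_mul]
    ring

theorem cellK_pull (B : Finset 𝕜) (σ : ℤˣ) (t : 𝕜) [DecidableEq 𝕜] (x y : 𝕜)
    (h : CellK (B.image (mkK σ t).symm) x y) : CellK B (mkK σ t x) (mkK σ t y) := by
  intro b hb
  have h1 := h _ (Finset.mem_image_of_mem _ hb)
  have e1 : (mkK σ t).symm b = sgK 𝕜 σ * (b - t) := rfl
  rw [e1] at h1
  rw [mkK_apply, mkK_apply]
  rcases Int.units_eq_one_or σ with rfl | rfl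
  · rw [sgK_one] at h1 ⊢
    obtain ⟨h2, h3⟩ := h1
    constructor
    · constructor
      · intro h4
        have := h2.1 (by linarith)
        linarith
      · intro h4
        have := h2.2 (by linarith)
        linarith
    · constructor
      · intro h4
        have := h3.1 (by linarith)
        linarith
      · intro h4
        have := h3.2 (by linarith)
        linarith
  · rw [sgK_neg] at h1 ⊢
    obtain ⟨h2, h3⟩ := h1
    constructor
    · constructor
      · intro h4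
        have := h3.1 (by linarith)
        linarith
      · intro h4
        have := h3.2 (by linarith)
        linarith
    · constructor
      · intro h4
        have := h2.1 (by linarith)
        linarith
      · intro h4
        have := h2.2 (by linarith)
        linarith

theorem cellK_mono {B B' : Finset 𝕜} (h : B ⊆ B') {x y : 𝕜} (hxy : CellK B' x y) :
    CellK B x y := fun b hb => hxy b (h hb)

end fld

theorem cellK_images {𝕜 ι : Type} [Field 𝕜] [LinearOrder 𝕜] [IsStrictOrderedRing 𝕜]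
    (t : ℕ → 𝕜) (S : Finset ι) (B : Finset 𝕜) (w : ι → FreeGroup (ℤˣ × ℕ)) (x x' : 𝕜)
    (h : CellK (S.biUnion fun s => B.image (wact t (w s)).symm) x x') (s : ι) (hs : s ∈ S) :
    CellK B (wact t (w s) x) (wact t (w s) x') := by
  obtain ⟨σ, t', h1⟩ := wact_iso t (w s)
  have h2 : CellK (B.image (wact t (w s)).symm) x x' :=
    cellK_mono (Finset.subset_biUnion_of_mem (fun s => B.image (wact t (w s)).symm) hs) h
  rw [h1] at h2 ⊢
  exact cellK_pull B σ t' x x' h2

theorem card_images {K ι : Type} [DecidableEq K] (S : Finset ι) (B : Finset K) (f : ι → K → K)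
    (m : ℕ) (h : B.card ≤ m) : (S.biUnion fun s => B.image (f s)).card ≤ S.card * m :=
  Finset.card_biUnion_le_card_mul _ _ m fun _ _ => Finset.card_image_le.trans h

/-- a product of a free action, `k` counters and a line -/
structure LSys (L : Type) [Group L] (PU : ∀ (U : Type) [MulAction L U], Prop) (k m : ℕ) (Y : Type)
    [MulAction (L × (Fin k → Multiplicative ℤ) × FreeGroup (ℤˣ × ℕ)) Y]
    (b : Y → Fin m × (Fin k → Fin m) × Fin m) where
  𝕜 : Type
  [i1 : Field 𝕜]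
  [i2 : LinearOrder 𝕜]
  [i3 : IsStrictOrderedRing 𝕜]
  U : Type
  [i4 : MulAction L U]
  W : Fin k → Type
  T : ∀ i, Equiv.Perm (W i)
  t : ℕ → 𝕜
  e : Y ≃ U × (∀ i, W i) × 𝕜
  α : U → Fin m
  a : ∀ i, W i → Fin m
  β : 𝕜 → Fin m
  B : Finset 𝕜
  free : PU U
  card : B.card ≤ m
  cell : ∀ x x', CellK B x x' → β x = β x'
  he : ∀ (l : L × (Fin k → Multiplicative ℤ) × FreeGroup (ℤˣ × ℕ)) (y : Y), e (l • y) =
    (l.1 • (e y).1, fun i => (T i ^ (l.2.1 i).toAdd) ((e y).2.1 i), wact t l.2.2 (e y).2.2)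
  hb : ∀ y, b y = (α (e y).1, fun i => a i ((e y).2.1 i), β (e y).2.2)

attribute [instance] LSys.i1 LSys.i2 LSys.i3 LSys.i4

theorem lref (L : Type) [Group L] (PU : ∀ (U : Type) [MulAction L U], Prop) (k m : ℕ)
    (S : Set (L × (Fin k → Multiplicative ℤ) × FreeGroup (ℤˣ × ℕ))) (hS : S.Finite) :
    ∃ m', ∀ (Y : Type) [MulAction (L × (Fin k → Multiplicative ℤ) × FreeGroup (ℤˣ × ℕ)) Y]
      (b : Y → Fin m × (Fin k → Fin m) × Fin m), Nonempty (LSys L PU k m Y b) →
      ∃ b' : Y → Fin m' × (Fin k → Fin m') × Fin m', Nonempty (LSys L PU k m' Y b') ∧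
        ∀ x y, b' x = b' y → ∀ s ∈ S, b (s • x) = b (s • y) := by
  classical
  have hSf : Finite S := hS
  obtain ⟨M, hM, ε, hε⟩ : ∃ M : ℕ, hS.toFinset.card * m ≤ M ∧
      ∃ ε : (S → Fin m) → Fin M, Function.Injective ε :=
    ⟨Nat.card (S → Fin m) + hS.toFinset.card * m, Nat.le_add_left _ _,
      fun x => Fin.castLE (Nat.le_add_right _ _) (Finite.equivFin _ x),
      (Fin.castLE_injective _).comp (Finite.equivFin _).injective⟩
  refine ⟨M, ?_⟩
  rintro Y _ b ⟨D⟩
  refine ⟨fun y => (ε (fun s => D.α (s.1.1 • (D.e y).1)),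
    fun i => ε (fun s => D.a i ((D.T i ^ (s.1.2.1 i).toAdd) ((D.e y).2.1 i))),
    ε (fun s => D.β (wact D.t s.1.2.2 (D.e y).2.2))), ⟨?_⟩, ?_⟩
  · exact
      { 𝕜 := D.𝕜
        U := D.U
        W := D.W
        T := D.T
        t := D.t
        e := D.e
        α := fun u => ε (fun s => D.α (s.1.1 • u))
        a := fun i w => ε (fun s => D.a i ((D.T i ^ (s.1.2.1 i).toAdd) w))
        β := fun x => ε (fun s => D.β (wact D.t s.1.2.2 x))
        B := hS.toFinset.biUnion fun s => D.B.image (wact D.t s.2.2).symm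
        free := D.free
        card := (card_images _ _ _ m D.card).trans hM
        cell := by
          intro x x' h
          refine congrArg ε (funext fun s => ?_)
          exact D.cell _ _ (cellK_images D.t hS.toFinset D.B (fun s => s.2.2) x x' h s.1
            (hS.mem_toFinset.2 s.2))
        he := D.he
        hb := fun _ => rfl }
  · intro x y hxy s hs
    have h1 := congrFun (hε (congrArg Prod.fst hxy)) ⟨s, hs⟩
    have h2 := fun i => congrFun (hε (congrFun (congrArg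
      (fun q : Fin M × (Fin k → Fin M) × Fin M => q.2.1) hxy) i)) ⟨s, hs⟩
    have h3 := congrFun (hε (congrArg
      (fun q : Fin M × (Fin k → Fin M) × Fin M => q.2.2) hxy)) ⟨s, hs⟩
    rw [D.hb, D.hb, D.he, D.he]
    exact Prod.ext h1 (Prod.ext (funext h2) h3)

/-- products of a free action, `k` counters and a line -/
def lineC (L : Type) [Group L] (PU : ∀ (U : Type) [MulAction L U], Prop) (k : ℕ) :
    Cls (L × (Fin k → Multiplicative ℤ) × FreeGroup (ℤˣ × ℕ)) where
  C := fun m => Fin m × (Fin k → Fin m) × Fin m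
  fin := fun m => inferInstance
  P := fun _ Y _ b => Nonempty (LSys L PU k _ Y b)
  ref := fun m S hS => lref L PU k m S hS

end Vale.Agent.P192.H176.Hd
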