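import Vale.Agent.P192.H176.Hd0

/-!
# P192: heads and lines (helper176): uniform finiteness for the class of lines
-/

set_option linter.unusedSectionVars false

namespace Vale.Agent.P192.H176.Hd

open Vale.Agent.P192 Vale.Agent.P192.H567 Vale.Agent.P192.H593 Vale.Agent.P192.H437
open Vale.Agent.P192.H479 (CellK)

/-- one normal subgroup of finite index for all ordered fields -/
def UnifP (L : Type) [Group L] (PU : ∀ (U : Type) [MulAction L U], Prop) : Prop :=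
    ∀ (G : Type) [Group G] [Group.IsFinitelyPresented G],
    (∀ x : G, IsOfFinOrder x) → ∀ S : Set G, Subgroup.closure S = ⊤ →
    ∀ (k m : ℕ) (K₀ : Set (L × (Fin k → ℤ))), K₀.Finite →
    ∃ N : Subgroup G, N.Normal ∧ N.FiniteIndex ∧
      ∀ (𝕜 : Type) [Field 𝕜] [LinearOrder 𝕜] [IsStrictOrderedRing 𝕜] (U : Type) [MulAction L U],
      PU U →
      ∀ (W : Fin k → Type) (T : ∀ i, Equiv.Perm (W i)) (ρ : G →* Equiv.Perm (U × (∀ i, W i) × 𝕜)),
      (∀ s ∈ S, ∃ (c : ∀ i, W i → Fin m) (B R : Finset 𝕜), B.card ≤ m ∧ R.card ≤ m ∧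
        ∀ (u : U) (w : ∀ i, W i) (x : 𝕜), ∃ q ∈ K₀, ∃ t ∈ R, ∃ e : 𝕜, |e| = 1 ∧
          ∀ w' : ∀ i, W i, (∀ i, c i (w i) = c i (w' i)) → ∀ x' : 𝕜, CellK B x x' →
            ρ s (u, w', x') = (q.1 • u, fun i => (T i ^ q.2 i) (w' i), e * x' + t)) →
      ∀ g ∈ N, ρ g = 1

/-- a cyclic permutation of a finite set -/
theorem exists_cyc (I : Type) [Finite I] (n : ℕ) (hn : Nat.card I ≤ n) :
    ∃ (T : Equiv.Perm I) (ζ : I → I → ℤ), ∀ i i', |ζ i i'| ≤ (n : ℤ) ∧ (T ^ ζ i i') i = i' := by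
  rcases isEmpty_or_nonempty I with h | h
  · exact ⟨1, fun _ _ => 0, fun i => h.elim i⟩
  have hc : NeZero (Nat.card I) := ⟨Nat.card_pos.ne'⟩
  let e : I ≃ ZMod (Nat.card I) := (Finite.equivFinOfCardEq rfl).trans
    (Finite.equivFinOfCardEq (Nat.card_zmod _)).symm
  let T : Equiv.Perm I := (e.trans (Equiv.addRight 1)).trans e.symm
  have h1 : ∀ (z : ℕ) (i : I), e ((T ^ z) i) = e i + z := by
    intro z
    induction z with
    | zero =>
      intro i
      simp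
    | succ z ih =>
      intro i
      rw [pow_succ', Equiv.Perm.mul_apply]
      change e (e.symm (e ((T ^ z) i) + 1)) = _
      rw [Equiv.apply_symm_apply, ih]
      push_cast
      ring
  refine ⟨T, fun i i' => ((e i' - e i).val : ℤ), fun i i' => ⟨?_, ?_⟩⟩
  · have h2 : (e i' - e i).val < Nat.card I := ZMod.val_lt _
    change |((e i' - e i).val : ℤ)| ≤ (n : ℤ)
    rw [abs_of_nonneg (by positivity)]
    exact_mod_cast h2.le.trans hn
  · apply e.injective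
    rw [zpow_natCast, h1, ZMod.natCast_zmod_val]
    ring

theorem uf_aux (L : Type) [Group L] (PU : ∀ (U : Type) [MulAction L U], Prop)
    (hU1 : UnifP L PU) (k : ℕ) (G : Type) [Group G] [Group.IsFinitelyPresented G] (hG : ∀ x : G, IsOfFinOrder x)
    (M : ℕ) (σ : Fin M → G) (hσ : Subgroup.closure (Set.range σ) = ⊤) (n m : ℕ)
    (K : Set (L × (Fin k → Multiplicative ℤ) × FreeGroup (ℤˣ × ℕ))) (hK : K.Finite) :
    ∃ N : Subgroup G, N.Normal ∧ N.FiniteIndex ∧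
      ∀ (I : Type) [Finite I], Nat.card I ≤ n →
      ∀ (Y : Type) [MulAction (L × (Fin k → Multiplicative ℤ) × FreeGroup (ℤˣ × ℕ)) Y]
        (b : Y → Fin m × (Fin k → Fin m) × Fin m), LSys L PU k m Y b →
      ∀ (f : Fin M × Bool → I → Fin m × (Fin k → Fin m) × Fin m →
        I × (L × (Fin k → Multiplicative ℤ) × FreeGroup (ℤˣ × ℕ))),
      (∀ l i β, (f l i β).2 ∈ K) →
      ∀ ρ : G →* Equiv.Perm (I × Y),
      (∀ l i y, ρ (gen σ l) (i, y) = ((f l i (b y)).1, (f l i (b y)).2 • y)) →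
      ∀ g ∈ N, ρ g = 1 := by
  classical
  obtain ⟨m₁, hm, hn, hc⟩ : ∃ m₁, m ≤ m₁ ∧ n ≤ m₁ ∧ hK.toFinset.card ≤ m₁ :=
    ⟨m + n + hK.toFinset.card, by omega, by omega, by omega⟩
  obtain ⟨N, h1, h2, h3⟩ := hU1 G hG (Set.range σ) hσ (k + 1) m₁
    ((fun q : (L × (Fin k → Multiplicative ℤ) × FreeGroup (ℤˣ × ℕ)) × ℤ =>
      (q.1.1, (Fin.cons q.2 fun i => (q.1.2.1 i).toAdd : Fin (k + 1) → ℤ))) ''
      (K ×ˢ Set.Icc (-(n : ℤ)) n)) ((hK.prod (Set.finite_Icc _ _)).image _)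
  refine ⟨N, h1, h2, ?_⟩
  intro I _ hI Y _ b D f hf ρ hρ g hg
  obtain ⟨TI, ζ, hζ⟩ := exists_cyc I n hI
  obtain ⟨cI, hcI⟩ : ∃ cI : I → Fin m₁, Function.Injective cI :=
    ⟨fun i => Fin.castLE (hI.trans hn) (Finite.equivFin I i),
      (Fin.castLE_injective _).comp (Finite.equivFin I).injective⟩
  let W' : Fin (k + 1) → Type := Fin.cons I D.W
  let T' : ∀ i, Equiv.Perm (W' i) := Fin.cons (α := fun i => Equiv.Perm (W' i)) TI D.T
  let E : I × Y ≃ D.U × (∀ i, W' i) × D.𝕜 :=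
    { toFun := fun q => ((D.e q.2).1, Fin.cons (α := W') q.1 (D.e q.2).2.1, (D.e q.2).2.2)
      invFun := fun q => (q.2.1 0, D.e.symm (q.1, fun i => q.2.1 i.succ, q.2.2))
      left_inv := by
        rintro ⟨i, y⟩
        refine Prod.ext rfl ?_
        apply D.e.injective
        change D.e (D.e.symm ((D.e y).1, (D.e y).2.1, (D.e y).2.2)) = D.e y
        rw [Equiv.apply_symm_apply]
      right_inv := by
        rintro ⟨u, w, x⟩
        change ((D.e (D.e.symm (u, (fun i => w i.succ), x))).1,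
          Fin.cons (α := W') (w 0) (D.e (D.e.symm (u, (fun i => w i.succ), x))).2.1,
          (D.e (D.e.symm (u, (fun i => w i.succ), x))).2.2) = _
        rw [Equiv.apply_symm_apply]
        refine Prod.ext rfl (Prod.ext (funext fun i => ?_) rfl)
        refine Fin.cases ?_ (fun i => ?_) i
        · rfl
        · rfl }
  obtain ⟨ρ', h4, h5⟩ := exists_conj E ρ
  apply h5
  choose sσ sh hsh using fun q : L × (Fin k → Multiplicative ℤ) × FreeGroup (ℤˣ × ℕ) =>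
    wact_iso D.t q.2.2
  refine h3 D.𝕜 D.U D.free W' T' ρ' ?_ g hg
  rintro _ ⟨l, rfl⟩
  refine ⟨Fin.cons (α := fun i => W' i → Fin m₁) cI fun i w => Fin.castLE hm (D.a i w), D.B,
    hK.toFinset.image sh, D.card.trans hm, Finset.card_image_le.trans hc, ?_⟩
  intro u w x
  let q₀ := f (l, true) (w 0) (D.α u, fun j => D.a j (w j.succ), D.β x)
  have hq₀ : q₀.2 ∈ K := hf _ _ _
  refine ⟨_, ⟨(q₀.2, ζ (w 0) q₀.1), ⟨hq₀, ?_⟩, rfl⟩, sh q₀.2,
    Finset.mem_image_of_mem _ (hK.mem_toFinset.2 hq₀), sgK D.𝕜 (sσ q₀.2), abs_sgK _, ?_⟩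
  · have := (hζ (w 0) q₀.1).1
    rw [abs_le] at this
    exact this
  · intro w' hw x' hx
    have e0 : w 0 = w' 0 := hcI (hw 0)
    have e1 : ∀ j : Fin k, D.a j (w j.succ) = D.a j (w' j.succ) := fun j =>
      Fin.castLE_injective hm (hw j.succ)
    have e2 : D.β x = D.β x' := D.cell x x' hx
    obtain ⟨⟨i, y⟩, hy⟩ := E.surjective (u, w', x')
    have g1 : (D.e y).1 = u := congrArg Prod.fst hy
    have g2 : (Fin.cons (α := W') i (D.e y).2.1 : ∀ i, W' i) = w' :=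
      congrArg (fun q : D.U × (∀ i, W' i) × D.𝕜 => q.2.1) hy
    have g3 : (D.e y).2.2 = x' := congrArg (fun q : D.U × (∀ i, W' i) × D.𝕜 => q.2.2) hy
    have g4 : i = w' 0 := congrFun g2 0
    have g5 : ∀ j : Fin k, (D.e y).2.1 j = w' j.succ := fun j => congrFun g2 j.succ
    have g6 : f (l, true) i (b y) = q₀ := by
      change _ = f (l, true) (w 0) (D.α u, fun j => D.a j (w j.succ), D.β x)
      rw [D.hb, g4, e0, g1, g3, e2]
      congr 2
      refine Prod.ext (funext fun j => ?_) rfl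
      change D.a j ((D.e y).2.1 j) = D.a j (w j.succ)
      rw [g5, e1]
    have g7 : ρ' (σ l) (E (i, y)) = E (ρ (σ l) (i, y)) := h4 _ _
    have g8 : ρ (σ l) (i, y) = (q₀.1, q₀.2 • y) := by
      have := hρ (l, true) i y
      rw [g6] at this
      exact this
    rw [← hy, g7, g8]
    change ((D.e (q₀.2 • y)).1, Fin.cons (α := W') q₀.1 (D.e (q₀.2 • y)).2.1,
      (D.e (q₀.2 • y)).2.2) = _
    rw [D.he, g1, g3, hsh]
    refine Prod.ext rfl (Prod.ext (funext fun j => ?_) rfl)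
    refine Fin.cases ?_ (fun j => ?_) j
    · exact ((hζ (w 0) q₀.1).2).symm.trans (congrArg (TI ^ ζ (w 0) q₀.1) e0)
    · change (D.T j ^ (q₀.2.2.1 j).toAdd) ((D.e y).2.1 j) =
        (D.T j ^ (q₀.2.2.1 j).toAdd) (w' j.succ)
      rw [g5]

theorem uf_line (L : Type) [Group L] (PU : ∀ (U : Type) [MulAction L U], Prop)
    (hU1 : UnifP L PU) (k : ℕ) : UF (lineC L PU k) := by
  intro G _ _ hG M σ hσ n m K hK
  obtain ⟨N, h1, h2, h3⟩ := uf_aux L PU hU1 k G hG M σ hσ n m K hK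
  refine ⟨N, h1, h2, ?_⟩
  rintro I _ hI Y _ b ⟨D⟩ f hf ρ hρ
  exact h3 I hI Y b D f hf ρ hρ

end Vale.Agent.P192.H176.Hd
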