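import Vale.Agent.P192.H176.Hd3
import Vale.Agent.P192.H823.K.K7

/-!
# P192: heads and planes (helper176): the class of products of counters and a plane
-/

set_option linter.unusedSectionVars false

namespace Vale.Agent.P192.H176.Hd

open Vale.Agent.P192 Vale.Agent.P192.H567 Vale.Agent.P192.H593 Vale.Agent.P192.H437
open Vale.Agent.P192.H479 (CellK)

/-- the letters of the plane -/
abbrev PL : Type := (ℤˣ × ℕ) × (ℤˣ × ℕ) × Bool

section fld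

variable {𝕜 : Type} [Field 𝕜] [LinearOrder 𝕜] [IsStrictOrderedRing 𝕜]

/-- the isometry `(x, y) ↦ (± x + a, ± y + b)`, or `(± y + a, ± x + b)` -/
def mkP (s : Bool) (σ : ℤˣ) (a : 𝕜) (τ : ℤˣ) (b : 𝕜) : Equiv.Perm (𝕜 × 𝕜) :=
  (cond s (Equiv.prodComm 𝕜 𝕜) (Equiv.refl _)).trans (Equiv.prodCongr (mkK σ a) (mkK τ b))

theorem mkP_false (σ : ℤˣ) (a : 𝕜) (τ : ℤˣ) (b x y : 𝕜) :
    mkP false σ a τ b (x, y) = (sgK 𝕜 σ * x + a, sgK 𝕜 τ * y + b) := rfl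

theorem mkP_true (σ : ℤˣ) (a : 𝕜) (τ : ℤˣ) (b x y : 𝕜) :
    mkP true σ a τ b (x, y) = (sgK 𝕜 σ * y + a, sgK 𝕜 τ * x + b) := rfl

/-- the letters act by isometries of the plane -/
def pact (t : ℕ → 𝕜) : FreeGroup PL →* Equiv.Perm (𝕜 × 𝕜) :=
  FreeGroup.lift fun p => mkP p.2.2 p.1.1 (t p.1.2) p.2.1.1 (t p.2.1.2)

theorem pact_of (t : ℕ → 𝕜) (p : PL) :
    pact t (FreeGroup.of p) = mkP p.2.2 p.1.1 (t p.1.2) p.2.1.1 (t p.2.1.2) := by
  unfold pact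
  rw [FreeGroup.lift_apply_of]

theorem mkP_mul (s s' : Bool) (σ σ' τ τ' : ℤˣ) (a a' b b' : 𝕜) :
    ∃ (s'' : Bool) (σ'' τ'' : ℤˣ) (a'' b'' : 𝕜),
      mkP s σ a τ b * mkP s' σ' a' τ' b' = mkP s'' σ'' a'' τ'' b'' := by
  cases s
  · refine ⟨s', σ * σ', τ * τ', sgK 𝕜 σ * a' + a, sgK 𝕜 τ * b' + b, ?_⟩
    apply Equiv.ext
    rintro ⟨x, y⟩
    cases s'
    · rw [Equiv.Perm.mul_apply, mkP_false, mkP_false, mkP_false, sgK_mul, sgK_mul]
      exact Prod.ext (by ring) (by ring)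
    · rw [Equiv.Perm.mul_apply, mkP_true, mkP_false, mkP_true, sgK_mul, sgK_mul]
      exact Prod.ext (by ring) (by ring)
  · refine ⟨!s', σ * τ', τ * σ', sgK 𝕜 σ * b' + a, sgK 𝕜 τ * a' + b, ?_⟩
    apply Equiv.ext
    rintro ⟨x, y⟩
    cases s'
    · change mkP true σ a τ b (mkP false σ' a' τ' b' (x, y)) = mkP true _ _ _ _ (x, y)
      rw [mkP_false, mkP_true, mkP_true, sgK_mul, sgK_mul]
      exact Prod.ext (by ring) (by ring)
    · change mkP true σ a τ b (mkP true σ' a' τ' b' (x, y)) = mkP false _ _ _ _ (x, y)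
      rw [mkP_true, mkP_true, mkP_false, sgK_mul, sgK_mul]
      exact Prod.ext (by ring) (by ring)

theorem mkP_inv (s : Bool) (σ τ : ℤˣ) (a b : 𝕜) :
    ∃ (s'' : Bool) (σ'' τ'' : ℤˣ) (a'' b'' : 𝕜), (mkP s σ a τ b)⁻¹ = mkP s'' σ'' a'' τ'' b'' := by
  have h1 := sgK_sq (𝕜 := 𝕜) σ
  have h2 := sgK_sq (𝕜 := 𝕜) τ
  cases s
  · refine ⟨false, σ, τ, -(sgK 𝕜 σ * a), -(sgK 𝕜 τ * b), ?_⟩
    rw [inv_eq_iff_mul_eq_one]
    apply Equiv.ext
    rintro ⟨x, y⟩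
    rw [Equiv.Perm.mul_apply, mkP_false, mkP_false]
    change _ = (x, y)
    refine Prod.ext ?_ ?_
    · change sgK 𝕜 σ * (sgK 𝕜 σ * x + -(sgK 𝕜 σ * a)) + a = x
      linear_combination (x - a) * h1
    · change sgK 𝕜 τ * (sgK 𝕜 τ * y + -(sgK 𝕜 τ * b)) + b = y
      linear_combination (y - b) * h2
  · refine ⟨true, τ, σ, -(sgK 𝕜 τ * b), -(sgK 𝕜 σ * a), ?_⟩
    rw [inv_eq_iff_mul_eq_one]
    apply Equiv.ext
    rintro ⟨x, y⟩
    rw [Equiv.Perm.mul_apply, mkP_true, mkP_true]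
    change _ = (x, y)
    refine Prod.ext ?_ ?_
    · change sgK 𝕜 σ * (sgK 𝕜 σ * x + -(sgK 𝕜 σ * a)) + a = x
      linear_combination (x - a) * h1
    · change sgK 𝕜 τ * (sgK 𝕜 τ * y + -(sgK 𝕜 τ * b)) + b = y
      linear_combination (y - b) * h2

theorem pact_iso (t : ℕ → 𝕜) (g : FreeGroup PL) :
    ∃ (s : Bool) (σ τ : ℤˣ) (a b : 𝕜), pact t g = mkP s σ a τ b := by
  induction g using FreeGroup.induction_on with
  | C1 =>
    refine ⟨false, 1, 1, 0, 0, ?_⟩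
    rw [map_one]
    apply Equiv.ext
    rintro ⟨x, y⟩
    rw [mkP_false, sgK_one, one_mul, one_mul, add_zero, add_zero]
    rfl
  | of p => exact ⟨_, _, _, _, _, pact_of t p⟩
  | inv_of p _ =>
    rw [map_inv, pact_of]
    exact mkP_inv _ _ _ _ _
  | mul g g' h h' =>
    obtain ⟨s, σ, τ, a, b, h⟩ := h
    obtain ⟨s', σ', τ', a', b', h'⟩ := h'
    rw [map_mul, h, h']
    exact mkP_mul _ _ _ _ _ _ _ _ _ _

theorem cellP_images [DecidableEq 𝕜] (B B' : Finset 𝕜) (s : Bool) (σ τ : ℤˣ) (a b : 𝕜)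
    (h1 : B.image (mkK σ a).symm ⊆ B') (h2 : B.image (mkK τ b).symm ⊆ B') (x y x' y' : 𝕜)
    (hx : CellK B' x x') (hy : CellK B' y y') :
    CellK B (mkP s σ a τ b (x, y)).1 (mkP s σ a τ b (x', y')).1 ∧
      CellK B (mkP s σ a τ b (x, y)).2 (mkP s σ a τ b (x', y')).2 := by
  cases s
  · exact ⟨cellK_pull B σ a x x' (cellK_mono h1 hx), cellK_pull B τ b y y' (cellK_mono h2 hy)⟩
  · exact ⟨cellK_pull B σ a y y' (cellK_mono h1 hy), cellK_pull B τ b x x' (cellK_mono h2 hx)⟩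

end fld

/-- a product of `k` counters and a plane -/
structure PSys (k m : ℕ) (Y : Type) [MulAction ((Fin k → Multiplicative ℤ) × FreeGroup PL) Y]
    (b : Y → (Fin k → Fin m) × Fin m × Fin m) where
  𝕜 : Type
  [i1 : Field 𝕜]
  [i2 : LinearOrder 𝕜]
  [i3 : IsStrictOrderedRing 𝕜]
  W : Fin k → Type
  T : ∀ i, Equiv.Perm (W i)
  t : ℕ → 𝕜
  e : Y ≃ (∀ i, W i) × 𝕜 × 𝕜
  a : ∀ i, W i → Fin m
  β : 𝕜 → Fin m
  B : Finset 𝕜
  card : B.card ≤ m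
  cell : ∀ x x', CellK B x x' → β x = β x'
  he : ∀ (l : (Fin k → Multiplicative ℤ) × FreeGroup PL) (y : Y), e (l • y) =
    (fun i => (T i ^ (l.1 i).toAdd) ((e y).1 i), pact t l.2 (e y).2)
  hb : ∀ y, b y = (fun i => a i ((e y).1 i), β (e y).2.1, β (e y).2.2)

attribute [instance] PSys.i1 PSys.i2 PSys.i3

end Vale.Agent.P192.H176.Hd
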