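import Vale.Agent.P192.H176.Hd5

/-!
# P192: heads and planes (helper176): uniform finiteness for the class of planes
-/

set_option linter.unusedSectionVars false

namespace Vale.Agent.P192.H176.Hd

open Vale.Agent.P192 Vale.Agent.P192.H567 Vale.Agent.P192.H593 Vale.Agent.P192.H437
open Vale.Agent.P192.H479 (CellK)

theorem pref (k m : ℕ) (S : Set ((Fin k → Multiplicative ℤ) × FreeGroup PL)) (hS : S.Finite) :
    ∃ m', ∀ (Y : Type) [MulAction ((Fin k → Multiplicative ℤ) × FreeGroup PL) Y]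
      (b : Y → (Fin k → Fin m) × Fin m × Fin m), Nonempty (PSys k m Y b) →
      ∃ b' : Y → (Fin k → Fin m') × Fin m' × Fin m', Nonempty (PSys k m' Y b') ∧
        ∀ x y, b' x = b' y → ∀ s ∈ S, b (s • x) = b (s • y) := by
  classical
  have hSf : Finite S := hS
  let M' : ℕ := hS.toFinset.card * (m + m)
  obtain ⟨M, hM, ⟨ε, hε⟩, ⟨ε', hε'⟩⟩ : ∃ M : ℕ, M' ≤ M ∧
      (∃ ε : (S → Fin m) → Fin M, Function.Injective ε) ∧
      ∃ ε' : Fin (M' + 1) × Fin (M' + 1) → Fin M, Function.Injective ε' := by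
    refine ⟨Nat.card (S → Fin m) + M' + Nat.card (Fin (M' + 1) × Fin (M' + 1)), by omega, ?_, ?_⟩
    · exact exists_injF (by omega)
    · exact exists_injF (by omega)
  refine ⟨M, ?_⟩
  rintro Y _ b ⟨D⟩
  choose ss sσ sτ sa sb hs using fun s : (Fin k → Multiplicative ℤ) × FreeGroup PL =>
    pact_iso D.t s.2
  obtain ⟨B', hB', hB''⟩ : ∃ B' : Finset D.𝕜, B'.card ≤ M' ∧ ∀ s ∈ S,
      D.B.image (mkK (sσ s) (sa s)).symm ⊆ B' ∧ D.B.image (mkK (sτ s) (sb s)).symm ⊆ B' := by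
    refine ⟨hS.toFinset.biUnion fun s =>
      D.B.image (mkK (sσ s) (sa s)).symm ∪ D.B.image (mkK (sτ s) (sb s)).symm, ?_, ?_⟩
    · refine Finset.card_biUnion_le_card_mul _ _ (m + m) fun s _ => ?_
      refine (Finset.card_union_le _ _).trans (Nat.add_le_add ?_ ?_)
      · exact Finset.card_image_le.trans D.card
      · exact Finset.card_image_le.trans D.card
    · intro s hs
      have h1 := Finset.subset_biUnion_of_mem (fun s =>
        D.B.image (mkK (sσ s) (sa s)).symm ∪ D.B.image (mkK (sτ s) (sb s)).symm)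
        (hS.mem_toFinset.2 hs)
      exact ⟨Finset.subset_union_left.trans h1, Finset.subset_union_right.trans h1⟩
  obtain ⟨ci, hci⟩ := exists_cidx B' M' hB'
  refine ⟨fun y => (fun i => ε (fun s => D.a i ((D.T i ^ (s.1.1 i).toAdd) ((D.e y).1 i))),
    ε' (ci (D.e y).2.1), ε' (ci (D.e y).2.2)), ⟨?_⟩, ?_⟩
  · exact
      { 𝕜 := D.𝕜
        W := D.W
        T := D.T
        t := D.t
        e := D.e
        a := fun i w => ε (fun s => D.a i ((D.T i ^ (s.1.1 i).toAdd) w))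
        β := fun x => ε' (ci x)
        B := B'
        card := hB'.trans hM
        cell := fun x x' h => congrArg ε' ((hci x x').2 h)
        he := D.he
        hb := fun _ => rfl }
  · intro x y hxy s hs'
    have h1 := fun i => congrFun (hε (congrFun (congrArg Prod.fst hxy) i)) ⟨s, hs'⟩
    have h2 := (hci _ _).1 (hε' (congrArg
      (fun q : (Fin k → Fin M) × Fin M × Fin M => q.2.1) hxy))
    have h3 := (hci _ _).1 (hε' (congrArg
      (fun q : (Fin k → Fin M) × Fin M × Fin M => q.2.2) hxy))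
    obtain ⟨g1, g2⟩ := cellP_images D.B B' (ss s) (sσ s) (sτ s) (sa s) (sb s) (hB'' s hs').1
      (hB'' s hs').2 (D.e x).2.1 (D.e x).2.2 (D.e y).2.1 (D.e y).2.2 h2 h3
    rw [← hs] at g1 g2
    rw [D.hb, D.hb, D.he, D.he]
    exact Prod.ext (funext h1) (Prod.ext (D.cell _ _ g1) (D.cell _ _ g2))

/-- products of `k` counters and a plane -/
def planeC (k : ℕ) : Cls ((Fin k → Multiplicative ℤ) × FreeGroup PL) where
  C := fun m => (Fin k → Fin m) × Fin m × Fin m
  fin := fun _ => inferInstance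
  P := fun _ Y _ b => Nonempty (PSys k _ Y b)
  ref := fun m S hS => pref k m S hS

theorem uf_paux (k : ℕ) (G : Type) [Group G] [Group.IsFinitelyPresented G]
    (hG : ∀ x : G, IsOfFinOrder x)
    (M : ℕ) (σ : Fin M → G) (hσ : Subgroup.closure (Set.range σ) = ⊤) (n m : ℕ)
    (K : Set ((Fin k → Multiplicative ℤ) × FreeGroup PL)) (hK : K.Finite) :
    ∃ N : Subgroup G, N.Normal ∧ N.FiniteIndex ∧
      ∀ (I : Type) [Finite I], Nat.card I ≤ n →
      ∀ (Y : Type) [MulAction ((Fin k → Multiplicative ℤ) × FreeGroup PL) Y]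
        (b : Y → (Fin k → Fin m) × Fin m × Fin m), PSys k m Y b →
      ∀ (f : Fin M × Bool → I → (Fin k → Fin m) × Fin m × Fin m →
        I × ((Fin k → Multiplicative ℤ) × FreeGroup PL)),
      (∀ l i β, (f l i β).2 ∈ K) →
      ∀ ρ : G →* Equiv.Perm (I × Y),
      (∀ l i y, ρ (gen σ l) (i, y) = ((f l i (b y)).1, (f l i (b y)).2 • y)) →
      ∀ g ∈ N, ρ g = 1 := by
  classical
  obtain ⟨m₁, hm, hn, hc⟩ : ∃ m₁, m ≤ m₁ ∧ n ≤ m₁ ∧
      hK.toFinset.card + hK.toFinset.card ≤ m₁ :=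
    ⟨m + n + (hK.toFinset.card + hK.toFinset.card), by omega, by omega, by omega⟩
  obtain ⟨N, h1, h2, h3⟩ := H823.K.unif_iso_two G hG (Set.range σ) hσ (k + 1) m₁
    ((fun q : ((Fin k → Multiplicative ℤ) × FreeGroup PL) × ℤ =>
      (Fin.cons q.2 fun i => (q.1.1 i).toAdd : Fin (k + 1) → ℤ)) ''
      (K ×ˢ Set.Icc (-(n : ℤ)) n)) ((hK.prod (Set.finite_Icc _ _)).image _)
  refine ⟨N, h1, h2, ?_⟩
  intro I _ hI Y _ b D f hf ρ hρ g hg
  obtain ⟨TI, ζ, hζ⟩ := exists_cyc I n hI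
  obtain ⟨cI, hcI⟩ : ∃ cI : I → Fin m₁, Function.Injective cI := exists_injF (hI.trans hn)
  let W' : Fin (k + 1) → Type := Fin.cons I D.W
  let T' : ∀ i, Equiv.Perm (W' i) := Fin.cons (α := fun i => Equiv.Perm (W' i)) TI D.T
  let E : I × Y ≃ D.𝕜 × (∀ i, W' i) × D.𝕜 :=
    { toFun := fun q => ((D.e q.2).2.1, Fin.cons (α := W') q.1 (D.e q.2).1, (D.e q.2).2.2)
      invFun := fun q => (q.2.1 0, D.e.symm (fun i => q.2.1 i.succ, q.1, q.2.2))
      left_inv := by
        rintro ⟨i, y⟩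
        refine Prod.ext rfl ?_
        apply D.e.injective
        change D.e (D.e.symm ((D.e y).1, (D.e y).2.1, (D.e y).2.2)) = D.e y
        rw [Equiv.apply_symm_apply]
      right_inv := by
        rintro ⟨x, w, y⟩
        change ((D.e (D.e.symm ((fun i => w i.succ), x, y))).2.1,
          Fin.cons (α := W') (w 0) (D.e (D.e.symm ((fun i => w i.succ), x, y))).1,
          (D.e (D.e.symm ((fun i => w i.succ), x, y))).2.2) = _
        rw [Equiv.apply_symm_apply]
        refine Prod.ext rfl (Prod.ext (funext fun i => ?_) rfl)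
        refine Fin.cases ?_ (fun i => ?_) i
        · rfl
        · rfl }
  obtain ⟨ρ', h4, h5⟩ := exists_conj E ρ
  apply h5
  choose ss sσ sτ sa sb hs using fun s : (Fin k → Multiplicative ℤ) × FreeGroup PL =>
    pact_iso D.t s.2
  refine h3 { 𝕜 := D.𝕜, W := W', T := T', ρ := ρ', pw := ?_ } g hg
  rintro _ ⟨l, rfl⟩
  refine ⟨Fin.cons (α := fun i => W' i → Fin m₁) cI fun i w => Fin.castLE hm (D.a i w), D.B,
    hK.toFinset.image sa ∪ hK.toFinset.image sb, D.card.trans hm,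
    ((Finset.card_union_le _ _).trans (Nat.add_le_add Finset.card_image_le
      Finset.card_image_le)).trans hc, ?_⟩
  intro x w y
  let q₀ := f (l, true) (w 0) (fun j => D.a j (w j.succ), D.β x, D.β y)
  have hq₀ : q₀.2 ∈ K := hf _ _ _
  have key : ∀ x', CellK D.B x x' → ∀ w' : ∀ i, W' i,
      (∀ i, (Fin.cons (α := fun i => W' i → Fin m₁) cI (fun i w => Fin.castLE hm (D.a i w)) :
        ∀ i, W' i → Fin m₁) i (w i) =
        (Fin.cons (α := fun i => W' i → Fin m₁) cI (fun i w => Fin.castLE hm (D.a i w)) :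
        ∀ i, W' i → Fin m₁) i (w' i)) → ∀ y', CellK D.B y y' →
      ρ' (σ l) (x', w', y') = ((mkP (ss q₀.2) (sσ q₀.2) (sa q₀.2) (sτ q₀.2) (sb q₀.2) (x', y')).1,
        fun i => (T' i ^ (Fin.cons (ζ (w 0) q₀.1) (fun i => (q₀.2.1 i).toAdd) :
          Fin (k + 1) → ℤ) i) (w' i),
        (mkP (ss q₀.2) (sσ q₀.2) (sa q₀.2) (sτ q₀.2) (sb q₀.2) (x', y')).2) := by
    intro x' hx w' hw y' hy'
    have e0 : w 0 = w' 0 := hcI (hw 0)
    have e1 : ∀ j : Fin k, D.a j (w j.succ) = D.a j (w' j.succ) := fun j =>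
      Fin.castLE_injective hm (hw j.succ)
    have e2 : D.β x = D.β x' := D.cell x x' hx
    have e3 : D.β y = D.β y' := D.cell y y' hy'
    obtain ⟨⟨i, v⟩, hv⟩ := E.surjective (x', w', y')
    have g1 : (D.e v).2.1 = x' := congrArg Prod.fst hv
    have g2 : (Fin.cons (α := W') i (D.e v).1 : ∀ i, W' i) = w' :=
      congrArg (fun q : D.𝕜 × (∀ i, W' i) × D.𝕜 => q.2.1) hv
    have g3 : (D.e v).2.2 = y' := congrArg (fun q : D.𝕜 × (∀ i, W' i) × D.𝕜 => q.2.2) hv
    have g4 : i = w' 0 := congrFun g2 0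
    have g5 : ∀ j : Fin k, (D.e v).1 j = w' j.succ := fun j => congrFun g2 j.succ
    have g6 : f (l, true) i (b v) = q₀ := by
      change _ = f (l, true) (w 0) (fun j => D.a j (w j.succ), D.β x, D.β y)
      rw [D.hb, g4, e0, g1, g3, e2, e3]
      congr 2
      funext j
      change D.a j ((D.e v).1 j) = D.a j (w j.succ)
      rw [g5, e1]
    have g7 : ρ' (σ l) (E (i, v)) = E (ρ (σ l) (i, v)) := h4 _ _
    have g8 : ρ (σ l) (i, v) = (q₀.1, q₀.2 • v) := by
      have := hρ (l, true) i v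
      rw [g6] at this
      exact this
    have g9 : (D.e v).2 = (x', y') := Prod.ext g1 g3
    rw [← hv, g7, g8]
    change ((D.e (q₀.2 • v)).2.1, Fin.cons (α := W') q₀.1 (D.e (q₀.2 • v)).1,
      (D.e (q₀.2 • v)).2.2) = _
    rw [D.he, g9, hs]
    refine Prod.ext rfl (Prod.ext (funext fun j => ?_) rfl)
    refine Fin.cases ?_ (fun j => ?_) j
    · exact ((hζ (w 0) q₀.1).2).symm.trans (congrArg (TI ^ ζ (w 0) q₀.1) e0)
    · change (D.T j ^ (q₀.2.1 j).toAdd) ((D.e v).1 j) =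
        (D.T j ^ (q₀.2.1 j).toAdd) (w' j.succ)
      rw [g5]
  refine ⟨_, ⟨(q₀.2, ζ (w 0) q₀.1), ⟨hq₀, ?_⟩, rfl⟩, sa q₀.2,
    Finset.mem_union_left _ (Finset.mem_image_of_mem _ (hK.mem_toFinset.2 hq₀)), sb q₀.2,
    Finset.mem_union_right _ (Finset.mem_image_of_mem _ (hK.mem_toFinset.2 hq₀)),
    sgK D.𝕜 (sσ q₀.2), sgK D.𝕜 (sτ q₀.2), abs_sgK _, abs_sgK _, ?_⟩
  · have := (hζ (w 0) q₀.1).1
    rw [abs_le] at this
    exact this
  · rcases hss : ss q₀.2 with _ | _
    · left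
      intro x' hx w' hw y' hy
      have := key x' hx w' hw y' hy
      rw [hss] at this
      exact this
    · right
      intro x' hx w' hw y' hy
      have := key x' hx w' hw y' hy
      rw [hss] at this
      exact this

theorem uf_plane (k : ℕ) : UF (planeC k) := by
  intro G _ _ hG M σ hσ n m K hK
  obtain ⟨N, h1, h2, h3⟩ := uf_paux k G hG M σ hσ n m K hK
  refine ⟨N, h1, h2, ?_⟩
  rintro I _ hI Y _ b ⟨D⟩ f hf ρ hρ
  exact h3 I hI Y b D f hf ρ hρ

end Vale.Agent.P192.H176.Hd
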