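import Vale.Agent.P192.H176.Hd3

/-!
# P192: heads and lines (helper176): inverses, hypotheses on generators
-/

set_option linter.unusedSectionVars false

namespace Vale.Agent.P192.H176.Hd

open Vale.Agent.P192 Vale.Agent.P192.H567
open Vale.Agent.P192.H479 (CellK)

theorem near_mono {k r r₁ : ℕ} {z z' : Fin k → ℤ} (hr : r ≤ r₁) (h : Near r₁ z z') :
    Near r z z' :=
  fun i j d hd => h i j d (hd.trans (by exact_mod_cast hr))

theorem near_sub {k r D : ℕ} {z z' q : Fin k → ℤ} (hq : ∀ j, |q j| ≤ (D : ℤ))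
    (h : Near (r + 2 * D) z z') : Near r (z - q) (z' - q) := by
  intro i j d hd
  obtain ⟨a1, a2⟩ := abs_le.1 (hq i)
  obtain ⟨a3, a4⟩ := abs_le.1 (hq j)
  obtain ⟨a5, a6⟩ := abs_le.1 hd
  have h1 := h i j (d - q i + q j) (by
    rw [abs_le]
    push_cast
    constructor <;> omega)
  change z i - q i + d = z j - q j ↔ z' i - q i + d = z' j - q j
  constructor
  · intro h2
    have := h1.1 (by omega)
    omega
  · intro h2
    have := h1.2 (by omega)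
    omega

section fld

variable {𝕜 : Type} [Field 𝕜] [LinearOrder 𝕜] [IsStrictOrderedRing 𝕜] [DecidableEq 𝕜]

/-- the end points for the inverse -/
def backB (B R : Finset 𝕜) : Finset 𝕜 :=
  R.biUnion fun t => (Finset.univ : Finset ℤˣ).biUnion fun σ =>
    B.image (mkK σ (-(sgK 𝕜 σ * t))).symm

/-- the translations for the inverse -/
def backR (R : Finset 𝕜) : Finset 𝕜 := R.image (fun t => -t) ∪ R

theorem backB_card (B R : Finset 𝕜) (m : ℕ) (hB : B.card ≤ m) (hR : R.card ≤ m) :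
    (backB B R).card ≤ m * (2 * m) := by
  refine (Finset.card_biUnion_le_card_mul _ _ (2 * m) fun t _ => ?_).trans
    (Nat.mul_le_mul_right _ hR)
  refine (Finset.card_biUnion_le_card_mul _ _ m fun σ _ =>
    Finset.card_image_le.trans hB).trans ?_
  rw [Finset.card_univ, Fintype.card_units_int]

theorem backR_card (R : Finset 𝕜) (m : ℕ) (hR : R.card ≤ m) : (backR R).card ≤ m + m :=
  (Finset.card_union_le _ _).trans (Nat.add_le_add (Finset.card_image_le.trans hR) hR)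

theorem backB_cell (B R : Finset 𝕜) (σ : ℤˣ) {t : 𝕜} (ht : t ∈ R) {x' x'' : 𝕜}
    (h : CellK (backB B R) x' x'') :
    CellK B (sgK 𝕜 σ * x' + -(sgK 𝕜 σ * t)) (sgK 𝕜 σ * x'' + -(sgK 𝕜 σ * t)) := by
  refine cellK_pull B σ (-(sgK 𝕜 σ * t)) x' x'' (cellK_mono ?_ h)
  have h1 := Finset.subset_biUnion_of_mem (fun σ : ℤˣ =>
    B.image (mkK σ (-(sgK 𝕜 σ * t))).symm) (Finset.mem_univ σ)
  have h2 := Finset.subset_biUnion_of_mem (fun t => (Finset.univ : Finset ℤˣ).biUnion fun σ =>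
    B.image (mkK σ (-(sgK 𝕜 σ * t))).symm) ht
  exact h1.trans h2

theorem backR_mem (R : Finset 𝕜) (σ : ℤˣ) {t : 𝕜} (ht : t ∈ R) : -(sgK 𝕜 σ * t) ∈ backR R := by
  rcases Int.units_eq_one_or σ with rfl | rfl
  · rw [sgK_one, one_mul]
    exact Finset.mem_union_left _ (Finset.mem_image_of_mem _ ht)
  · rw [sgK_neg, neg_one_mul, neg_neg]
    exact Finset.mem_union_right _ ht

theorem back_eq (σ : ℤˣ) (x t : 𝕜) : sgK 𝕜 σ * (sgK 𝕜 σ * x + -(sgK 𝕜 σ * t)) + t = x := by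
  have := sgK_sq (𝕜 := 𝕜) σ
  linear_combination (x - t) * this

theorem back_eq' (σ : ℤˣ) (x t : 𝕜) : sgK 𝕜 σ * (sgK 𝕜 σ * x + t) + -(sgK 𝕜 σ * t) = x := by
  have := sgK_sq (𝕜 := 𝕜) σ
  linear_combination x * this

end fld

theorem exists_bound {A : Type} {k : ℕ} (K : Set A) (hK : K.Finite) (f : A → Fin k → ℤ) :
    ∃ D : ℕ, ∀ x ∈ K, ∀ j, |f x j| ≤ (D : ℤ) := by
  have h1 : ∀ j : Fin k, ∃ D : ℕ, ∀ x ∈ K, |f x j| ≤ (D : ℤ) := by
    intro j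
    obtain ⟨c, hc⟩ := (hK.image fun x => (f x j).natAbs).bddAbove
    refine ⟨c, fun x hx => ?_⟩
    have := hc ⟨x, hx, rfl⟩
    rw [Int.abs_eq_natAbs]
    exact_mod_cast this
  choose Df hDf using h1
  obtain ⟨D, hD⟩ := (Set.finite_range Df).bddAbove
  exact ⟨D, fun x hx j => (hDf j x hx).trans (by exact_mod_cast hD ⟨j, rfl⟩)⟩

section inv

variable {L : Type} [Group L] {𝕜 : Type} [Field 𝕜] [LinearOrder 𝕜] [IsStrictOrderedRing 𝕜]
  {U : Type} [MulAction L U] {k₀ k : ℕ} {W : Fin k₀ → Type} (T : ∀ i, Equiv.Perm (W i))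

/-- the condition on a generator -/
def HLc (m r : ℕ) (K : Set (L × (Fin k₀ → ℤ) × (Fin k → ℤ)))
    (φ : Equiv.Perm ((U × (∀ i, W i) × 𝕜) × (Fin k → ℤ))) : Prop :=
  ∃ (c : ∀ i, W i → Fin m) (a : Fin k → ℤ → Fin m)
        (B R : Finset 𝕜), B.card ≤ m ∧ R.card ≤ m ∧
        ∀ (u : U) (w : ∀ i, W i) (x : 𝕜) (z : Fin k → ℤ), ∃ q ∈ K, ∃ t ∈ R, ∃ e : 𝕜, |e| = 1 ∧
          ∀ w' : ∀ i, W i, (∀ i, c i (w i) = c i (w' i)) → ∀ x' : 𝕜, CellK B x x' →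
            ∀ z' : Fin k → ℤ, (∀ j, a j (z j) = a j (z' j)) → Near r z z' →
            φ ((u, w', x'), z') =
              ((q.1 • u, fun i => (T i ^ q.2.1 i) (w' i), e * x' + t), z' + q.2.2)

theorem HLc.mono {m m₁ r r₁ : ℕ} {K K₁ : Set (L × (Fin k₀ → ℤ) × (Fin k → ℤ))}
    {φ : Equiv.Perm ((U × (∀ i, W i) × 𝕜) × (Fin k → ℤ))} (hm : m ≤ m₁) (hr : r ≤ r₁)
    (hK : K ⊆ K₁) (h : HLc T m r K φ) : HLc T m₁ r₁ K₁ φ := by
  obtain ⟨c, a, B, R, hB, hR, h⟩ := h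
  refine ⟨fun i w => Fin.castLE hm (c i w), fun j z => Fin.castLE hm (a j z), B, R, hB.trans hm,
    hR.trans hm, ?_⟩
  intro u w x z
  obtain ⟨q, hq, t, ht, e, he, h1⟩ := h u w x z
  exact ⟨q, hK hq, t, ht, e, he, fun w' hw x' hx z' hz hn =>
    h1 w' (fun i => Fin.castLE_injective hm (hw i)) x' hx z'
      (fun j => Fin.castLE_injective hm (hz j)) (near_mono hr hn)⟩

theorem HLc.inv {K : Set (L × (Fin k₀ → ℤ) × (Fin k → ℤ))} {D m m₁ r : ℕ}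
    (hD : ∀ q ∈ K, ∀ j, |q.2.2 j| ≤ (D : ℤ)) (ε : (K → Fin m) → Fin m₁)
    (hε : Function.Injective ε) (hm1 : m * (2 * m) ≤ m₁) (hm2 : m + m ≤ m₁)
    {φ : Equiv.Perm ((U × (∀ i, W i) × 𝕜) × (Fin k → ℤ))} (h : HLc T m r K φ) :
    HLc T m₁ (r + 2 * D) ((fun q => (q.1⁻¹, -q.2.1, -q.2.2)) '' K) φ⁻¹ := by
  classical
  obtain ⟨c, a, B, R, hB, hR, h⟩ := h
  refine ⟨fun i w => ε fun q => c i ((T i ^ (-(q.1.2.1 i))) w),
    fun j z => ε fun q => a j (z - q.1.2.2 j), backB B R, backR R,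
    (backB_card B R m hB hR).trans hm1, (backR_card R m hR).trans hm2, ?_⟩
  intro u' w' x' z'
  obtain ⟨⟨⟨u, w, x⟩, z⟩, hp⟩ := φ.surjective ((u', w', x'), z')
  obtain ⟨q, hq, t, ht, e, he, h1⟩ := h u w x z
  obtain ⟨σ, rfl⟩ := exists_sgK he
  have h2 := (h1 w (fun _ => rfl) x (fun _ _ => ⟨Iff.rfl, Iff.rfl⟩) z (fun _ => rfl)
    (near_refl r z)).symm.trans hp
  have e1 : q.1 • u = u' := congrArg (fun p => p.1.1) h2
  have e2 : ∀ i, (T i ^ q.2.1 i) (w i) = w' i := fun i =>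
    congrFun (congrArg (fun p => p.1.2.1) h2) i
  have e3 : sgK 𝕜 σ * x + t = x' := congrArg (fun p => p.1.2.2) h2
  have e4 : z + q.2.2 = z' := congrArg (fun p => p.2) h2
  have e2' : ∀ i, (T i ^ (-(q.2.1 i))) (w' i) = w i := by
    intro i
    rw [← e2 i, zpow_neg]
    exact Equiv.symm_apply_apply _ _
  refine ⟨_, ⟨q, hq, rfl⟩, _, backR_mem R σ ht, sgK 𝕜 σ, abs_sgK σ, ?_⟩
  intro w'' hw x'' hx z'' hz hn
  rw [Equiv.Perm.inv_eq_iff_eq]
  have h3 := h1 (fun i => (T i ^ (-(q.2.1 i))) (w'' i)) (fun i => by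
    have := congrFun (hε (hw i)) ⟨q, hq⟩
    change c i ((T i ^ (-(q.2.1 i))) (w' i)) = c i ((T i ^ (-(q.2.1 i))) (w'' i)) at this
    rw [e2'] at this
    exact this) (sgK 𝕜 σ * x'' + -(sgK 𝕜 σ * t)) (by
    have := backB_cell B R σ ht hx
    rw [← e3, back_eq'] at this
    exact this) (z'' - q.2.2) (fun j => by
    have := congrFun (hε (hz j)) ⟨q, hq⟩
    change a j (z' j - q.2.2 j) = a j (z'' j - q.2.2 j) at this
    rw [← e4] at this
    rw [Pi.add_apply, add_sub_cancel_right] at this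
    exact this) (by
    have := near_sub (hD q hq) hn
    rw [← e4, add_sub_cancel_right] at this
    exact this)
  change _ = φ ((q.1⁻¹ • u', fun i => (T i ^ (-(q.2.1 i))) (w'' i),
    sgK 𝕜 σ * x'' + -(sgK 𝕜 σ * t)), z'' + -q.2.2)
  rw [← e1, inv_smul_smul, ← sub_eq_add_neg z'' q.2.2, h3, e1]
  refine Prod.ext (Prod.ext rfl (Prod.ext (funext fun i => ?_) ?_)) ?_
  · change w'' i = (T i ^ q.2.1 i) ((T i ^ (-(q.2.1 i))) (w'' i))
    rw [zpow_neg]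
    exact (Equiv.apply_symm_apply _ _).symm
  · exact (back_eq σ x'' t).symm
  · exact (sub_add_cancel _ _).symm

end inv

/-- **Heads, action, counters, line; hypotheses on the generators.** -/
theorem hl_uniformS (L : Type) [Group L] (PU : ∀ (U : Type) [MulAction L U], Prop)
    (hU1 : UnifP L PU) (G : Type) [Group G] [Group.IsFinitelyPresented G]
    (hG : ∀ x : G, IsOfFinOrder x) (S : Set G) (hS : Subgroup.closure S = ⊤) (k₀ k m r : ℕ)
    (K : Set (L × (Fin k₀ → ℤ) × (Fin k → ℤ))) (hK : K.Finite) :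
    ∃ N : Subgroup G, N.Normal ∧ N.FiniteIndex ∧
      ∀ (𝕜 : Type) [Field 𝕜] [LinearOrder 𝕜] [IsStrictOrderedRing 𝕜] (U : Type) [MulAction L U],
      PU U → ∀ (W : Fin k₀ → Type) (T : ∀ i, Equiv.Perm (W i))
        (ρ : G →* Equiv.Perm ((U × (∀ i, W i) × 𝕜) × (Fin k → ℤ))),
      (∀ s ∈ S, ∃ (c : ∀ i, W i → Fin m) (a : Fin k → ℤ → Fin m)
        (B R : Finset 𝕜), B.card ≤ m ∧ R.card ≤ m ∧
        ∀ (u : U) (w : ∀ i, W i) (x : 𝕜) (z : Fin k → ℤ), ∃ q ∈ K, ∃ t ∈ R, ∃ e : 𝕜, |e| = 1 ∧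
          ∀ w' : ∀ i, W i, (∀ i, c i (w i) = c i (w' i)) → ∀ x' : 𝕜, CellK B x x' →
            ∀ z' : Fin k → ℤ, (∀ j, a j (z j) = a j (z' j)) → Near r z z' →
            ρ s ((u, w', x'), z') =
              ((q.1 • u, fun i => (T i ^ q.2.1 i) (w' i), e * x' + t), z' + q.2.2)) →
      ∀ g ∈ N, ρ g = 1 := by
  have hKf : Finite K := hK
  obtain ⟨D, hD⟩ := exists_bound K hK fun q => q.2.2
  obtain ⟨m₁, hm, hm1, hm2, ε, hε⟩ : ∃ m₁ : ℕ, m ≤ m₁ ∧ m * (2 * m) ≤ m₁ ∧ m + m ≤ m₁ ∧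
      ∃ ε : (K → Fin m) → Fin m₁, Function.Injective ε := by
    refine ⟨Nat.card (K → Fin m) + m * (2 * m) + (m + m), by omega, by omega, by omega, ?_⟩
    exact exists_injF (by omega)
  obtain ⟨N, h1, h2, h3⟩ := hl_uniform L PU hU1 G hG S hS k₀ k m₁ (r + 2 * D)
    (K ∪ (fun q => (q.1⁻¹, -q.2.1, -q.2.2)) '' K) (hK.union (hK.image _))
  refine ⟨N, h1, h2, ?_⟩
  intro 𝕜 _ _ _ U _ hU W T ρ hρ g hg
  refine h3 𝕜 U hU W T ρ ?_ g hg
  rintro s (hs | hs)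
  · exact HLc.mono T hm (by omega) Set.subset_union_left (hρ s hs)
  · have h4 := HLc.inv T hD ε hε hm1 hm2 (hρ s⁻¹ hs)
    rw [← map_inv, inv_inv] at h4
    exact HLc.mono T le_rfl le_rfl Set.subset_union_right h4

end Vale.Agent.P192.H176.Hd
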