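import Vale.Agent.P192.H176.Flp
import Vale.Agent.P192.H479.RL13

/-!
# P192: infinite words, counters and the line, with flips, modulo finitely many hyperplanes
(helper176)
-/

namespace Vale.Agent.P192.H176

open Vale.Agent.P192.RL5 Vale.Agent.P192.H479 Vale.Agent.P192.H567 Filter Topology

theorem aper_tail {X : Type} {ξ ξ' : ℕ → X} (h : Aper ξ) {a b : ℕ} (ht : Tail ξ' ξ a b) :
    Aper ξ' := by
  intro c d hcd
  have h1 := h (b + c) (b + d) (fun i => by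
    have h2 := hcd (a + i)
    rw [show c + (a + i) = a + (c + i) by omega, show d + (a + i) = a + (d + i) by omega,
      ht, ht] at h2
    rw [Nat.add_assoc, Nat.add_assoc]
    exact h2)
  omega

/-- **Infinite words, counters, line, with flips, modulo finitely many hyperplanes.** -/
theorem near_wrd (hLine : LineOne) (G : Type) [Group G] [Group.IsFinitelyPresented G]
    (hG : ∀ x : G, IsOfFinOrder x) (X : Type) [Finite X] (Ω : Type) (p : Ω → ℕ → X)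
    (hp : Function.Injective p)
    (hd : ∀ ω n, ∃ ω', Aper (p ω') ∧ ∀ i < n, p ω' i = p ω i)
    (k : ℕ) (W : Fin k → Type) (T : ∀ i, Equiv.Perm (W i))
    (ρ : G → Ω × (∀ i, W i) × ℝ → Ω × (∀ i, W i) × ℝ)
    (h1 : ∃ B : Finset ℝ, ∀ z, z.2.2 ∉ B → ρ 1 z = z)
    (hmul : ∀ g h, ∃ B : Finset ℝ, ∀ z, z.2.2 ∉ B → ρ (g * h) z = ρ g (ρ h z))
    (hρ : ∀ g, ∃ (n : ℕ) (c : ∀ i, W i → Fin n) (B : Finset ℝ), ∀ (ω : Ω) (w : ∀ i, W i)
      (x : ℝ), x ∉ B → ∃ q : List X × (Fin k → ℤ) × ℤˣ × ℝ,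
        ∀ ω', pre n (p ω) = pre n (p ω') → ∀ w', (∀ i, c i (w i) = c i (w' i)) →
          ∀ x', x' ∉ B → Same B x x' →
            p (ρ g (ω', w', x')).1 = rep q.1 n (p ω') ∧
              (ρ g (ω', w', x')).2 =
                (fun i => (T i ^ q.2.1 i) (w' i), sg q.2.2.1 * x' + q.2.2.2)) :
    ∃ N : Subgroup G, N.Normal ∧ N.FiniteIndex ∧ ∀ g ∈ N, ∃ B : Finset ℝ, ∀ z, z.2.2 ∉ B →
      ρ g z = z := by
  classical
  choose n c B q hq using hρ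
  let S := tailSetoid p
  let U : Type := Quotient S × FreeGroup X
  let _ : MulAction (FreeGroup X) U := cp (Quotient S) X
  let rp : Ω → Ω := fun ω => (Quotient.mk S ω).out
  have hrp : ∀ ω : Ω, ∃ a b, Tail (p ω) (p (rp ω)) a b := by
    intro ω
    obtain ⟨a, b, h⟩ := Quotient.mk_out (s := S) ω
    exact ⟨b, a, Tail.symm h⟩
  have hrpA : ∀ ω, Aper (p ω) → Aper (p (rp ω)) := by
    intro ω hω
    obtain ⟨a, b, h⟩ := hrp ω
    exact aper_tail hω (Tail.symm h)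
  let j₀ : Ω → U := fun ω => (Quotient.mk S ω, kap (p (rp ω)) (p ω))
  have hj₀ : ∀ ω ω', Aper (p ω) → Aper (p ω') → j₀ ω = j₀ ω' → ω = ω' := by
    intro ω ω' hω hω' h
    have e1 : Quotient.mk S ω = Quotient.mk S ω' := congrArg Prod.fst h
    have e2 : kap (p (rp ω)) (p ω) = kap (p (rp ω')) (p ω') := congrArg Prod.snd h
    have e3 : rp ω = rp ω' := by
      change (Quotient.mk S ω).out = (Quotient.mk S ω').out
      rw [e1]
    obtain ⟨a, b, h1⟩ := hrp ω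
    obtain ⟨a', b', h2⟩ := hrp ω'
    rw [← e3] at e2 h2
    exact hp (kap_inj (hrpA ω hω) h1 h2 e2)
  obtain ⟨N, hN1, hN2, hN3⟩ := near_emb hLine G hG (FreeGroup X) (fun E hE => ad_free_fin X E hE)
    U (by
      intro l u h
      have h1 : l * u.2 = u.2 := congrArg Prod.snd h
      exact mul_eq_right.1 h1) Ω (fun ω => Aper (p ω)) j₀ hj₀ T ρ (by
      obtain ⟨B₁, h2⟩ := h1
      exact ⟨B₁, fun ω w x _ hx => h2 (ω, w, x) hx⟩) (by
      intro g h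
      obtain ⟨B₁, h2⟩ := hmul g h
      exact ⟨B₁, fun ω w x _ hx => h2 (ω, w, x) hx⟩) (by
      intro g
      -- finitely many classes
      let A : Type := {l : List X // l.length ≤ n g}
      have hA : Finite A := (List.finite_length_le X (n g)).to_subtype
      let τ : Ω × (∀ i, W i) × ℝ → A × (Fin k → Fin (n g)) × (B g → Prop) := fun z =>
        (⟨pre (n g) (p z.1), by rw [pre_length]⟩, fun i => c g i (z.2.1 i),
          fun b => b.1 ≤ z.2.2)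
      let val : Ω × (∀ i, W i) × ℝ → FreeGroup X × (Fin k → ℤ) × ℤˣ × ℝ := fun z =>
        if hx : z.2.2 ∉ B g then
          (pw (q g z.1 z.2.1 z.2.2 hx).1 * (pw (pre (n g) (p z.1)))⁻¹,
            (q g z.1 z.2.1 z.2.2 hx).2) else (1, 0, 1, 0)
      let rr : A × (Fin k → Fin (n g)) × (B g → Prop) → FreeGroup X × (Fin k → ℤ) × ℤˣ × ℝ :=
        fun t => if h : ∃ z : Ω × (∀ i, W i) × ℝ, z.2.2 ∉ B g ∧ τ z = t then
          val h.choose else (1, 0, 1, 0)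
      refine ⟨B g, Set.range rr, n g, c g, Set.finite_range rr, ?_⟩
      intro ω w x hω hx
      refine ⟨rr (τ (ω, w, x)), ⟨_, rfl⟩, fun w' x' hw hx' hxx => ?_⟩
      have h : ∃ z : Ω × (∀ i, W i) × ℝ, z.2.2 ∉ B g ∧ τ z = τ (ω, w, x) :=
        ⟨(ω, w, x), hx, rfl⟩
      have h0 : rr (τ (ω, w, x)) = val h.choose := dif_pos h
      obtain ⟨h1, h2⟩ := h.choose_spec
      rw [h0]
      generalize h.choose = z₀ at h1 h2 ⊢
      have g1 : pre (n g) (p z₀.1) = pre (n g) (p ω) :=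
        congrArg Subtype.val (congrArg Prod.fst h2)
      have g2 : ∀ i, c g i (z₀.2.1 i) = c g i (w i) :=
        fun i => congrFun (congrArg (fun t => t.2.1) h2) i
      have g3 : Same (B g) z₀.2.2 x := fun b hb =>
        iff_of_eq (congrFun (congrArg (fun t => t.2.2) h2) ⟨b, hb⟩)
      have hv : val z₀ = (pw (q g z₀.1 z₀.2.1 z₀.2.2 h1).1 * (pw (pre (n g) (p z₀.1)))⁻¹,
            (q g z₀.1 z₀.2.1 z₀.2.2 h1).2) := dif_pos h1
      have h3 := hq g z₀.1 z₀.2.1 z₀.2.2 h1 ω g1 w' (fun i => (g2 i).trans (hw i)) x' hx'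
        (fun b hb => (g3 b hb).trans (hxx b hb))
      rw [hv]
      refine ⟨?_, ?_, h3.2⟩
      · rw [h3.1]
        exact aper_rep hω _ _
      · obtain ⟨a, b, h4⟩ := hrp ω
        have e2 : Quotient.mk S (ρ g (ω, w', x')).1 = Quotient.mk S ω := by
          apply Quotient.sound
          change ∃ a b, Tail (p (ρ g (ω, w', x')).1) (p ω) a b
          rw [h3.1]
          exact ⟨_, _, (Tail.refl (p ω)).rep _ _⟩
        refine Prod.ext e2 ?_
        change kap (p (rp (ρ g (ω, w', x')).1)) (p (ρ g (ω, w', x')).1) =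
          _ * kap (p (rp ω)) (p ω)
        have e3 : rp (ρ g (ω, w', x')).1 = rp ω := by
          change (Quotient.mk S (ρ g (ω, w', x')).1).out = (Quotient.mk S ω).out
          rw [e2]
        rw [e3, h3.1, kap_rep (hrpA ω hω) h4, g1])
  refine ⟨N, hN1, hN2, fun g hg => ?_⟩
  obtain ⟨B₁, h2⟩ := hN3 g hg
  refine ⟨B g ∪ B₁, ?_⟩
  rintro ⟨ω, w, x⟩ hx
  have hx1 : x ∉ B g := fun h => hx (Finset.mem_union_left _ h)
  have hx2 : x ∉ B₁ := fun h => hx (Finset.mem_union_right _ h)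
  obtain ⟨ω', h3, h4⟩ := hd ω (n g)
  have h5 := hq g ω w x hx1 ω' (pre_congr h4).symm w (fun _ => rfl) x hx1 (fun _ _ => Iff.rfl)
  have h6 := hq g ω w x hx1 ω rfl w (fun _ => rfl) x hx1 (fun _ _ => Iff.rfl)
  rw [h2 ω' w x h3 hx2] at h5
  refine Prod.ext ?_ ?_
  · apply hp
    rw [h6.1]
    exact rep_triv _ _ _ _ h3 h4 h5.1
  · rw [h6.2]
    exact h5.2.symm

theorem lineOne : LineOne := fun G _ _ => main_one_line G

theorem exists_sg {ε : ℝ} (h : |ε| = 1) : ∃ σ : ℤˣ, sg σ = ε := by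
  rcases eq_or_eq_neg_of_abs_eq h with rfl | rfl
  · exact ⟨1, sg_one⟩
  · exact ⟨-1, sg_neg⟩

/-- **Infinite words, counters, line, with flips, modulo finitely many hyperplanes**: the form of
the hand-in. -/
theorem words_flip (G : Type) [Group G] [Group.IsFinitelyPresented G]
    (hG : ∀ x : G, IsOfFinOrder x) (X : Type) [Finite X] (Ω : Set (ℕ → X))
    (hd : ∀ ξ ∈ Ω, ∀ n, ∃ ξ' ∈ Ω, Aper ξ' ∧ ∀ i < n, ξ' i = ξ i)
    (k : ℕ) (W : Fin k → Type) (T : ∀ i, Equiv.Perm (W i))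
    (ρ : G → Ω × (∀ i, W i) × ℝ → Ω × (∀ i, W i) × ℝ)
    (hρ : ∀ g, ∃ (n : ℕ) (c : ∀ i, W i → Fin n) (B : Finset ℝ),
      ∀ z : Ω × (∀ i, W i) × ℝ, z.2.2 ∉ B →
        ∃ (p : List X) (q : Fin k → ℤ) (ε t : ℝ), |ε| = 1 ∧ ∀ z' : Ω × (∀ i, W i) × ℝ,
          pre n z.1.1 = pre n z'.1.1 → (∀ i, c i (z.2.1 i) = c i (z'.2.1 i)) →
          z'.2.2 ∉ B → Same B z.2.2 z'.2.2 →
            ((ρ g z').1 : ℕ → X) = rep p n z'.1 ∧
              (ρ g z').2 = (fun i => (T i ^ q i) (z'.2.1 i), ε * z'.2.2 + t))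
    (hone : ∃ B : Finset ℝ, ∀ z, z.2.2 ∉ B → ρ 1 z = z)
    (hmul : ∀ g h, ∃ B : Finset ℝ, ∀ z, z.2.2 ∉ B → ρ (g * h) z = ρ g (ρ h z)) :
    ∃ N : Subgroup G, N.Normal ∧ N.FiniteIndex ∧ ∀ g ∈ N, ∃ B : Finset ℝ, ∀ z, z.2.2 ∉ B →
      ρ g z = z := by
  refine near_wrd lineOne G hG X Ω Subtype.val Subtype.val_injective ?_ k W T ρ hone hmul ?_
  · intro ω n
    obtain ⟨ξ', h3, h4, h5⟩ := hd ω.1 ω.2 n
    exact ⟨⟨ξ', h3⟩, h4, h5⟩
  · intro g
    obtain ⟨n, c, B, h1⟩ := hρ g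
    refine ⟨n, c, B, fun ω w x hx => ?_⟩
    obtain ⟨p, q, ε, t, hε, h2⟩ := h1 (ω, w, x) hx
    obtain ⟨σ, rfl⟩ := exists_sg hε
    exact ⟨(p, q, σ, t), fun ω' e1 w' e2 x' hx' e3 => h2 (ω', w', x') e1 e2 hx' e3⟩

/-- **Free action, counters, line, with flips, modulo finitely many hyperplanes.** -/
theorem one_flip (G : Type) [Group G] [Group.IsFinitelyPresented G]
    (hG : ∀ x : G, IsOfFinOrder x) (L : Type) [Group L]
    (hL : ∀ E : Set L, E.Finite → ∃ m : ℕ, ∃ C : Set L, ∀ x : L,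
      {y | Relation.ReflTransGen (fun a b => (a ∈ C ↔ b ∈ C) ∧ ∃ e ∈ E, b = e * a) x y}.encard ≤ m)
    (U : Type) [MulAction L U] (hU : ∀ (l : L) (u : U), l • u = u → l = 1)
    (k : ℕ) (W : Fin k → Type) (T : ∀ i, Equiv.Perm (W i))
    (ρ : G → U × (∀ i, W i) × ℝ → U × (∀ i, W i) × ℝ)
    (hρ : ∀ g, ∃ (m : ℕ) (c : ∀ i, W i → Fin m) (B : Finset ℝ)
      (K : Set (L × (Fin k → ℤ) × ℝ × ℝ)), K.Finite ∧
      ∀ z : U × (∀ i, W i) × ℝ, z.2.2 ∉ B → ∃ q ∈ K, |q.2.2.1| = 1 ∧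
        ∀ z' : U × (∀ i, W i) × ℝ, z.1 = z'.1 → (∀ i, c i (z.2.1 i) = c i (z'.2.1 i)) →
          z'.2.2 ∉ B → Same B z.2.2 z'.2.2 →
            ρ g z' = (q.1 • z'.1, fun i => (T i ^ q.2.1 i) (z'.2.1 i),
              q.2.2.1 * z'.2.2 + q.2.2.2))
    (hone : ∃ B : Finset ℝ, ∀ z, z.2.2 ∉ B → ρ 1 z = z)
    (hmul : ∀ g h, ∃ B : Finset ℝ, ∀ z, z.2.2 ∉ B → ρ (g * h) z = ρ g (ρ h z)) :
    ∃ N : Subgroup G, N.Normal ∧ N.FiniteIndex ∧ ∀ g ∈ N, ∃ B : Finset ℝ, ∀ z, z.2.2 ∉ B →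
      ρ g z = z := by
  classical
  obtain ⟨N, hN1, hN2, hN3⟩ := near_emb lineOne G hG L hL U hU U (fun _ => True) id
    (fun _ _ _ _ h => h) T ρ (by
      obtain ⟨B₁, h2⟩ := hone
      exact ⟨B₁, fun ω w x _ hx => h2 (ω, w, x) hx⟩) (by
      intro g h
      obtain ⟨B₁, h2⟩ := hmul g h
      exact ⟨B₁, fun ω w x _ hx => h2 (ω, w, x) hx⟩) (by
      intro g
      obtain ⟨m, c, B, K, hK, h1⟩ := hρ g
      let sgn : ℝ → ℤˣ := fun ε => if 0 ≤ ε then 1 else -1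
      have hsgn : ∀ ε : ℝ, |ε| = 1 → sg (sgn ε) = ε := by
        intro ε hε
        rcases eq_or_eq_neg_of_abs_eq hε with rfl | rfl
        · simp only [sgn]
          rw [if_pos zero_le_one, sg_one]
        · simp only [sgn]
          rw [if_neg (by norm_num), sg_neg]
      refine ⟨B, (fun q : L × (Fin k → ℤ) × ℝ × ℝ => (q.1, q.2.1, sgn q.2.2.1, q.2.2.2)) '' K, m,
        c, hK.image _, fun ω w x _ hx => ?_⟩
      obtain ⟨q, hq, hε, h2⟩ := h1 (ω, w, x) hx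
      refine ⟨_, ⟨q, hq, rfl⟩, fun w' x' e1 hx' e2 => ?_⟩
      have h3 := h2 (ω, w', x') rfl e1 hx' e2
      rw [h3]
      refine ⟨trivial, rfl, Prod.ext rfl ?_⟩
      change q.2.2.1 * x' + q.2.2.2 = sg (sgn q.2.2.1) * x' + q.2.2.2
      rw [hsgn _ hε])
  refine ⟨N, hN1, hN2, fun g hg => ?_⟩
  obtain ⟨B, h2⟩ := hN3 g hg
  exact ⟨B, fun z hz => h2 z.1 z.2.1 z.2.2 trivial hz⟩

end Vale.Agent.P192.H176
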