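import Vale.Agent.P192.H176.Cnt
import Vale.Agent.P192.H794.PieG
import Vale.Agent.P192.H567.AD

/-!
# P192, rectangle exchanges with counters (helper176): two intervals and any number of counters
-/

namespace Vale.Agent.P192.H176

open Vale.Agent.P192.RL5 Vale.Agent.P192.H479

/-! ### The maps `GdC` form a group -/

section clo

variable {L U : Type} [Group L] [MulAction L U] {lam : ℝ} {k : ℕ} {W : Fin k → Type}
  {T : ∀ i, Equiv.Perm (W i)}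

/-- the pieces -/
noncomputable abbrev RC (L U : Type) [Group L] [MulAction L U] (lam : ℝ) {k : ℕ}
    {W : Fin k → Type} (T : ∀ i, Equiv.Perm (W i)) :
    Reg (prodAct trans (prodAct (MulAction.toPermHom L U) (cact T)))
      {z : ℝ × (U × ∀ i, W i) | z.1 ∈ Set.Ico 0 lam ∧
        z.2 ∈ {z : U × ∀ i, W i | z.1 ∈ Set.univ ∧ z.2 ∈ Set.univ}} :=
  (regReal lam).prod ((regPt (MulAction.toPermHom L U)).prod (regC T))

theorem pw_of_gdc {g : Equiv.Perm (ℝ × (U × ∀ i, W i))} (hg : GdC L T lam g) :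
    (RC L U lam T).Pw g := by
  obtain ⟨hout, B, K, T₀, m, c, hB, hK, hT, h⟩ := hg
  refine ⟨_, ⟨Band hB.toFinset, ⟨hB.toFinset, rfl⟩, _, ⟨_, rfl, _, ⟨m, c, rfl⟩, rfl⟩, rfl⟩,
    Set.image (fun z : (L × (Fin k → ℤ)) × ℝ =>
      (Multiplicative.ofAdd z.2, (z.1.1, Multiplicative.ofAdd z.1.2))) (K ×ˢ T₀),
    (hK.prod hT).image _, ?_⟩
  rintro ⟨x, u, w⟩ ⟨hx, -⟩
  obtain ⟨l, hl, t, ht, h1⟩ := h u w x hx.1 hx.2
  refine ⟨_, ⟨(l, t), ⟨hl, ht⟩, rfl⟩, ?_⟩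
  rintro ⟨y, v, w'⟩ ⟨hy, -⟩ ⟨h3, h4, h4'⟩
  have h4 : u = v := h4
  subst h4
  have h5 := h1 y w' hy.1 hy.2 (fun b hb => h3 b (hB.mem_toFinset.2 hb)) h4'
  refine ⟨h5, ?_, trivial, trivial⟩
  have h6 := mem_of_out hout (z := (y, (u, w'))) hy
  rw [h5] at h6
  exact h6

theorem gdc_of_pw {g : Equiv.Perm (ℝ × (U × ∀ i, W i))}
    (hout : ∀ x v, x ∉ Set.Ico 0 lam → g (x, v) = (x, v)) (hg : (RC L U lam T).Pw g) :
    GdC L T lam g := by
  obtain ⟨_, ⟨_, ⟨B, rfl⟩, _, ⟨_, rfl, _, ⟨m, c, rfl⟩, rfl⟩, rfl⟩, Q, hQ, h⟩ := hg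
  refine ⟨hout, (B : Set ℝ), (fun q : Multiplicative ℝ × (L × Multiplicative (Fin k → ℤ)) =>
      (q.2.1, q.2.2.toAdd)) '' Q,
    (fun q : Multiplicative ℝ × (L × Multiplicative (Fin k → ℤ)) => q.1.toAdd) '' Q, m, c,
    B.finite_toSet, hQ.image _, hQ.image _, ?_⟩
  intro u w x hx hxL
  obtain ⟨q, hq, h1⟩ := h (x, (u, w)) ⟨⟨hx, hxL⟩, trivial, trivial⟩
  refine ⟨_, ⟨q, hq, rfl⟩, _, ⟨q, hq, rfl⟩, fun y w' hy hyL hb hw => ?_⟩
  exact (h1 (y, (u, w')) ⟨⟨hy, hyL⟩, trivial, trivial⟩ ⟨fun b hb' => hb b hb', rfl, hw⟩).1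

/-- **An action whose generators are `GdC`.** -/
theorem gdc_all {G : Type} [Group G] {S : Set G} (hS : Subgroup.closure S = ⊤)
    (ρ : G →* Equiv.Perm (ℝ × (U × ∀ i, W i))) (h : ∀ s ∈ S, GdC L T lam (ρ s)) (g : G) :
    GdC L T lam (ρ g) := by
  refine gen_induct hS (P := fun g => GdC L T lam (ρ g)) h ?_ ?_ ?_ g
  · rw [map_one]
    exact gdc_of_pw (fun x v _ => rfl) (Reg.Pw.one _)
  · intro a b ha hb
    rw [map_mul]
    refine gdc_of_pw (fun x v hx => ?_) ((pw_of_gdc ha).comp (pw_of_gdc hb))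
    rw [Equiv.Perm.mul_apply, hb.1 x v hx, ha.1 x v hx]
  · intro a ha
    rw [map_inv]
    refine gdc_of_pw (out_inv ha.1) ?_
    refine (pw_of_gdc ha).inv (fun z _ => (ρ a).symm_apply_apply z)
      (fun z _ => (ρ a).apply_symm_apply z) ?_
    rintro z ⟨hz, -⟩
    exact ⟨mem_of_out (out_inv ha.1) hz, trivial, trivial⟩

end clo

/-- Rectangle exchanges with counters: `g` is the identity outside of `[0, lam) × [0, mu) × W`, and
is of the form `(x, y, w) ↦ (x + s, y + t, T ^ q w)`, `s`, `t`, `q` in finite sets, on the products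
of two intervals between points of a finite set `B` and of sets of points with given colours. -/
def GdR {k : ℕ} {W : Fin k → Type} (T : ∀ i, Equiv.Perm (W i)) (lam mu : ℝ)
    (g : Equiv.Perm (ℝ × (ℝ × ∀ i, W i))) : Prop :=
  (∀ x v, x ∉ Set.Ico 0 lam → g (x, v) = (x, v)) ∧
  (∀ x y w, y ∉ Set.Ico 0 mu → g (x, (y, w)) = (x, (y, w))) ∧
  ∃ (B : Set ℝ) (K : Set (Fin k → ℤ)) (T₀ : Set ℝ) (m : ℕ) (c : ∀ i, W i → Fin m),
    B.Finite ∧ K.Finite ∧ T₀.Finite ∧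
    ∀ (x y : ℝ) (w : ∀ i, W i), x ∈ Set.Ico 0 lam → y ∈ Set.Ico 0 mu →
      ∃ q ∈ K, ∃ s ∈ T₀, ∃ t ∈ T₀, ∀ (x' y' : ℝ) (w' : ∀ i, W i), x' ∈ Set.Ico 0 lam →
        y' ∈ Set.Ico 0 mu → (∀ b ∈ B, b ≤ x ↔ b ≤ x') → (∀ b ∈ B, b ≤ y ↔ b ≤ y') →
        (∀ i, c i (w i) = c i (w' i)) → g (x', (y', w')) = (x' + s, (y' + t, mv T q w'))

theorem W_congr {V : Type} {R : Set ℝ} {pos : ℤ → V → ℝ} {v v' : V}
    (h : ∀ κ, pos κ v = pos κ v') (κ : ℤ) : RD.W R pos κ v = RD.W R pos κ v' := by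
  have h1 : ∀ n : ℕ, RD.wd R pos v n = RD.wd R pos v' n := by
    intro n
    induction n with
    | zero =>
      change RD.gen R (pos 0 v) = RD.gen R (pos 0 v')
      rw [h]
    | succ n ih =>
      change RD.wd R pos v n * RD.gen R (pos (n + 1) v - pos n v) =
        RD.wd R pos v' n * RD.gen R (pos (n + 1) v' - pos n v')
      rw [ih, h, h]
  exact h1 _

/-- **Two intervals and any number of counters.** -/
theorem A1C (G : Type) [Group G] [Group.IsFinitelyPresented G] (hG : ∀ x : G, IsOfFinOrder x)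
    {k : ℕ} {W : Fin k → Type} (T : ∀ i, Equiv.Perm (W i)) (lam mu : ℝ)
    (ρ : G →* Equiv.Perm (ℝ × (ℝ × ∀ i, W i))) (hρ : ∀ g, GdR T lam mu (ρ g)) :
    Finite ρ.range := by
  classical
  have hout : ∀ g x v, x ∉ Set.Ico 0 lam → ρ g (x, v) = (x, v) := fun g => (hρ g).1
  rcases le_or_gt lam 0 with hlam | hlam
  · have h1 : ∀ g, ρ g = 1 := by
      intro g
      apply Equiv.ext
      rintro ⟨x, u⟩
      refine hout g x u ?_
      rintro ⟨h2, h3⟩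
      linarith
    have : Subsingleton ρ.range := by
      refine ⟨?_⟩
      rintro ⟨_, g, rfl⟩ ⟨_, g', rfl⟩
      apply Subtype.ext
      change ρ g = ρ g'
      rw [h1, h1]
    infer_instance
  obtain ⟨M, hMf, hM1, hMinv, hgen, htab⟩ := H260.exists_table G
  choose B K Tr m c hB hK hT hpt using fun g => (hρ g).2.2
  obtain ⟨D, hDM, hDL, hDρ⟩ := exists_RD M hMf hM1 lam hlam ρ hout (⋃ a ∈ M, B a)
    (insert 0 (⋃ a ∈ M, Tr a)) (hMf.biUnion fun a _ => hB a)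
    ((hMf.biUnion fun a _ => hT a).insert 0) (by
      rintro a ha ⟨y, w⟩ x h0 h1
      by_cases hy : y ∈ Set.Ico 0 mu
      · obtain ⟨q, hq, s, hs, t, ht, h⟩ := hpt a x y w ⟨h0, h1⟩ hy
        exact ⟨s, Set.mem_insert_of_mem _ (Set.mem_biUnion ha hs), (y + t, mv T q w),
          fun x' hx0 hx1 hb => h x' y w ⟨hx0, hx1⟩ hy
            (fun b hbB => hb b (Set.mem_biUnion ha hbB)) (fun _ _ => Iff.rfl) fun _ => rfl⟩
      · exact ⟨0, Set.mem_insert _ _, (y, w), fun x' _ _ _ => by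
          rw [(hρ a).2.1 x' y w hy, add_zero]⟩)
  subst hDM hDL hDρ
  have hout2 : ∀ g x v, v.1 ∉ Set.Ico 0 mu → D.ρ g (x, v) = (x, v) :=
    fun g x v hv => (hρ g).2.1 x v.1 v.2 hv
  have hmem2 : ∀ g x v, v.1 ∈ Set.Ico 0 mu → (D.ρ g (x, v)).2.1 ∈ Set.Ico 0 mu := by
    intro g x v hv
    by_contra hcon
    have h1 : D.ρ g (D.ρ g (x, v)) = D.ρ g (x, v) := hout2 g (D.ρ g (x, v)).1 _ hcon
    have h2 := (D.ρ g).injective h1
    rw [h2] at hcon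
    exact hcon hv
  obtain ⟨B₂, hB₂d⟩ : ∃ B₂ : Set ℝ, B₂ = ⋃ a ∈ D.M, B a := ⟨_, rfl⟩
  obtain ⟨K₀, hK₀d⟩ : ∃ K₀ : Set (Fin k → ℤ), K₀ = insert 0 (⋃ a ∈ D.M, K a) := ⟨_, rfl⟩
  obtain ⟨T₁, hT₁d⟩ : ∃ T₁ : Set ℝ, T₁ = insert 0 (⋃ a ∈ D.M, Tr a) := ⟨_, rfl⟩
  have hB₂ : B₂.Finite := by
    rw [hB₂d]
    exact hMf.biUnion fun a _ => hB a
  have hK₀ : K₀.Finite := by
    rw [hK₀d]
    exact (hMf.biUnion fun a _ => hK a).insert _
  have hT₁ : T₁.Finite := by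
    rw [hT₁d]
    exact (hMf.biUnion fun a _ => hT a).insert _
  have hT0 : (0 : ℝ) ∈ T₁ := by rw [hT₁d]; exact Set.mem_insert _ _
  have hK0 : (0 : Fin k → ℤ) ∈ K₀ := by rw [hK₀d]; exact Set.mem_insert _ _
  -- common colours
  obtain ⟨r, hr, hra⟩ := inf_finite (regC T) D.M hMf
    (fun a x y => ∀ i, c a i (x i) = c a i (y i)) (fun a _ => ⟨m a, c a, rfl⟩)
  have hrr : ∀ w, r w w := fun w => (regC T).refl r hr w trivial
  have hact : ∀ a ∈ D.M, ∀ κ, 0 ≤ κ → ∀ v : ℝ × ∀ i, W i, v.1 ∈ Set.Ico 0 mu →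
      ∃ q ∈ K₀, ∃ s ∈ T₁, ∃ t ∈ T₁, ∀ v' : ℝ × ∀ i, W i, v'.1 ∈ Set.Ico 0 mu →
        Band hB₂.toFinset v.1 v'.1 → r v.2 v'.2 →
        D.ρ a (D.p κ, v') = (D.p κ + s, (v'.1 + t, mv T q v'.2)) := by
    rintro a ha κ hκ ⟨y, w⟩ hy
    obtain ⟨q, hq, s, hs, t, ht, h⟩ := hpt a (D.p κ) y w (D.p_ge hκ) hy
    refine ⟨q, ?_, s, ?_, t, ?_, ?_⟩
    · rw [hK₀d]
      exact Set.mem_insert_of_mem _ (Set.mem_biUnion ha hq)
    · rw [hT₁d]
      exact Set.mem_insert_of_mem _ (Set.mem_biUnion ha hs)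
    · rw [hT₁d]
      exact Set.mem_insert_of_mem _ (Set.mem_biUnion ha ht)
    · rintro ⟨y', w'⟩ hy' hb hw
      refine h (D.p κ) y' w' (D.p_ge hκ) hy' (fun b _ => Iff.rfl) (fun b hbB => hb b ?_)
        (hra a ha w trivial w' trivial hw)
      rw [Set.Finite.mem_toFinset, hB₂d]
      exact Set.mem_biUnion ha hbB
  have hνL : 0 < D.ν D.L := by
    rw [← D.ν0]
    exact D.ν_lt (D.ZC0 _ D.C0) D.ZL D.hL
  -- the family of pieces of the parameter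
  obtain ⟨F, hFd⟩ : ∃ F : Reg (prodAct trans (cact T)) {z : ℝ × ∀ i, W i |
    z.1 ∈ Set.Ico 0 mu ∧ z.2 ∈ Set.univ}, F = (regReal mu).prod (regC T) := ⟨_, rfl⟩
  have hFR : (fun z w : ℝ × ∀ i, W i => Band hB₂.toFinset z.1 w.1 ∧ r z.2 w.2) ∈ F.R := by
    rw [hFd]
    exact ⟨_, ⟨_, rfl⟩, r, hr, rfl⟩
  obtain ⟨Q, hQd⟩ : ∃ Q : Set (Multiplicative ℝ × Multiplicative (Fin k → ℤ)), Q =
    Set.image (fun z : ℝ × (Fin k → ℤ) => (Multiplicative.ofAdd z.1, Multiplicative.ofAdd z.2))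
      (T₁ ×ˢ K₀) := ⟨_, rfl⟩
  have hQ : Q.Finite := by
    rw [hQd]
    exact (hT₁.prod hK₀).image _
  have hpar : ∀ a ∈ D.M, ∀ κ, 0 ≤ κ → κ < D.ν D.L → ∀ v ∈ {z : ℝ × ∀ i, W i |
      z.1 ∈ Set.Ico 0 mu ∧ z.2 ∈ Set.univ}, ∃ q ∈ Q, ∀ v' ∈ {z : ℝ × ∀ i, W i |
      z.1 ∈ Set.Ico 0 mu ∧ z.2 ∈ Set.univ}, (Band hB₂.toFinset v.1 v'.1 ∧ r v.2 v'.2) →
      D.act a κ v' = D.act a κ v ∧ D.tr a κ v' = D.tr a κ v ∧
        D.act2 a κ v' = prodAct trans (cact T) q v' ∧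
        prodAct trans (cact T) q v' ∈ {z : ℝ × ∀ i, W i |
          z.1 ∈ Set.Ico 0 mu ∧ z.2 ∈ Set.univ} := by
    rintro a ha κ hκ - v ⟨hv, -⟩
    obtain ⟨q, hq, s, hs, t, ht, h⟩ := hact a ha κ hκ v hv
    refine ⟨_, by rw [hQd]; exact ⟨(t, q), ⟨ht, hq⟩, rfl⟩, ?_⟩
    rintro v' ⟨hv', -⟩ ⟨h1, h2⟩
    have h3 := h v' hv' h1 h2
    have h4 := h v hv (Band.refl _ _) (hrr _)
    have h5 := hmem2 a (D.p κ) v' hv'
    unfold RD.act RD.tr RD.act2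
    rw [h3] at h5 ⊢
    rw [h4]
    refine ⟨rfl, rfl, rfl, h5, trivial⟩
  have hparO : ∀ a ∈ D.M, ∀ κ, 0 ≤ κ → κ < D.ν D.L → ∀ v, v ∉ {z : ℝ × ∀ i, W i |
      z.1 ∈ Set.Ico 0 mu ∧ z.2 ∈ Set.univ} →
      D.act a κ v = κ ∧ D.tr a κ v = 0 ∧ D.act2 a κ v = v := by
    intro a ha κ _ _ v hv
    have hv' : v.1 ∉ Set.Ico 0 mu := fun h => hv ⟨h, trivial⟩
    unfold RD.act RD.tr RD.act2
    rw [hout2 a (D.p κ) v hv']
    refine ⟨?_, ?_, rfl⟩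
    · change κ + (D.ν (D.p κ) - D.ν (D.p κ)) = κ
      ring
    · change D.p κ - D.p κ = 0
      ring
  -- the mixed model
  have hmix : ∀ Ψ0 : G →* Equiv.Perm (D.Pt × (ℝ × ∀ i, W i)),
      (∀ a ∈ D.M, ∀ z, Ψ0 a z = D.φ0 a z) → Finite Ψ0.range := by
    intro Ψ0 h0
    obtain ⟨mm, cc, rfl⟩ := hr
    have hne : Nonempty D.Pt := ⟨⟨0, le_rfl, hνL⟩⟩
    let _ : Fintype D.Pt := Fintype.ofFinite _
    have hn : NeZero (Fintype.card D.Pt) := ⟨Fintype.card_ne_zero⟩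
    let Q' : Type := Multiplicative (ZMod (Fintype.card D.Pt))
    have hQf : Finite Q' := inferInstanceAs (Finite (ZMod (Fintype.card D.Pt)))
    let e : D.Pt ≃ Q' := (Fintype.equivOfCardEq (by rw [ZMod.card])).trans
      (Multiplicative.ofAdd (α := ZMod (Fintype.card D.Pt)))
    let E : (D.Pt × (ℝ × ∀ i, W i)) ≃ (ℝ × (Q' × ∀ i, W i)) :=
      { toFun := fun z => (z.2.1, (e z.1, z.2.2))
        invFun := fun y => (e.symm y.2.1, (y.1, y.2.2))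
        left_inv := fun z => by
          change (e.symm (e z.1), (z.2.1, z.2.2)) = z
          rw [e.symm_apply_apply]
        right_inv := fun y => by
          change (y.1, (e (e.symm y.2.1), y.2.2)) = y
          rw [e.apply_symm_apply] }
    obtain ⟨Γ, k₀, hΓ, ⟨e₀⟩⟩ := vfree_fin Q'
    refine finite_of_cj E Ψ0 ?_
    refine A2C G hG Q' (fun E hE => H567.ad_vfree Q' Γ k₀ e₀ E hE) Q' ?_ T mu _
      (gdc_all hgen _ ?_)
    · intro x v h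
      exact mul_eq_right.1 h
    · intro a ha
      refine ⟨?_, (hB₂.toFinset : Set ℝ),
        Set.image (fun z : (Fin k → ℤ) × Q' => (z.2, z.1)) (K₀ ×ˢ Set.univ), T₁, mm, cc,
        hB₂.toFinset.finite_toSet, (hK₀.prod Set.finite_univ).image _, hT₁, ?_⟩
      · rintro y ⟨v, w⟩ hy
        change E (Ψ0 a (E.symm (y, (v, w)))) = _
        have e1 : E.symm (y, (v, w)) = (e.symm v, (y, w)) := rfl
        rw [e1, h0 a ha]
        obtain ⟨g1, g2, g3⟩ := hparO a ha (e.symm v).1 (e.symm v).2.1 (e.symm v).2.2 (y, w)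
          (fun h => hy h.1)
        have h6 := D.φ0_M ha (e.symm v, (y, w))
        have h8 : (D.φ0 a (e.symm v, (y, w))).1 = e.symm v := by
          apply Subtype.ext
          rw [h6.1]
          exact g1
        refine Prod.ext ?_ (Prod.ext ?_ ?_)
        · change (D.φ0 a (e.symm v, (y, w))).2.1 = y
          rw [h6.2, g3]
        · change e (D.φ0 a (e.symm v, (y, w))).1 = v
          rw [h8, e.apply_symm_apply]
        · change (D.φ0 a (e.symm v, (y, w))).2.2 = w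
          rw [h6.2, g3]
      · intro v w y hy0 hy1
        obtain ⟨q, hq, s, hs, t, ht, h⟩ := hact a ha (e.symm v).1 (e.symm v).2.1 (y, w)
          ⟨hy0, hy1⟩
        refine ⟨_, ⟨(q, e (D.φ0 a (e.symm v, (y, w))).1 * v⁻¹), ⟨hq, trivial⟩, rfl⟩, t, ht, ?_⟩
        intro y' w' hy0' hy1' hb hw
        have g1 := h (y', w') ⟨hy0', hy1'⟩ hb hw
        have g2 := h (y, w) ⟨hy0, hy1⟩ (Band.refl _ _) (hrr _)
        have h6 := D.φ0_M ha (e.symm v, (y', w'))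
        have h7 := D.φ0_M ha (e.symm v, (y, w))
        have h8 : (D.φ0 a (e.symm v, (y', w'))).1 = (D.φ0 a (e.symm v, (y, w))).1 := by
          apply Subtype.ext
          rw [h6.1, h7.1]
          unfold RD.act
          rw [g1, g2]
        have h9 : D.act2 a (e.symm v).1 (y', w') = (y' + t, mv T q w') := by
          unfold RD.act2
          rw [g1]
        change E (Ψ0 a (E.symm (y', (v, w')))) = _
        have e1 : E.symm (y', (v, w')) = (e.symm v, (y', w')) := rfl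
        rw [e1, h0 a ha]
        refine Prod.ext ?_ (Prod.ext ?_ ?_)
        · change (D.φ0 a (e.symm v, (y', w'))).2.1 = y' + t
          rw [h6.2]
          exact congrArg Prod.fst h9
        · change e (D.φ0 a (e.symm v, (y', w'))).1 = e (D.φ0 a (e.symm v, (y, w))).1 * v⁻¹ * v
          rw [inv_mul_cancel_right, h8]
        · change (D.φ0 a (e.symm v, (y', w'))).2.2 = mv T q w'
          rw [h6.2]
          exact congrArg Prod.snd h9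
  obtain ⟨Ψ0, Ψ, h0, h1, hΨ, hb, hfin⟩ := D.exists_mixed hG hgen htab hmix
  let _ : Fintype Ψ.range := Fintype.ofFinite _
  have hTT : ∀ a ∈ D.M, ∀ x v, 0 ≤ x → x < D.L → (D.ρ a (x, v)).1 - x ∈ T₁ := by
    rintro a ha x ⟨y, w⟩ hx0 hx1
    by_cases hy : y ∈ Set.Ico 0 mu
    · obtain ⟨q, hq, s, hs, t, ht, h⟩ := hpt a x y w ⟨hx0, hx1⟩ hy
      rw [h x y w ⟨hx0, hx1⟩ hy (fun b _ => Iff.rfl) (fun b _ => Iff.rfl) fun _ => rfl, hT₁d]
      refine Set.mem_insert_of_mem _ (Set.mem_biUnion ha ?_)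
      change x + s - x ∈ Tr a
      rwa [add_sub_cancel_left]
    · rw [hout2 a x (y, w) hy]
      change x - x ∈ T₁
      rw [sub_self]
      exact hT0
  have hf := D.finite_tr hgen Ψ h1 hΨ _ hT₁ hTT
  obtain ⟨R, hRf, hR0, hR1⟩ := D.exists_R Ψ hνL (RD.finite_avg Ψ hf)
  have hpos := D.pos_spec Ψ h1 hΨ
  obtain ⟨Φ, hΦ, hΦρ⟩ := D.exists_lift R hpos hgen htab
  have hRfin : Finite R := hRf
  -- pieces of the words
  obtain ⟨rp, hrp, hrp'⟩ := H794.pieg D F hgen Ψ h1 hΨ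
    (fun a ha => ⟨_, hFR, Q, hQ, hpar a ha⟩) hparO
  have hrp2 : ∀ v ∈ {z : ℝ × ∀ i, W i | z.1 ∈ Set.Ico 0 mu ∧ z.2 ∈ Set.univ},
      ∀ v' ∈ {z : ℝ × ∀ i, W i | z.1 ∈ Set.Ico 0 mu ∧ z.2 ∈ Set.univ}, rp v v' →
      ∀ κ, D.pos Ψ κ v = D.pos Ψ κ v' := by
    intro v hv v' hv' hvv κ
    by_cases hκ : 0 ≤ κ ∧ κ < D.ν D.L
    · exact hrp' κ hκ.1 hκ.2 v hv v' hv' hvv
    · unfold RD.pos
      rw [dif_neg hκ, dif_neg hκ]
  obtain ⟨rl, hrl, hrl'⟩ := F.pull_finite hrp hQ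
  obtain ⟨r₂, hr₂, hr₂'⟩ := F.inf _ hFR rp hrp
  obtain ⟨r₃, hr₃, hr₃'⟩ := F.inf r₂ hr₂ rl hrl
  have hcol : ∀ a ∈ D.M, ∀ (κ : D.Pt) (v : ℝ × ∀ i, W i), v.1 ∈ Set.Ico 0 mu →
      ∃ q ∈ K₀, ∃ t ∈ T₁, ∀ v' : ℝ × ∀ i, W i, v'.1 ∈ Set.Ico 0 mu → r₃ v v' →
      D.act2 a κ.1 v' = (v'.1 + t, mv T q v'.2) ∧
      D.cc R (D.pos Ψ) a κ.1 v' = D.cc R (D.pos Ψ) a κ.1 v := by
    intro a ha κ v hv
    obtain ⟨q, hq, h⟩ := hpar a ha κ.1 κ.2.1 κ.2.2 v ⟨hv, trivial⟩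
    have hq' := hq
    rw [hQd] at hq'
    obtain ⟨⟨t, z⟩, ⟨ht, hz⟩, rfl⟩ := hq'
    refine ⟨z, hz, t, ht, fun v' hv' hw => ?_⟩
    have g1 := hr₃' v ⟨hv, trivial⟩ v' ⟨hv', trivial⟩ hw
    have g2 := hr₂' v ⟨hv, trivial⟩ v' ⟨hv', trivial⟩ g1.1
    obtain ⟨h3, -, h5, h5'⟩ := h v' ⟨hv', trivial⟩ g2.1
    obtain ⟨-, -, h6, h6'⟩ := h v ⟨hv, trivial⟩ ⟨Band.refl _ _, hrr _⟩
    refine ⟨h5, ?_⟩
    unfold RD.cc
    have g3 := (hrl' _ hq v ⟨hv, trivial⟩ v' ⟨hv', trivial⟩ g1.2 h6').2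
    have g4 : RD.W R (D.pos Ψ) (D.act a κ.1 v') (D.act2 a κ.1 v') =
        RD.W R (D.pos Ψ) (D.act a κ.1 v) (D.act2 a κ.1 v) := by
      rw [h3, h5, h6]
      exact (W_congr (hrp2 _ h6' _ h5' g3) _).symm
    have g5 : RD.W R (D.pos Ψ) κ.1 v' = RD.W R (D.pos Ψ) κ.1 v :=
      (W_congr (hrp2 _ ⟨hv, trivial⟩ _ ⟨hv', trivial⟩ g2.2) _).symm
    rw [g4, g5]
  rw [hFd] at hr₃
  obtain ⟨_, ⟨B₃, rfl⟩, _, ⟨mm, cc, rfl⟩, rfl⟩ := hr₃
  let _ := Iet.fact (RD.tau R)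
  let E : ((ℝ × FreeGroup R) × (ℝ × ∀ i, W i)) ≃ (ℝ × ((ℝ × FreeGroup R) × ∀ i, W i)) :=
    { toFun := fun z => (z.2.1, (z.1, z.2.2))
      invFun := fun y => (y.2.1, (y.1, y.2.2))
      left_inv := fun z => rfl
      right_inv := fun y => rfl }
  let KM : Set (FreeGroup R) := insert 1 (Set.image2 (fun x y => x * y⁻¹)
    {w : FreeGroup R | ∃ k v, 0 ≤ k ∧ k < D.ν D.L ∧ w = RD.W R (D.pos Ψ) k v}
    {w : FreeGroup R | ∃ k v, 0 ≤ k ∧ k < D.ν D.L ∧ w = RD.W R (D.pos Ψ) k v})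
  have hKM : KM.Finite := ((W_finite hRf _ _).image2 _ (W_finite hRf _ _)).insert 1
  obtain ⟨Γ, k₀, hΓ, ⟨e₀⟩⟩ := vfree_free R
  have hrange : Finite ((cj E).comp Φ).range := by
    refine A2C G hG (FreeGroup R) (fun E hE => H567.ad_vfree (FreeGroup R) Γ k₀ e₀ E hE)
      (ℝ × FreeGroup R) ?_ T mu _ (gdc_all hgen _ ?_)
    · intro f z hz
      have h1 : f * z.2 = z.2 := congrArg Prod.snd hz
      exact mul_eq_right.1 h1
    · intro a ha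
      refine ⟨?_, (B₃ : Set ℝ), KM ×ˢ K₀, T₁, mm, cc, B₃.finite_toSet, hKM.prod hK₀, hT₁, ?_⟩
      · rintro y ⟨v, w⟩ hy
        change E (Φ a (v, (y, w))) = (y, (v, w))
        rw [hΦ a ha]
        by_cases hv : 0 ≤ v.1 ∧ v.1 < D.L
        · rw [D.φ2_of R _ (v, (y, w)) hv]
          have hk := D.kk_ge hv
          obtain ⟨g1, g2, g3⟩ := hparO a ha (D.kk v.1) hk.1 hk.2 (y, w) (fun h => hy h.1)
          have g4 : D.cc R (D.pos Ψ) a (D.kk v.1) (y, w) = 1 := by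
            unfold RD.cc
            rw [g1, g3, mul_inv_cancel]
          have g5 : D.ρ a (v.1, (y, w)) = (v.1, (y, w)) := hout2 a v.1 (y, w) hy
          change E (((D.ρ a (v.1, (y, w))).1, D.cc R (D.pos Ψ) a (D.kk v.1) (y, w) * v.2),
            (D.ρ a (v.1, (y, w))).2) = (y, (v, w))
          rw [g4, g5, one_mul]
          rfl
        · rw [D.φ2_of' R _ (v, (y, w)) hv]
          rfl
      · intro v w y hy0 hy1
        by_cases hv : 0 ≤ v.1 ∧ v.1 < D.L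
        · have hk := D.kk_ge hv
          obtain ⟨q, hq, t, ht, h⟩ := hcol a ha ⟨D.kk v.1, hk⟩ (y, w) ⟨hy0, hy1⟩
          refine ⟨(D.cc R (D.pos Ψ) a (D.kk v.1) (y, w), q), ⟨?_, hq⟩, t, ht, ?_⟩
          · exact Set.mem_insert_of_mem _ ⟨_, ⟨_, _, (D.act_ge hk.1 hk.2 ha (y, w)).1,
              (D.act_ge hk.1 hk.2 ha (y, w)).2, rfl⟩, _, ⟨_, _, hk.1, hk.2, rfl⟩, rfl⟩
          · intro y' w' hy0' hy1' hb' hw'
            obtain ⟨g1, g2⟩ := h (y', w') ⟨hy0', hy1'⟩ ⟨hb', hw'⟩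
            have g3 : (D.ρ a (v.1, (y', w'))).2 = (y' + t, mv T q w') := by
              rw [← D.act2_kk hv ha]
              exact g1
            change E (Φ a (v, (y', w'))) = _
            rw [hΦ a ha, D.φ2_of R _ (v, (y', w')) hv]
            refine Prod.ext ?_ (Prod.ext (Prod.ext ?_ ?_) ?_)
            · change (D.ρ a (v.1, (y', w'))).2.1 = y' + t
              rw [g3]
            · change (D.ρ a (v.1, (y', w'))).1 =
                v.1 + (RD.tau R (D.cc R (D.pos Ψ) a (D.kk v.1) (y, w))).toAdd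
              rw [← g2, D.tau_cc R hpos hR0 hR1 hv ha (y', w')]
            · change D.cc R (D.pos Ψ) a (D.kk v.1) (y', w') * v.2 =
                D.cc R (D.pos Ψ) a (D.kk v.1) (y, w) * v.2
              rw [g2]
            · change (D.ρ a (v.1, (y', w'))).2.2 = mv T q w'
              rw [g3]
        · refine ⟨(1, 0), ⟨Set.mem_insert _ _, hK0⟩, 0, hT0, ?_⟩
          intro y' w' hy0' hy1' hb' hw'
          change E (Φ a (v, (y', w'))) = _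
          rw [hΦ a ha, D.φ2_of' R _ (v, (y', w')) hv, one_smul, add_zero, mv_zero]
          rfl
  have hΦf : Finite Φ.range := finite_of_cj E Φ hrange
  refine finite_range_of_ker Φ D.ρ hΦf (fun g hg => ?_)
  apply Equiv.ext
  rintro ⟨x, u⟩
  have h := hΦρ g ((x, 1), u)
  rw [hg] at h
  exact h.symm

end Vale.Agent.P192.H176
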