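import Vale.Agent.P192.H176.WIso
import Vale.Agent.P192.H479.RL15

/-!
# P192: infinite words, counters and piecewise isometries of the line, final form (helper176)
-/

namespace Vale.Agent.P192.H176

open Vale.Agent.P192.H479 Vale.Agent.P192.H567

/-- **Infinite words, counters, piecewise isometries of the line.** -/
theorem words_line (G : Type) [Group G] [Group.IsFinitelyPresented G]
    (hG : ∀ x : G, IsOfFinOrder x) (X : Type) [Finite X] (Ω : Set (ℕ → X))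
    (hd : ∀ ξ ∈ Ω, ∀ n, ∃ ξ' ∈ Ω, Aper ξ' ∧ ∀ i < n, ξ' i = ξ i)
    (k : ℕ) (W : Fin k → Type) (T : ∀ i, Equiv.Perm (W i))
    (ρ : G →* Equiv.Perm (Ω × (∀ i, W i) × ℝ))
    (hρ : ∀ g, ∃ (n : ℕ) (c : ∀ i, W i → Fin n) (B : Finset ℝ),
      ∀ z : Ω × (∀ i, W i) × ℝ, ∃ (p : List X) (q : Fin k → ℤ) (e t : ℝ), |e| = 1 ∧
        ∀ z' : Ω × (∀ i, W i) × ℝ, pre n z.1.1 = pre n z'.1.1 →
          (∀ i, c i (z.2.1 i) = c i (z'.2.1 i)) → Cell B z.2.2 z'.2.2 →
            ((ρ g z').1 : ℕ → X) = rep p n z'.1 ∧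
              (ρ g z').2 = (fun i => (T i ^ q i) (z'.2.1 i), e * z'.2.2 + t)) :
    Finite ρ.range :=
  words_iso (fun G _ _ => H479.iso_one G) G hG X Ω hd k W T ρ hρ

end Vale.Agent.P192.H176
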