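import Vale.Agent.P192.H176.NWrd
import Vale.Agent.P192.H176.Cell

/-!
# P192: infinite words, counters and piecewise isometries of the line, true permutations (helper176)
-/

namespace Vale.Agent.P192.H176

open Vale.Agent.P192.RL5 Vale.Agent.P192.H479 Vale.Agent.P192.H567

/-- the case of free actions, counters and piecewise isometries of the line -/
def IsoOne : Prop := ∀ (G : Type) [Group G] [Group.IsFinitelyPresented G],
    (∀ x : G, IsOfFinOrder x) → ∀ S : Set G, Subgroup.closure S = ⊤ →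
    ∀ (L : Type) [Group L],
    (∀ E : Set L, E.Finite → ∃ m : ℕ, ∃ C : Set L, ∀ x : L,
      {y | Relation.ReflTransGen (fun a b => (a ∈ C ↔ b ∈ C) ∧ ∃ e ∈ E, b = e * a) x y}.encard
        ≤ m) →
    ∀ (U : Type) [MulAction L U], (∀ (l : L) (u : U), l • u = u → l = 1) →
    ∀ (k : ℕ) (W : Fin k → Type) (T : ∀ i, Equiv.Perm (W i))
      (ρ : G →* Equiv.Perm (U × (∀ i, W i) × ℝ)),
    (∀ s ∈ S, ∃ (m : ℕ) (c : ∀ i, W i → Fin m) (B : Finset ℝ)
      (K : Set (L × (Fin k → ℤ) × ℝ)), K.Finite ∧ ∀ (u : U) (w : ∀ i, W i), ∀ x : ℝ,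
        ∃ q ∈ K, ∃ e : ℝ, |e| = 1 ∧ ∀ w' : ∀ i, W i, (∀ i, c i (w i) = c i (w' i)) →
          ∀ x' : ℝ, Cell B x x' →
          ρ s (u, w', x') = (q.1 • u, fun i => (T i ^ q.2.1 i) (w' i), e * x' + q.2.2)) →
    Finite ρ.range

/-- one value for each of finitely many classes -/
theorem fin_classes {Z C Q : Type} [Finite C] (q₀ : Q) (τ : Z → C) (P : Z → Q → Prop)
    (h : ∀ z, ∃ q, P z q) :
    ∃ K : Set Q, K.Finite ∧ ∀ z, ∃ z₀, τ z₀ = τ z ∧ ∃ q ∈ K, P z₀ q := by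
  classical
  choose q hq using h
  refine ⟨Set.range fun c : C => if h : ∃ z, τ z = c then q h.choose else q₀,
    Set.finite_range _, fun z => ?_⟩
  have h : ∃ z', τ z' = τ z := ⟨z, rfl⟩
  exact ⟨h.choose, h.choose_spec, q h.choose, ⟨τ z, dif_pos h⟩, hq _⟩

/-- subsets of free actions -/
theorem emb_iso (hIso : IsoOne) (G : Type) [Group G] [Group.IsFinitelyPresented G]
    (hG : ∀ x : G, IsOfFinOrder x) (L : Type) [Group L]
    (hL : ∀ E : Set L, E.Finite → ∃ m : ℕ, ∃ C : Set L, ∀ x : L,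
      {y | Relation.ReflTransGen (fun a b => (a ∈ C ↔ b ∈ C) ∧ ∃ e ∈ E, b = e * a) x y}.encard ≤ m)
    (U : Type) [MulAction L U] (hU : ∀ (l : L) (u : U), l • u = u → l = 1)
    (Ω : Type) (j₀ : Ω → U) (hj₀ : Function.Injective j₀)
    {k : ℕ} {W : Fin k → Type} (T : ∀ i, Equiv.Perm (W i))
    (ρ : G →* Equiv.Perm (Ω × (∀ i, W i) × ℝ))
    (hρ : ∀ g, ∃ (B : Finset ℝ) (K : Set (L × (Fin k → ℤ) × ℝ)) (m : ℕ)
      (c : ∀ i, W i → Fin m), K.Finite ∧
        ∀ (ω : Ω) (w : ∀ i, W i), ∀ x : ℝ, ∃ q ∈ K, ∃ e : ℝ, |e| = 1 ∧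
          ∀ w', (∀ i, c i (w i) = c i (w' i)) → ∀ x' : ℝ, Cell B x x' →
            j₀ (ρ g (ω, w', x')).1 = q.1 • j₀ ω ∧
              (ρ g (ω, w', x')).2 = (mv T q.2.1 w', e * x' + q.2.2)) :
    Finite ρ.range := by
  classical
  let j : Ω × (∀ i, W i) × ℝ → U × (∀ i, W i) × ℝ := fun z => (j₀ z.1, z.2)
  have hj : Function.Injective j := by
    rintro ⟨ω, z⟩ ⟨ω', z'⟩ h
    have e2 : j₀ ω = j₀ ω' := congrArg Prod.fst h
    have e3 : z = z' := congrArg Prod.snd h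
    rw [hj₀ e2, e3]
  let f := Equiv.ofInjective j hj
  let Φ : G →* Equiv.Perm (U × (∀ i, W i) × ℝ) := (Equiv.Perm.extendDomainHom f).comp ρ
  have hin : ∀ g z, Φ g (j z) = j (ρ g z) := by
    intro g z
    exact Equiv.Perm.extendDomain_apply_image (ρ g) f z
  have hout : ∀ g y, y ∉ Set.range j → Φ g y = y := by
    intro g y hy
    exact Equiv.Perm.extendDomain_apply_not_subtype (ρ g) f hy
  have hfin : Finite Φ.range := by
    refine hIso G hG Set.univ Subgroup.closure_univ L hL U hU k W T Φ fun g _ => ?_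
    obtain ⟨B, K, m, c, hK, h2⟩ := hρ g
    refine ⟨m, c, B, insert (1, 0, 0) K, hK.insert _, ?_⟩
    intro u w x
    by_cases hu : u ∈ Set.range j₀
    · obtain ⟨ω, rfl⟩ := hu
      obtain ⟨q, hq, e, he, h3⟩ := h2 ω w x
      refine ⟨q, Or.inr hq, e, he, fun w' hc x' hb => ?_⟩
      obtain ⟨h4, h5⟩ := h3 w' hc x' hb
      change Φ g (j (ω, w', x')) = _
      rw [hin]
      exact Prod.ext h4 h5
    · refine ⟨(1, 0, 0), Or.inl rfl, 1, abs_one, fun w' _ x' _ => ?_⟩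
      rw [hout g (u, w', x') ?_]
      · change _ = (((1 : L) • u, mv T 0 w', 1 * x' + 0) : U × (∀ i, W i) × ℝ)
        rw [one_smul, mv_zero, one_mul, add_zero]
      · rintro ⟨⟨ω, w₁, x₁⟩, e⟩
        exact hu ⟨ω, congrArg Prod.fst e⟩
  refine finite_range_of_ker Φ ρ hfin fun g hg => ?_
  apply Equiv.ext
  intro z
  apply hj
  rw [← hin, hg]
  rfl

/-- **Infinite words, counters, piecewise isometries of the line.** -/
theorem words_iso (hIso : IsoOne) (G : Type) [Group G] [Group.IsFinitelyPresented G]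
    (hG : ∀ x : G, IsOfFinOrder x) (X : Type) [Finite X] (Ω : Set (ℕ → X))
    (hd : ∀ ξ ∈ Ω, ∀ n, ∃ ξ' ∈ Ω, Aper ξ' ∧ ∀ i < n, ξ' i = ξ i)
    (k : ℕ) (W : Fin k → Type) (T : ∀ i, Equiv.Perm (W i))
    (ρ : G →* Equiv.Perm (Ω × (∀ i, W i) × ℝ))
    (hρ : ∀ g, ∃ (n : ℕ) (c : ∀ i, W i → Fin n) (B : Finset ℝ),
      ∀ z : Ω × (∀ i, W i) × ℝ, ∃ (p : List X) (q : Fin k → ℤ) (e t : ℝ), |e| = 1 ∧
        ∀ z' : Ω × (∀ i, W i) × ℝ, pre n z.1.1 = pre n z'.1.1 →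
          (∀ i, c i (z.2.1 i) = c i (z'.2.1 i)) → Cell B z.2.2 z'.2.2 →
            ((ρ g z').1 : ℕ → X) = rep p n z'.1 ∧
              (ρ g z').2 = (fun i => (T i ^ q i) (z'.2.1 i), e * z'.2.2 + t)) :
    Finite ρ.range := by
  classical
  choose n c B hq using hρ
  -- the aperiodic words
  let Ωa : Type := {ω : Ω // Aper ω.1}
  let _ : MulAction G (Ω × (∀ i, W i) × ℝ) := MulAction.compHom _ ρ
  let ι : Ωa × (∀ i, W i) × ℝ → Ω × (∀ i, W i) × ℝ := fun z => (z.1.1, z.2)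
  have hι : Function.Injective ι := by
    rintro ⟨ω, z⟩ ⟨ω', z'⟩ h
    have e1 : ω = ω' := Subtype.ext (congrArg Prod.fst h)
    have e2 : z = z' := congrArg Prod.snd h
    rw [e1, e2]
  have hinv : ∀ (g : G) (y : Ωa × (∀ i, W i) × ℝ), ∃ y', ι y' = g • ι y := by
    rintro g ⟨⟨ω, hω⟩, w, x⟩
    have h1 : Aper (ρ g (ω, w, x)).1.1 := by
      obtain ⟨p, q, e, t, he, h2⟩ := hq g (ω, w, x)
      rw [(h2 (ω, w, x) rfl (fun _ => rfl) (fun _ _ => ⟨Iff.rfl, Iff.rfl⟩)).1]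
      exact aper_rep hω _ _
    exact ⟨(⟨(ρ g (ω, w, x)).1, h1⟩, (ρ g (ω, w, x)).2), rfl⟩
  obtain ⟨inst, hinst⟩ := exists_restrict ι hι hinv
  let Φ : G →* Equiv.Perm (Ωa × (∀ i, W i) × ℝ) := MulAction.toPermHom G _
  have hΦ : ∀ g z, ι (Φ g z) = ρ g (ι z) := fun g z => hinst g z
  have hΦ1 : ∀ g z, (Φ g z).1.1 = (ρ g (z.1.1, z.2)).1 := fun g z => congrArg Prod.fst (hΦ g z)
  have hΦ2 : ∀ g z, (Φ g z).2 = (ρ g (z.1.1, z.2)).2 := fun g z => congrArg Prod.snd (hΦ g z)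
  let S := tailSetoid (fun ω : Ωa => ω.1.1)
  let U : Type := Quotient S × FreeGroup X
  let _ : MulAction (FreeGroup X) U := cp (Quotient S) X
  let rp : Ωa → Ωa := fun ω => (Quotient.mk S ω).out
  have hrp : ∀ ω : Ωa, ∃ a b, Tail ω.1.1 (rp ω).1.1 a b := by
    intro ω
    obtain ⟨a, b, h⟩ := Quotient.mk_out (s := S) ω
    exact ⟨b, a, Tail.symm h⟩
  let j₀ : Ωa → U := fun ω => (Quotient.mk S ω, kap (rp ω).1.1 ω.1.1)
  have hj₀ : Function.Injective j₀ := by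
    intro ω ω' h
    have e1 : Quotient.mk S ω = Quotient.mk S ω' := congrArg Prod.fst h
    have e2 : kap (rp ω).1.1 ω.1.1 = kap (rp ω').1.1 ω'.1.1 := congrArg Prod.snd h
    have e3 : rp ω = rp ω' := by
      change (Quotient.mk S ω).out = (Quotient.mk S ω').out
      rw [e1]
    obtain ⟨a, b, h1⟩ := hrp ω
    obtain ⟨a', b', h2⟩ := hrp ω'
    rw [← e3] at e2 h2
    exact Subtype.ext (Subtype.ext (kap_inj (rp ω).2 h1 h2 e2))
  have hfin : Finite Φ.range := by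
    refine emb_iso hIso G hG (FreeGroup X) (fun E hE => ad_free_fin X E hE) U ?_ Ωa j₀ hj₀ T Φ ?_
    · intro l u h
      have h1 : l * u.2 = u.2 := congrArg Prod.snd h
      exact mul_eq_right.1 h1
    · intro g
      -- finitely many classes
      have hA : Finite {l : List X // l.length ≤ n g} :=
        (List.finite_length_le X (n g)).to_subtype
      obtain ⟨K, hK, h1⟩ := fin_classes (C := {l : List X // l.length ≤ n g} ×
        (Fin k → Fin (n g)) × (B g → Prop) × (B g → Prop))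
        ((1, 0, 0) : FreeGroup X × (Fin k → ℤ) × ℝ) (fun z : Ω × (∀ i, W i) × ℝ =>
          (⟨pre (n g) z.1.1, by rw [pre_length]⟩, fun i => c g i (z.2.1 i),
            fun b => b.1 < z.2.2, fun b => z.2.2 < b.1))
        (fun z q => ∃ (p : List X) (e : ℝ), |e| = 1 ∧ q.1 = pw p * (pw (pre (n g) z.1.1))⁻¹ ∧
          ∀ z' : Ω × (∀ i, W i) × ℝ, pre (n g) z.1.1 = pre (n g) z'.1.1 →
          (∀ i, c g i (z.2.1 i) = c g i (z'.2.1 i)) → Cell (B g) z.2.2 z'.2.2 →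
            ((ρ g z').1 : ℕ → X) = rep p (n g) z'.1 ∧
              (ρ g z').2 = (fun i => (T i ^ q.2.1 i) (z'.2.1 i), e * z'.2.2 + q.2.2)) (by
        intro z
        obtain ⟨p, q, e, t, he, h2⟩ := hq g z
        exact ⟨(pw p * (pw (pre (n g) z.1.1))⁻¹, q, t), p, e, he, rfl, h2⟩)
      refine ⟨B g, K, n g, c g, hK, fun ω w x => ?_⟩
      obtain ⟨z₀, e0, q, hqK, p, e, he, e1, h3⟩ := h1 (ω.1, w, x)
      refine ⟨q, hqK, e, he, fun w' hw x' hx => ?_⟩
      have g1 : pre (n g) z₀.1.1 = pre (n g) ω.1.1 :=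
        congrArg Subtype.val (congrArg Prod.fst e0)
      have g2 : ∀ i, c g i (z₀.2.1 i) = c g i (w i) :=
        fun i => congrFun (congrArg (fun t => t.2.1) e0) i
      have g3 : Cell (B g) z₀.2.2 x := fun b hb =>
        ⟨iff_of_eq (congrFun (congrArg (fun t => t.2.2.1) e0) ⟨b, hb⟩),
          iff_of_eq (congrFun (congrArg (fun t => t.2.2.2) e0) ⟨b, hb⟩)⟩
      have h4 := h3 (ω.1, w', x') g1 (fun i => (g2 i).trans (hw i))
        (fun b hb => ⟨(g3 b hb).1.trans (hx b hb).1, (g3 b hb).2.trans (hx b hb).2⟩)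
      constructor
      · have e2 : (Φ g (ω, w', x')).1.1.1 = rep p (n g) ω.1.1 := by
          rw [hΦ1]
          exact h4.1
        obtain ⟨a, b, h5⟩ := hrp ω
        have e3 : Quotient.mk S (Φ g (ω, w', x')).1 = Quotient.mk S ω := by
          apply Quotient.sound
          change ∃ a b, Tail (Φ g (ω, w', x')).1.1.1 ω.1.1 a b
          rw [e2]
          exact ⟨_, _, (Tail.refl ω.1.1).rep _ _⟩
        refine Prod.ext e3 ?_
        change kap (rp (Φ g (ω, w', x')).1).1.1 (Φ g (ω, w', x')).1.1.1 =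
          q.1 * kap (rp ω).1.1 ω.1.1
        have e4 : rp (Φ g (ω, w', x')).1 = rp ω := by
          change (Quotient.mk S (Φ g (ω, w', x')).1).out = (Quotient.mk S ω).out
          rw [e3]
        rw [e4, e2, kap_rep (rp ω).2 h5, e1, g1]
      · rw [hΦ2]
        exact h4.2
  refine finite_range_of_ker Φ ρ hfin fun g hg => ?_
  apply Equiv.ext
  rintro ⟨ω, w, x⟩
  obtain ⟨ξ', hξ, h1, h2⟩ := hd ω.1 ω.2 (n g)
  have h3 : ρ g (⟨ξ', hξ⟩, w, x) = (⟨ξ', hξ⟩, w, x) := by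
    have h4 := hΦ g (⟨⟨ξ', hξ⟩, h1⟩, w, x)
    rw [hg] at h4
    exact h4.symm
  obtain ⟨p, q, e, t, he, h0⟩ := hq g (ω, w, x)
  have h5 := h0 (⟨ξ', hξ⟩, w, x) (pre_congr h2).symm (fun _ => rfl)
    (fun _ _ => ⟨Iff.rfl, Iff.rfl⟩)
  have h6 := h0 (ω, w, x) rfl (fun _ => rfl) (fun _ _ => ⟨Iff.rfl, Iff.rfl⟩)
  rw [h3] at h5
  refine Prod.ext ?_ ?_
  · apply Subtype.ext
    rw [h6.1]
    exact rep_triv _ _ _ _ h1 h2 h5.1
  · rw [h6.2]
    exact h5.2.symm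

end Vale.Agent.P192.H176
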