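import Vale.Agent.P192.H291.WT
import Vale.Agent.P192.H176.Hd9

/-!
# P192: heads on a set with a permutation over a class, relational form (helper176)
-/

namespace Vale.Agent.P192.H176.Hd

open Vale.Agent.P192 Vale.Agent.P192.H567 Vale.Agent.P192.H593 Vale.Agent.P192.H437
open Vale.Agent.P192.H291 (obsW wt_uniform)

/-- which heads are at distance at most `r` along `τ` -/
def NearT {k : ℕ} {Z : Type} (τ : Equiv.Perm Z) (r : ℕ) (z z' : Fin k → Z) : Prop :=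
  ∀ (i j : Fin k) (d : ℤ), |d| ≤ r → ((τ ^ d) (z i) = z j ↔ (τ ^ d) (z' i) = z' j)

theorem nearT_refl {k : ℕ} {Z : Type} (τ : Equiv.Perm Z) (r : ℕ) (z : Fin k → Z) :
    NearT τ r z z := fun _ _ _ _ => Iff.rfl

/-- **Heads over a class.** -/
theorem heads_relW {𝔏 : Type} [Group 𝔏] (c : Cls 𝔏) (hUF : UF c) (k : ℕ) (G : Type) [Group G]
    [Group.IsFinitelyPresented G] (hG : ∀ x : G, IsOfFinOrder x) {M : ℕ} (σ : Fin M → G)
    (hσ : Subgroup.closure (Set.range σ) = ⊤) (m' m r D : ℕ) (K : Set 𝔏) (hK : K.Finite) :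
    ∃ N : Subgroup G, N.Normal ∧ N.FiniteIndex ∧
      ∀ (Y : Type) [MulAction 𝔏 Y] (b : Y → c.C m'), c.P m' Y b →
      ∀ (Z : Type) (τ : Equiv.Perm Z)
        (a : Fin M × Bool → Fin k → Z → Fin m) (ρ : G →* Equiv.Perm (Y × (Fin k → Z))),
      (∀ l y z, ∃ q ∈ K, ∃ v : Fin k → ℤ, (∀ j, |v j| ≤ (D : ℤ)) ∧ ∀ y' z', b y = b y' →
        (∀ j, a l j (z j) = a l j (z' j)) → NearT τ r z z' →
          ρ (gen σ l) (y', z') = (q • y', fun j => (τ ^ v j) (z' j))) → ∀ g ∈ N, ρ g = 1 := by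
  classical
  let X : Type := Fin M × Bool → Fin m
  obtain ⟨m₁, ε, hε⟩ : ∃ (m₁ : ℕ) (ε : X → Fin m₁), Function.Injective ε :=
    ⟨Nat.card X, Finite.equivFin X, (Finite.equivFin X).injective⟩
  obtain ⟨N, h1, h2, h3⟩ := wt_uniform c hUF k G hG σ hσ 1 m' m₁ r D (insert 1 K)
    (hK.insert _)
  refine ⟨N, h1, h2, ?_⟩
  intro Y _ b hb Z τ a ρ hρ g hg
  choose q hq v hv hact using hρ
  let α : Fin k → Z → Fin m₁ := fun j z => ε fun l => a l j z
  have hobs : ∀ z z', obsW r α τ z = obsW r α τ z' →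
      (∀ l j, a l j (z j) = a l j (z' j)) ∧ NearT τ r z z' := by
    intro z z' h
    constructor
    · intro l j
      exact congrFun (hε (congrFun (congrArg Prod.fst h) j)) l
    · intro i j d hd
      have h4 := congrFun (congrFun (congrFun (congrArg Prod.snd h) i) j) d
      have h5 : (|d| ≤ (r : ℤ) ∧ (τ ^ d) (z i) = z j) ↔
        (|d| ≤ (r : ℤ) ∧ (τ ^ d) (z' i) = z' j) := iff_of_eq h4
      exact ⟨fun h6 => (h5.1 ⟨hd, h6⟩).2, fun h6 => (h5.2 ⟨hd, h6⟩).2⟩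
  let E : (Y × (Fin k → Z)) ≃ Unit × Y × (Fin k → Z) := (Equiv.punitProd _).symm
  obtain ⟨ρ', h4, h5⟩ := exists_conj E ρ
  apply h5
  let F : Fin M × Bool → Unit → c.C m' → (Fin k → Fin m₁) × (Fin k → Fin k → ℤ → Prop) →
      Unit × 𝔏 × (Fin k → ℤ) := fun l _ γ o =>
    if h : ∃ y : Y × (Fin k → Z), b y.1 = γ ∧ obsW r α τ y.2 = o then
      ((), q l h.choose.1 h.choose.2, v l h.choose.1 h.choose.2) else ((), 1, 0)
  refine h3 Unit (by simp) Y b hb Z τ α F ?_ ?_ ρ' ?_ g hg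
  · intro l i γ o
    by_cases h : ∃ y : Y × (Fin k → Z), b y.1 = γ ∧ obsW r α τ y.2 = o
    · simp only [F, dif_pos h]
      exact Or.inr (hq _ _ _)
    · simp only [F, dif_neg h]
      exact Or.inl rfl
  · intro l i γ o j
    by_cases h : ∃ y : Y × (Fin k → Z), b y.1 = γ ∧ obsW r α τ y.2 = o
    · simp only [F, dif_pos h]
      exact hv _ _ _ j
    · simp only [F, dif_neg h]
      simp
  · rintro l i y z x rfl
    have h : ∃ y' : Y × (Fin k → Z), b y'.1 = b y ∧ obsW r α τ y'.2 = obsW r α τ z :=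
      ⟨(y, z), rfl, rfl⟩
    have h6 : F l i (b y) (obsW r α τ z) = ((), q l h.choose.1 h.choose.2,
      v l h.choose.1 h.choose.2) := dif_pos h
    have h7 := h.choose_spec
    generalize h.choose = p at h6 h7
    obtain ⟨g1, g2⟩ := hobs p.2 z h7.2
    have h8 := hact l p.1 p.2 y z h7.1 (g1 l) g2
    have h9 : ρ' (gen σ l) (i, y, z) = E (ρ (gen σ l) (y, z)) := h4 (gen σ l) (y, z)
    rw [h9, h8]
    change _ = ((F l i (b y) (obsW r α τ z)).1, (F l i (b y) (obsW r α τ z)).2.1 • y,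
      fun j => (τ ^ (F l i (b y) (obsW r α τ z)).2.2 j) (z j))
    rw [h6]
    rfl

end Vale.Agent.P192.H176.Hd
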