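import Vale.Agent.P192.H176.Wd3

/-!
# P192: heads on a set with a permutation, and planes (helper176): explicit form
-/

set_option linter.unusedSectionVars false

namespace Vale.Agent.P192.H176.Hd

open Vale.Agent.P192 Vale.Agent.P192.H567 Vale.Agent.P192.H593 Vale.Agent.P192.H437
open Vale.Agent.P192.H479 (CellK)

/-- **Heads, counters, plane.** -/
theorem headsW_plane (G : Type) [Group G] [Group.IsFinitelyPresented G]
    (hG : ∀ x : G, IsOfFinOrder x) (S : Set G) (hS : Subgroup.closure S = ⊤) (k₀ k m r : ℕ)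
    (K : Set ((Fin k₀ → ℤ) × (Fin k → ℤ))) (hK : K.Finite) :
    ∃ N : Subgroup G, N.Normal ∧ N.FiniteIndex ∧
      ∀ (𝕜 : Type) [Field 𝕜] [LinearOrder 𝕜] [IsStrictOrderedRing 𝕜]
        (W : Fin k₀ → Type) (T : ∀ i, Equiv.Perm (W i))
        (Z : Type) (τ : Equiv.Perm Z)
        (ρ : G →* Equiv.Perm ((𝕜 × (∀ i, W i) × 𝕜) × (Fin k → Z))),
      (∀ s, (s ∈ S ∨ s⁻¹ ∈ S) → ∃ (c : ∀ i, W i → Fin m) (a : Fin k → Z → Fin m)
        (B R : Finset 𝕜), B.card ≤ m ∧ R.card ≤ m ∧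
        ∀ (x : 𝕜) (w : ∀ i, W i) (y : 𝕜) (z : Fin k → Z), ∃ q ∈ K, ∃ p ∈ R, ∃ t ∈ R,
          ∃ e d : 𝕜, |e| = 1 ∧ |d| = 1 ∧
          ((∀ x' : 𝕜, CellK B x x' → ∀ w' : ∀ i, W i, (∀ i, c i (w i) = c i (w' i)) →
              ∀ y' : 𝕜, CellK B y y' → ∀ z' : Fin k → Z, (∀ j, a j (z j) = a j (z' j)) →
              NearT τ r z z' → ρ s ((x', w', y'), z') =
                ((e * x' + p, fun i => (T i ^ q.1 i) (w' i), d * y' + t), fun j => (τ ^ q.2 j) (z' j))) ∨
            ∀ x' : 𝕜, CellK B x x' → ∀ w' : ∀ i, W i, (∀ i, c i (w i) = c i (w' i)) →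
              ∀ y' : 𝕜, CellK B y y' → ∀ z' : Fin k → Z, (∀ j, a j (z j) = a j (z' j)) →
              NearT τ r z z' → ρ s ((x', w', y'), z') =
                ((e * y' + p, fun i => (T i ^ q.1 i) (w' i), d * x' + t), fun j => (τ ^ q.2 j) (z' j)))) →
      ∀ g ∈ N, ρ g = 1 := by
  classical
  obtain ⟨MM, σ, hσS, hσ, -⟩ := exists_tuple G S hS
  have hKf : Finite K := hK
  let V : Type := K × (Fin m × ℤˣ) × (Fin m × ℤˣ) × Bool
  have hVf : Finite V := inferInstance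
  let X₂ : Type := Fin MM × Bool → Fin m
  let X₃ : Type := Fin MM × Bool → Fin (m + 1) × Fin (m + 1)
  obtain ⟨m', ⟨ε₂, hε₂⟩, ⟨ε₃, hε₃⟩, hm'⟩ : ∃ m' : ℕ,
      (∃ ε₂ : X₂ → Fin m', Function.Injective ε₂) ∧
      (∃ ε₃ : X₃ → Fin m', Function.Injective ε₃) ∧
      (Finset.univ : Finset (Fin MM × Bool)).card * m ≤ m' := by
    refine ⟨Nat.card X₂ + Nat.card X₃ +
      (Finset.univ : Finset (Fin MM × Bool)).card * m, ?_, ?_, by omega⟩
    · exact exists_injF (by omega)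
    · exact exists_injF (by omega)
  obtain ⟨D, hD⟩ : ∃ D : ℕ, ∀ x ∈ K, ∀ j, |x.2 j| ≤ (D : ℤ) := by
    have h1 : ∀ j : Fin k, ∃ D : ℕ, ∀ x ∈ K, |x.2 j| ≤ (D : ℤ) := by
      intro j
      obtain ⟨c, hc⟩ := (hK.image fun x : (Fin k₀ → ℤ) × (Fin k → ℤ) =>
        (x.2 j).natAbs).bddAbove
      refine ⟨c, fun x hx => ?_⟩
      have := hc ⟨x, hx, rfl⟩
      rw [Int.abs_eq_natAbs]
      exact_mod_cast this
    choose Df hDf using h1
    obtain ⟨D, hD⟩ := (Set.finite_range Df).bddAbove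
    exact ⟨D, fun x hx j => (hDf j x hx).trans (by exact_mod_cast hD ⟨j, rfl⟩)⟩
  -- the elements of the group
  let elt : Fin MM × Bool → V → (Fin k₀ → Multiplicative ℤ) × FreeGroup PL := fun l v =>
    (fun i => Multiplicative.ofAdd (v.1.1.1 i),
      FreeGroup.of ((v.2.1.2, Encodable.encode (l, v.2.1.1)),
        (v.2.2.1.2, Encodable.encode (l, v.2.2.1.1)), v.2.2.2))
  obtain ⟨N, h1, h2, h3⟩ := heads_relW (planeC k₀) (uf_plane k₀) k G hG σ hσ m' m r D
    (Set.range fun p : (Fin MM × Bool) × V => elt p.1 p.2) (Set.finite_range _)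
  refine ⟨N, h1, h2, ?_⟩
  intro 𝕜 _ _ _ W T Z τ ρ hρ g hg
  have hgen : ∀ l : Fin MM × Bool, gen σ l ∈ S ∨ (gen σ l)⁻¹ ∈ S := by
    rintro ⟨i, ε⟩
    cases ε
    · right
      change ((σ i)⁻¹)⁻¹ ∈ S
      rw [inv_inv]; exact hσS ⟨i, rfl⟩
    · left; exact hσS ⟨i, rfl⟩
  choose c a B R hB hR hact using fun l => hρ (gen σ l) (hgen l)
  choose tR htR using fun l => exists_enumF (R l) m (hR l)
  choose ci hci using fun l => exists_cidx (B l) m (hB l)
  let t : ℕ → 𝕜 := fun n =>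
    match (Encodable.decode n : Option ((Fin MM × Bool) × Fin m)) with
    | some p => tR p.1 p.2
    | none => 0
  have ht : ∀ l j, t (Encodable.encode (l, j)) = tR l j := by
    intro l j
    simp only [t, Encodable.encodek]
  -- the values
  have hgv : ∀ (l : Fin MM × Bool) (x : 𝕜) (w : ∀ i, W i) (y : 𝕜) (z : Fin k → Z), ∃ v : V,
      ∀ x' : 𝕜, ci l x = ci l x' → ∀ w' : ∀ i, W i, (∀ i, c l i (w i) = c l i (w' i)) →
        ∀ y' : 𝕜, ci l y = ci l y' → ∀ z' : Fin k → Z, (∀ j, a l j (z j) = a l j (z' j)) →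
        NearT τ r z z' → ρ (gen σ l) ((x', w', y'), z') =
          (((mkP v.2.2.2 v.2.1.2 (tR l v.2.1.1) v.2.2.1.2 (tR l v.2.2.1.1) (x', y')).1,
            fun i => (T i ^ v.1.1.1 i) (w' i),
            (mkP v.2.2.2 v.2.1.2 (tR l v.2.1.1) v.2.2.1.2 (tR l v.2.2.1.1) (x', y')).2),
            fun j => (τ ^ v.1.1.2 j) (z' j)) := by
    intro l x w y z
    obtain ⟨q, hq, p, hp, t', ht', e, d, he, hd, h4⟩ := hact l x w y z
    obtain ⟨j, hj⟩ := htR l p hp
    obtain ⟨j', hj'⟩ := htR l t' ht'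
    obtain ⟨υ, hυ⟩ := exists_sgK he
    obtain ⟨υ', hυ'⟩ := exists_sgK hd
    rcases h4 with h4 | h4
    · refine ⟨(⟨q, hq⟩, (j, υ), (j', υ'), false), ?_⟩
      intro x' e2 w' e1 y' e3 z' e4 e5
      rw [mkP_false, h4 x' ((hci l x x').1 e2) w' e1 y' ((hci l y y').1 e3) z' e4 e5, ← hυ, ← hυ',
        ← hj, ← hj']
    · refine ⟨(⟨q, hq⟩, (j, υ), (j', υ'), true), ?_⟩
      intro x' e2 w' e1 y' e3 z' e4 e5
      rw [mkP_true, h4 x' ((hci l x x').1 e2) w' e1 y' ((hci l y y').1 e3) z' e4 e5, ← hυ, ← hυ',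
        ← hj, ← hj']
  choose gv hgv using hgv
  let act : MulAction ((Fin k₀ → Multiplicative ℤ) × FreeGroup PL) (𝕜 × (∀ i, W i) × 𝕜) :=
    { smul := fun l y => ((pact t l.2 (y.1, y.2.2)).1, fun i => (T i ^ (l.1 i).toAdd) (y.2.1 i),
        (pact t l.2 (y.1, y.2.2)).2)
      one_smul := by
        rintro ⟨x, w, y⟩
        change ((pact t 1 (x, y)).1, fun i => (T i ^ (0 : ℤ)) (w i), (pact t 1 (x, y)).2) = _
        rw [map_one]
        rfl
      mul_smul := by
        rintro ⟨z, v⟩ ⟨z', v'⟩ ⟨x, w, y⟩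
        change ((pact t (v * v') (x, y)).1, fun i => (T i ^ (z i * z' i).toAdd) (w i),
            (pact t (v * v') (x, y)).2) =
          ((pact t v (pact t v' (x, y))).1,
            fun i => (T i ^ (z i).toAdd) ((T i ^ (z' i).toAdd) (w i)),
            (pact t v (pact t v' (x, y))).2)
        rw [map_mul]
        refine Prod.ext rfl (Prod.ext (funext fun i => ?_) rfl)
        change (T i ^ (z i * z' i).toAdd) (w i) = _
        rw [toAdd_mul, zpow_add]; rfl }
  have hsmul : ∀ (l : (Fin k₀ → Multiplicative ℤ) × FreeGroup PL)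
      (y : 𝕜 × (∀ i, W i) × 𝕜), l • y =
      ((pact t l.2 (y.1, y.2.2)).1, fun i => (T i ^ (l.1 i).toAdd) (y.2.1 i),
        (pact t l.2 (y.1, y.2.2)).2) :=
    fun _ _ => rfl
  let b : 𝕜 × (∀ i, W i) × 𝕜 → (Fin k₀ → Fin m') × Fin m' × Fin m' := fun y =>
    (fun i => ε₂ (fun l => c l i (y.2.1 i)), ε₃ (fun l => ci l y.1), ε₃ (fun l => ci l y.2.2))
  refine h3 (𝕜 × (∀ i, W i) × 𝕜) b ⟨?_⟩ Z τ a ρ ?_ g hg
  · exact
      { 𝕜 := 𝕜
        W := W
        T := T
        t := t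
        e :=
          { toFun := fun y => (y.2.1, y.1, y.2.2)
            invFun := fun y => (y.2.1, y.1, y.2.2)
            left_inv := fun _ => rfl
            right_inv := fun _ => rfl }
        a := fun i w => ε₂ (fun l => c l i w)
        β := fun x => ε₃ (fun l => ci l x)
        B := Finset.univ.biUnion B
        card := (Finset.card_biUnion_le_card_mul _ _ m fun l _ => hB l).trans hm'
        cell := by
          intro x x' h
          refine congrArg ε₃ (funext fun l => ?_)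
          exact (hci l x x').2 (cellK_mono (Finset.subset_biUnion_of_mem B (Finset.mem_univ l)) h)
        he := fun _ _ => rfl
        hb := fun _ => rfl }
  · rintro l ⟨x, w, y⟩ z
    refine ⟨_, ⟨(l, gv l x w y z), rfl⟩, (gv l x w y z).1.1.2, hD _ (gv l x w y z).1.2, ?_⟩
    rintro ⟨x', w', y'⟩ z' hb ha hnear
    have e2 : ∀ i, c l i (w i) = c l i (w' i) := by
      intro i
      have := hε₂ (congrFun (congrArg
        (fun q : (Fin k₀ → Fin m') × Fin m' × Fin m' => q.1) hb) i)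
      exact congrFun this l
    have e3 : ci l x = ci l x' := by
      have := hε₃ (congrArg (fun q : (Fin k₀ → Fin m') × Fin m' × Fin m' => q.2.1) hb)
      exact congrFun this l
    have e4 : ci l y = ci l y' := by
      have := hε₃ (congrArg (fun q : (Fin k₀ → Fin m') × Fin m' × Fin m' => q.2.2) hb)
      exact congrFun this l
    have h6 := hgv l x w y z x' e3 w' e2 y' e4 z' ha hnear
    generalize gv l x w y z = v at h6
    refine h6.trans ?_
    rw [hsmul]
    change _ = (((pact t (FreeGroup.of ((v.2.1.2, Encodable.encode (l, v.2.1.1)),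
        (v.2.2.1.2, Encodable.encode (l, v.2.2.1.1)), v.2.2.2)) (x', y')).1,
      fun i => (T i ^ (Multiplicative.ofAdd (v.1.1.1 i)).toAdd) (w' i),
      (pact t (FreeGroup.of ((v.2.1.2, Encodable.encode (l, v.2.1.1)),
        (v.2.2.1.2, Encodable.encode (l, v.2.2.1.1)), v.2.2.2)) (x', y')).2), fun j => (τ ^ v.1.1.2 j) (z' j))
    rw [pact_of, ht, ht]
    rfl

end Vale.Agent.P192.H176.Hd
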