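import Vale.Agent.P192.H176.Wd4
import Vale.Agent.P192.H176.Wd5

/-!
# P192: heads on a set with a permutation, and planes (helper176): hypotheses on generators
-/

set_option linter.unusedSectionVars false

namespace Vale.Agent.P192.H176.Hd

open Vale.Agent.P192 Vale.Agent.P192.H567
open Vale.Agent.P192.H479 (CellK)

section inv

variable {𝕜 : Type} [Field 𝕜] [LinearOrder 𝕜] [IsStrictOrderedRing 𝕜]
  {k₀ k : ℕ} {W : Fin k₀ → Type} (T : ∀ i, Equiv.Perm (W i))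
  {Z : Type} (τ : Equiv.Perm Z)

/-- the condition on a generator -/
def HPW (m r : ℕ) (K : Set ((Fin k₀ → ℤ) × (Fin k → ℤ)))
    (φ : Equiv.Perm ((𝕜 × (∀ i, W i) × 𝕜) × (Fin k → Z))) : Prop :=
  ∃ (c : ∀ i, W i → Fin m) (a : Fin k → Z → Fin m)
        (B R : Finset 𝕜), B.card ≤ m ∧ R.card ≤ m ∧
        ∀ (x : 𝕜) (w : ∀ i, W i) (y : 𝕜) (z : Fin k → Z), ∃ q ∈ K, ∃ p ∈ R, ∃ t ∈ R,
          ∃ e d : 𝕜, |e| = 1 ∧ |d| = 1 ∧
          ((∀ x' : 𝕜, CellK B x x' → ∀ w' : ∀ i, W i, (∀ i, c i (w i) = c i (w' i)) →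
              ∀ y' : 𝕜, CellK B y y' → ∀ z' : Fin k → Z, (∀ j, a j (z j) = a j (z' j)) →
              NearT τ r z z' → φ ((x', w', y'), z') =
                ((e * x' + p, fun i => (T i ^ q.1 i) (w' i), d * y' + t), fun j => (τ ^ q.2 j) (z' j))) ∨
            ∀ x' : 𝕜, CellK B x x' → ∀ w' : ∀ i, W i, (∀ i, c i (w i) = c i (w' i)) →
              ∀ y' : 𝕜, CellK B y y' → ∀ z' : Fin k → Z, (∀ j, a j (z j) = a j (z' j)) →
              NearT τ r z z' → φ ((x', w', y'), z') =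
                ((e * y' + p, fun i => (T i ^ q.1 i) (w' i), d * x' + t), fun j => (τ ^ q.2 j) (z' j)))

theorem HPW.mono {m m₁ r r₁ : ℕ} {K K₁ : Set ((Fin k₀ → ℤ) × (Fin k → ℤ))}
    {φ : Equiv.Perm ((𝕜 × (∀ i, W i) × 𝕜) × (Fin k → Z))} (hm : m ≤ m₁) (hr : r ≤ r₁)
    (hK : K ⊆ K₁) (h : HPW T τ m r K φ) : HPW T τ m₁ r₁ K₁ φ := by
  obtain ⟨c, a, B, R, hB, hR, h⟩ := h
  refine ⟨fun i w => Fin.castLE hm (c i w), fun j z => Fin.castLE hm (a j z), B, R, hB.trans hm,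
    hR.trans hm, ?_⟩
  intro x w y z
  obtain ⟨q, hq, p, hp, t, ht, e, d, he, hd, h1⟩ := h x w y z
  refine ⟨q, hK hq, p, hp, t, ht, e, d, he, hd, ?_⟩
  rcases h1 with h1 | h1
  · exact Or.inl fun x' hx w' hw y' hy z' hz hn =>
      h1 x' hx w' (fun i => Fin.castLE_injective hm (hw i)) y' hy z'
        (fun j => Fin.castLE_injective hm (hz j)) (nearT_mono τ hr hn)
  · exact Or.inr fun x' hx w' hw y' hy z' hz hn =>
      h1 x' hx w' (fun i => Fin.castLE_injective hm (hw i)) y' hy z'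
        (fun j => Fin.castLE_injective hm (hz j)) (nearT_mono τ hr hn)

theorem HPW.inv {K : Set ((Fin k₀ → ℤ) × (Fin k → ℤ))} {D m m₁ r : ℕ}
    (hD : ∀ q ∈ K, ∀ j, |q.2 j| ≤ (D : ℤ)) (ε : (K → Fin m) → Fin m₁)
    (hε : Function.Injective ε) (hm1 : m * (2 * m) ≤ m₁) (hm2 : m + m ≤ m₁)
    {φ : Equiv.Perm ((𝕜 × (∀ i, W i) × 𝕜) × (Fin k → Z))} (h : HPW T τ m r K φ) :
    HPW T τ m₁ (r + 2 * D) ((fun q => (-q.1, -q.2)) '' K) φ⁻¹ := by
  classical
  obtain ⟨c, a, B, R, hB, hR, h⟩ := h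
  refine ⟨fun i w => ε fun q => c i ((T i ^ (-(q.1.1 i))) w),
    fun j z => ε fun q => a j ((τ ^ (-(q.1.2 j))) z), backB B R, backR R,
    (backB_card B R m hB hR).trans hm1, (backR_card R m hR).trans hm2, ?_⟩
  intro x' w' y' z'
  obtain ⟨⟨⟨x, w, y⟩, z⟩, hp⟩ := φ.surjective ((x', w', y'), z')
  obtain ⟨q, hq, p, hpR, t, ht, e, d, he, hd, h1⟩ := h x w y z
  obtain ⟨σ, rfl⟩ := exists_sgK he
  obtain ⟨υ, rfl⟩ := exists_sgK hd
  rcases h1 with h1 | h1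
  · have h2 := (h1 x (fun _ _ => ⟨Iff.rfl, Iff.rfl⟩) w (fun _ => rfl) y
      (fun _ _ => ⟨Iff.rfl, Iff.rfl⟩) z (fun _ => rfl) (nearT_refl τ r z)).symm.trans hp
    have e1 : sgK 𝕜 σ * x + p = x' := congrArg (fun p => p.1.1) h2
    have e2 : ∀ i, (T i ^ q.1 i) (w i) = w' i := fun i =>
      congrFun (congrArg (fun p => p.1.2.1) h2) i
    have e3 : sgK 𝕜 υ * y + t = y' := congrArg (fun p => p.1.2.2) h2
    have e4 : ∀ j, (τ ^ q.2 j) (z j) = z' j := fun j => congrFun (congrArg (fun p => p.2) h2) j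
    have e2' : ∀ i, (T i ^ (-(q.1 i))) (w' i) = w i := by
      intro i
      rw [← e2 i, zpow_neg]
      exact Equiv.symm_apply_apply _ _
    have e4' : ∀ j, (τ ^ (-(q.2 j))) (z' j) = z j := by
      intro j
      rw [← e4 j, zpow_neg]
      exact Equiv.symm_apply_apply _ _
    refine ⟨_, ⟨q, hq, rfl⟩, _, backR_mem R σ hpR, _, backR_mem R υ ht, sgK 𝕜 σ, sgK 𝕜 υ,
      abs_sgK σ, abs_sgK υ, Or.inl ?_⟩
    intro x'' hx w'' hw y'' hy z'' hz hn
    rw [Equiv.Perm.inv_eq_iff_eq]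
    have h3 := h1 (sgK 𝕜 σ * x'' + -(sgK 𝕜 σ * p)) (by
      have := backB_cell B R σ hpR hx
      rw [← e1, back_eq'] at this
      exact this) (fun i => (T i ^ (-(q.1 i))) (w'' i)) (fun i => by
      have := congrFun (hε (hw i)) ⟨q, hq⟩
      change c i ((T i ^ (-(q.1 i))) (w' i)) = c i ((T i ^ (-(q.1 i))) (w'' i)) at this
      rw [e2'] at this
      exact this) (sgK 𝕜 υ * y'' + -(sgK 𝕜 υ * t)) (by
      have := backB_cell B R υ ht hy
      rw [← e3, back_eq'] at this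
      exact this) (fun j => (τ ^ (-(q.2 j))) (z'' j)) (fun j => by
      have := congrFun (hε (hz j)) ⟨q, hq⟩
      change a j ((τ ^ (-(q.2 j))) (z' j)) = a j ((τ ^ (-(q.2 j))) (z'' j)) at this
      rw [e4'] at this
      exact this) (by
      have := nearT_sub τ (hD q hq) hn
      rw [funext e4'] at this
      exact this)
    change _ = φ ((sgK 𝕜 σ * x'' + -(sgK 𝕜 σ * p), (fun i => (T i ^ (-(q.1 i))) (w'' i)),
      sgK 𝕜 υ * y'' + -(sgK 𝕜 υ * t)), fun j => (τ ^ (-(q.2 j))) (z'' j))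
    rw [h3]
    refine Prod.ext (Prod.ext ?_ (Prod.ext (funext fun i => ?_) ?_)) (funext fun j => ?_)
    · exact (back_eq σ x'' p).symm
    · change w'' i = (T i ^ q.1 i) ((T i ^ (-(q.1 i))) (w'' i))
      rw [zpow_neg]
      exact (Equiv.apply_symm_apply _ _).symm
    · exact (back_eq υ y'' t).symm
    · change z'' j = (τ ^ q.2 j) ((τ ^ (-(q.2 j))) (z'' j))
      rw [zpow_neg]
      exact (Equiv.apply_symm_apply _ _).symm
  · have h2 := (h1 x (fun _ _ => ⟨Iff.rfl, Iff.rfl⟩) w (fun _ => rfl) y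
      (fun _ _ => ⟨Iff.rfl, Iff.rfl⟩) z (fun _ => rfl) (nearT_refl τ r z)).symm.trans hp
    have e1 : sgK 𝕜 σ * y + p = x' := congrArg (fun p => p.1.1) h2
    have e2 : ∀ i, (T i ^ q.1 i) (w i) = w' i := fun i =>
      congrFun (congrArg (fun p => p.1.2.1) h2) i
    have e3 : sgK 𝕜 υ * x + t = y' := congrArg (fun p => p.1.2.2) h2
    have e4 : ∀ j, (τ ^ q.2 j) (z j) = z' j := fun j => congrFun (congrArg (fun p => p.2) h2) j
    have e2' : ∀ i, (T i ^ (-(q.1 i))) (w' i) = w i := by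
      intro i
      rw [← e2 i, zpow_neg]
      exact Equiv.symm_apply_apply _ _
    have e4' : ∀ j, (τ ^ (-(q.2 j))) (z' j) = z j := by
      intro j
      rw [← e4 j, zpow_neg]
      exact Equiv.symm_apply_apply _ _
    refine ⟨_, ⟨q, hq, rfl⟩, _, backR_mem R υ ht, _, backR_mem R σ hpR, sgK 𝕜 υ, sgK 𝕜 σ,
      abs_sgK υ, abs_sgK σ, Or.inr ?_⟩
    intro x'' hx w'' hw y'' hy z'' hz hn
    rw [Equiv.Perm.inv_eq_iff_eq]
    have h3 := h1 (sgK 𝕜 υ * y'' + -(sgK 𝕜 υ * t)) (by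
      have := backB_cell B R υ ht hy
      rw [← e3, back_eq'] at this
      exact this) (fun i => (T i ^ (-(q.1 i))) (w'' i)) (fun i => by
      have := congrFun (hε (hw i)) ⟨q, hq⟩
      change c i ((T i ^ (-(q.1 i))) (w' i)) = c i ((T i ^ (-(q.1 i))) (w'' i)) at this
      rw [e2'] at this
      exact this) (sgK 𝕜 σ * x'' + -(sgK 𝕜 σ * p)) (by
      have := backB_cell B R σ hpR hx
      rw [← e1, back_eq'] at this
      exact this) (fun j => (τ ^ (-(q.2 j))) (z'' j)) (fun j => by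
      have := congrFun (hε (hz j)) ⟨q, hq⟩
      change a j ((τ ^ (-(q.2 j))) (z' j)) = a j ((τ ^ (-(q.2 j))) (z'' j)) at this
      rw [e4'] at this
      exact this) (by
      have := nearT_sub τ (hD q hq) hn
      rw [funext e4'] at this
      exact this)
    change _ = φ ((sgK 𝕜 υ * y'' + -(sgK 𝕜 υ * t), (fun i => (T i ^ (-(q.1 i))) (w'' i)),
      sgK 𝕜 σ * x'' + -(sgK 𝕜 σ * p)), fun j => (τ ^ (-(q.2 j))) (z'' j))
    rw [h3]
    refine Prod.ext (Prod.ext ?_ (Prod.ext (funext fun i => ?_) ?_)) (funext fun j => ?_)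
    · exact (back_eq σ x'' p).symm
    · change w'' i = (T i ^ q.1 i) ((T i ^ (-(q.1 i))) (w'' i))
      rw [zpow_neg]
      exact (Equiv.apply_symm_apply _ _).symm
    · exact (back_eq υ y'' t).symm
    · change z'' j = (τ ^ q.2 j) ((τ ^ (-(q.2 j))) (z'' j))
      rw [zpow_neg]
      exact (Equiv.apply_symm_apply _ _).symm

end inv

/-- **Heads, counters, plane; hypotheses on the generators.** -/
theorem headsW_planeS (G : Type) [Group G] [Group.IsFinitelyPresented G]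
    (hG : ∀ x : G, IsOfFinOrder x) (S : Set G) (hS : Subgroup.closure S = ⊤) (k₀ k m r : ℕ)
    (K : Set ((Fin k₀ → ℤ) × (Fin k → ℤ))) (hK : K.Finite) :
    ∃ N : Subgroup G, N.Normal ∧ N.FiniteIndex ∧
      ∀ (𝕜 : Type) [Field 𝕜] [LinearOrder 𝕜] [IsStrictOrderedRing 𝕜]
        (W : Fin k₀ → Type) (T : ∀ i, Equiv.Perm (W i))
        (Z : Type) (τ : Equiv.Perm Z)
        (ρ : G →* Equiv.Perm ((𝕜 × (∀ i, W i) × 𝕜) × (Fin k → Z))),
      (∀ s ∈ S, ∃ (c : ∀ i, W i → Fin m) (a : Fin k → Z → Fin m)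
        (B R : Finset 𝕜), B.card ≤ m ∧ R.card ≤ m ∧
        ∀ (x : 𝕜) (w : ∀ i, W i) (y : 𝕜) (z : Fin k → Z), ∃ q ∈ K, ∃ p ∈ R, ∃ t ∈ R,
          ∃ e d : 𝕜, |e| = 1 ∧ |d| = 1 ∧
          ((∀ x' : 𝕜, CellK B x x' → ∀ w' : ∀ i, W i, (∀ i, c i (w i) = c i (w' i)) →
              ∀ y' : 𝕜, CellK B y y' → ∀ z' : Fin k → Z, (∀ j, a j (z j) = a j (z' j)) →
              NearT τ r z z' → ρ s ((x', w', y'), z') =
                ((e * x' + p, fun i => (T i ^ q.1 i) (w' i), d * y' + t), fun j => (τ ^ q.2 j) (z' j))) ∨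
            ∀ x' : 𝕜, CellK B x x' → ∀ w' : ∀ i, W i, (∀ i, c i (w i) = c i (w' i)) →
              ∀ y' : 𝕜, CellK B y y' → ∀ z' : Fin k → Z, (∀ j, a j (z j) = a j (z' j)) →
              NearT τ r z z' → ρ s ((x', w', y'), z') =
                ((e * y' + p, fun i => (T i ^ q.1 i) (w' i), d * x' + t), fun j => (τ ^ q.2 j) (z' j)))) →
      ∀ g ∈ N, ρ g = 1 := by
  have hKf : Finite K := hK
  obtain ⟨D, hD⟩ := exists_bound K hK fun q => q.2
  obtain ⟨m₁, hm, hm1, hm2, ε, hε⟩ : ∃ m₁ : ℕ, m ≤ m₁ ∧ m * (2 * m) ≤ m₁ ∧ m + m ≤ m₁ ∧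
      ∃ ε : (K → Fin m) → Fin m₁, Function.Injective ε := by
    refine ⟨Nat.card (K → Fin m) + m * (2 * m) + (m + m), by omega, by omega, by omega, ?_⟩
    exact exists_injF (by omega)
  obtain ⟨N, h1, h2, h3⟩ := headsW_plane G hG S hS k₀ k m₁ (r + 2 * D)
    (K ∪ (fun q => (-q.1, -q.2)) '' K) (hK.union (hK.image _))
  refine ⟨N, h1, h2, ?_⟩
  intro 𝕜 _ _ _ W T Z τ ρ hρ g hg
  refine h3 𝕜 W T Z τ ρ ?_ g hg
  rintro s (hs | hs)
  · exact HPW.mono T τ hm (by omega) Set.subset_union_left (hρ s hs)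
  · have h4 := HPW.inv T τ hD ε hε hm1 hm2 (hρ s⁻¹ hs)
    rw [← map_inv, inv_inv] at h4
    exact HPW.mono T τ le_rfl le_rfl Set.subset_union_right h4

end Vale.Agent.P192.H176.Hd
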