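import Vale.Agent.P192.H176.Wd5
import Vale.Agent.P192.H794.F.G6

/-!
# P192: heads and lines (helper176): free actions, hypotheses on generators
-/

namespace Vale.Agent.P192.H176.Hd

open Vale.Agent.P192.H479 (CellK)

/-- **Heads, free action, counters, line; hypotheses on the generators.** -/
theorem headsW_lineS (G : Type) [Group G] [Group.IsFinitelyPresented G]
    (hG : ∀ x : G, IsOfFinOrder x) (S : Set G) (hS : Subgroup.closure S = ⊤)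
    (L : Type) [Group L]
    (hL : ∀ E : Set L, E.Finite → ∃ m : ℕ, ∃ C : Set L, ∀ x : L,
      {y | Relation.ReflTransGen (fun a b => (a ∈ C ↔ b ∈ C) ∧ ∃ e ∈ E, b = e * a) x y}.encard ≤ m)
    (k₀ k m r : ℕ) (K : Set (L × (Fin k₀ → ℤ) × (Fin k → ℤ))) (hK : K.Finite) :
    ∃ N : Subgroup G, N.Normal ∧ N.FiniteIndex ∧
      ∀ (𝕜 : Type) [Field 𝕜] [LinearOrder 𝕜] [IsStrictOrderedRing 𝕜] (U : Type) [MulAction L U],
      (∀ (l : L) (u : U), l • u = u → l = 1) →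
      ∀ (W : Fin k₀ → Type) (T : ∀ i, Equiv.Perm (W i))
        (Z : Type) (τ : Equiv.Perm Z)
        (ρ : G →* Equiv.Perm ((U × (∀ i, W i) × 𝕜) × (Fin k → Z))),
      (∀ s ∈ S, ∃ (c : ∀ i, W i → Fin m) (a : Fin k → Z → Fin m)
        (B R : Finset 𝕜), B.card ≤ m ∧ R.card ≤ m ∧
        ∀ (u : U) (w : ∀ i, W i) (x : 𝕜) (z : Fin k → Z), ∃ q ∈ K, ∃ t ∈ R, ∃ e : 𝕜, |e| = 1 ∧
          ∀ w' : ∀ i, W i, (∀ i, c i (w i) = c i (w' i)) → ∀ x' : 𝕜, CellK B x x' →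
            ∀ z' : Fin k → Z, (∀ j, a j (z j) = a j (z' j)) → NearT τ r z z' →
            ρ s ((u, w', x'), z') =
              ((q.1 • u, fun i => (T i ^ q.2.1 i) (w' i), e * x' + t), fun j => (τ ^ q.2.2 j) (z' j))) →
      ∀ g ∈ N, ρ g = 1 := by
  obtain ⟨N, h1, h2, h3⟩ := hlW_uniformS L
    (fun U _ => ∀ (l : L) (u : U), l • u = u → l = 1)
    (fun G _ _ hG S hS k m K₀ hK₀ => H794.F.unif_line G hG S hS L hL k m K₀ hK₀)
    G hG S hS k₀ k m r K hK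
  refine ⟨N, h1, h2, ?_⟩
  intro 𝕜 _ _ _ U _ hU W T Z τ ρ hρ g hg
  exact h3 𝕜 U hU W T Z τ ρ hρ g hg

end Vale.Agent.P192.H176.Hd
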