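import Vale.Agent.P192.H176.Cnt
import Vale.Agent.P192.H567.CtV
import Vale.Agent.P192.H479.StmtRE

/-!
# P192: products of a set of infinite words, counters and an interval (helper176)
-/

namespace Vale.Agent.P192.H176

open Vale.Agent.P192.RL5 Vale.Agent.P192.H479 Vale.Agent.P192.H567

/-- **Partial actions.** Products of a subset of a free action, counters and an interval. -/
theorem A2C_emb (G : Type) [Group G] [Group.IsFinitelyPresented G]
    (hG : ∀ x : G, IsOfFinOrder x) (L : Type) [Group L]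
    (hL : ∀ E : Set L, E.Finite → ∃ m : ℕ, ∃ C : Set L, ∀ x : L,
      {y | Relation.ReflTransGen (fun a b => (a ∈ C ↔ b ∈ C) ∧ ∃ e ∈ E, b = e * a) x y}.encard ≤ m)
    (U : Type) [MulAction L U] (hU : ∀ (l : L) (u : U), l • u = u → l = 1)
    (Ω : Type) (j₀ : Ω → U) (hj₀ : Function.Injective j₀)
    {k : ℕ} {W : Fin k → Type} (T : ∀ i, Equiv.Perm (W i)) (lam : ℝ)
    (ρ : G →* Equiv.Perm (Ω × (∀ i, W i) × ℝ))
    (hρ : ∀ g, (∀ ω w x, x ∉ Set.Ico 0 lam → ρ g (ω, w, x) = (ω, w, x)) ∧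
      ∃ (B : Finset ℝ) (K : Set (L × (Fin k → ℤ) × ℝ)) (m : ℕ) (c : ∀ i, W i → Fin m), K.Finite ∧
        ∀ (ω : Ω) (w : ∀ i, W i), ∀ x ∈ Set.Ico 0 lam, ∃ q ∈ K, ∀ w', (∀ i, c i (w i) = c i (w' i)) →
          ∀ x' ∈ Set.Ico 0 lam, Same B x x' →
            j₀ (ρ g (ω, w', x')).1 = q.1 • j₀ ω ∧
              (ρ g (ω, w', x')).2 = (mv T q.2.1 w', x' + q.2.2)) :
    Finite ρ.range := by
  classical
  let j : Ω × (∀ i, W i) × ℝ → ℝ × (U × ∀ i, W i) := fun z => (z.2.2, (j₀ z.1, z.2.1))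
  have hj : Function.Injective j := by
    rintro ⟨ω, w, x⟩ ⟨ω', w', x'⟩ h
    have e1 : x = x' := congrArg Prod.fst h
    have e2 : j₀ ω = j₀ ω' := congrArg (fun q : ℝ × (U × ∀ i, W i) => q.2.1) h
    have e3 : w = w' := congrArg (fun q : ℝ × (U × ∀ i, W i) => q.2.2) h
    rw [e1, hj₀ e2, e3]
  let f := Equiv.ofInjective j hj
  let Φ : G →* Equiv.Perm (ℝ × (U × ∀ i, W i)) := (Equiv.Perm.extendDomainHom f).comp ρ
  have hin : ∀ g z, Φ g (j z) = j (ρ g z) := by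
    intro g z
    exact Equiv.Perm.extendDomain_apply_image (ρ g) f z
  have hout : ∀ g y, y ∉ Set.range j → Φ g y = y := by
    intro g y hy
    exact Equiv.Perm.extendDomain_apply_not_subtype (ρ g) f hy
  have hfin : Finite Φ.range := by
    refine A2C G hG L hL U hU T lam Φ fun g => ?_
    obtain ⟨h1, B, K, m, c, hK, h2⟩ := hρ g
    refine ⟨?_, B, insert (1, 0) ((fun q : L × (Fin k → ℤ) × ℝ => (q.1, q.2.1)) '' K),
      insert 0 ((fun q : L × (Fin k → ℤ) × ℝ => q.2.2) '' K), m, c, B.finite_toSet,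
      (hK.image _).insert _, (hK.image _).insert _, ?_⟩
    · rintro x ⟨u, w⟩ hx
      by_cases hu : ((x, (u, w)) : ℝ × (U × ∀ i, W i)) ∈ Set.range j
      · obtain ⟨⟨ω, w₁, x₁⟩, e⟩ := hu
        have e1 : x₁ = x := congrArg Prod.fst e
        rw [← e, hin, h1 _ _ _ (by rw [e1]; exact hx)]
      · exact hout _ _ hu
    · intro u w x hx0 hx1
      by_cases hu : u ∈ Set.range j₀
      · obtain ⟨ω, rfl⟩ := hu
        obtain ⟨q, hq, h3⟩ := h2 ω w x ⟨hx0, hx1⟩
        refine ⟨(q.1, q.2.1), Or.inr ⟨q, hq, rfl⟩, q.2.2, Or.inr ⟨q, hq, rfl⟩,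
          fun y w' hy0 hy1 hb hc => ?_⟩
        obtain ⟨h4, h5⟩ := h3 w' hc y ⟨hy0, hy1⟩ (fun b hb' => hb b hb')
        change Φ g (j (ω, w', y)) = _
        rw [hin]
        change (((ρ g (ω, w', y)).2.2, (j₀ (ρ g (ω, w', y)).1, (ρ g (ω, w', y)).2.1)) :
          ℝ × (U × ∀ i, W i)) = _
        rw [h4, h5]
      · refine ⟨(1, 0), Or.inl rfl, 0, Or.inl rfl, fun y w' _ _ _ _ => ?_⟩
        rw [hout g (y, (u, w')) ?_]
        · rw [add_zero]
          change _ = ((y, ((1 : L) • u, mv T 0 w')) : ℝ × (U × ∀ i, W i))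
          rw [one_smul, mv_zero]
        · rintro ⟨⟨ω, w₁, x₁⟩, e⟩
          exact hu ⟨ω, congrArg (fun q : ℝ × (U × ∀ i, W i) => q.2.1) e⟩
  refine finite_range_of_ker Φ ρ hfin fun g hg => ?_
  apply Equiv.ext
  intro z
  apply hj
  rw [← hin, hg]
  rfl

theorem aper_rep {X : Type} {ξ : ℕ → X} (h : Aper ξ) (p : List X) (n : ℕ) :
    Aper (rep p n ξ) := by
  intro a b hab
  have h1 := h (n + a) (n + b) (fun i => by
    have h2 := hab (p.length + i)
    rw [show a + (p.length + i) = p.length + (a + i) by omega,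
      show b + (p.length + i) = p.length + (b + i) by omega, rep_ge, rep_ge] at h2
    rw [show n + a + i = n + (a + i) by omega, show n + b + i = n + (b + i) by omega]
    exact h2)
  omega

theorem Tail.refl {X : Type} (ξ : ℕ → X) : Tail ξ ξ 0 0 := fun _ => rfl

theorem Tail.symm {X : Type} {ξ ξ' : ℕ → X} {a b : ℕ} (h : Tail ξ ξ' a b) : Tail ξ' ξ b a :=
  fun i => (h i).symm

theorem Tail.trans {X : Type} {ξ ξ' ξ'' : ℕ → X} {a b c d : ℕ} (h : Tail ξ ξ' a b)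
    (h' : Tail ξ' ξ'' c d) : Tail ξ ξ'' (a + c) (d + b) := by
  intro i
  have h1 := h.add c i
  have h2 := h'.add b i
  rw [h1, Nat.add_comm b c, h2]

/-- tail equivalence -/
def tailSetoid {X Ω : Type} (p : Ω → ℕ → X) : Setoid Ω where
  r ω ω' := ∃ a b, Tail (p ω) (p ω') a b
  iseqv := {
    refl := fun _ => ⟨0, 0, Tail.refl _⟩
    symm := fun ⟨a, b, h⟩ => ⟨b, a, Tail.symm h⟩
    trans := fun ⟨a, b, h⟩ ⟨c, d, h'⟩ => ⟨a + c, d + b, Tail.trans h h'⟩ }

/-- copies of the free group -/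
@[instance_reducible] def cp (Q X : Type) : MulAction (FreeGroup X) (Q × FreeGroup X) where
  smul l z := (z.1, l * z.2)
  one_smul z := Prod.ext rfl (one_mul z.2)
  mul_smul l l' z := Prod.ext rfl (mul_assoc l l' z.2)

/-- **Infinite words, counters, interval.** -/
theorem wrd (G : Type) [Group G] [Group.IsFinitelyPresented G]
    (hG : ∀ x : G, IsOfFinOrder x) (X : Type) [Finite X] (Ω : Type) (p : Ω → ℕ → X)
    (hp : Function.Injective p)
    (hd : ∀ ω n, ∃ ω', Aper (p ω') ∧ ∀ i < n, p ω' i = p ω i)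
    (k : ℕ) (W : Fin k → Type) (T : ∀ i, Equiv.Perm (W i)) (lam : ℝ)
    (ρ : G →* Equiv.Perm (Ω × (∀ i, W i) × ℝ))
    (hρ : ∀ g, (∀ ω w x, x ∉ Set.Ico 0 lam → ρ g (ω, w, x) = (ω, w, x)) ∧
      ∃ (n : ℕ) (c : ∀ i, W i → Fin n) (B : Finset ℝ), ∀ (ω : Ω) (w : ∀ i, W i),
        ∀ x ∈ Set.Ico 0 lam, ∃ q : List X × (Fin k → ℤ) × ℝ, ∀ ω', pre n (p ω) = pre n (p ω') →
          ∀ w', (∀ i, c i (w i) = c i (w' i)) → ∀ x' ∈ Set.Ico 0 lam, Same B x x' →
            p (ρ g (ω', w', x')).1 = rep q.1 n (p ω') ∧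
              (ρ g (ω', w', x')).2 = (fun i => (T i ^ q.2.1 i) (w' i), x' + q.2.2)) :
    Finite ρ.range := by
  classical
  choose hout n c B q hq using hρ
  -- the aperiodic words
  let Ωa : Type := {ω : Ω // Aper (p ω)}
  let _ : MulAction G (Ω × (∀ i, W i) × ℝ) := MulAction.compHom _ ρ
  have hsm : ∀ (g : G) (z : Ω × (∀ i, W i) × ℝ), g • z = ρ g z := fun _ _ => rfl
  let ι : Ωa × (∀ i, W i) × ℝ → Ω × (∀ i, W i) × ℝ := fun z => (z.1.1, z.2)
  have hι : Function.Injective ι := by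
    rintro ⟨ω, z⟩ ⟨ω', z'⟩ h
    have e1 : ω = ω' := Subtype.ext (congrArg Prod.fst h)
    have e2 : z = z' := congrArg Prod.snd h
    rw [e1, e2]
  have hinv : ∀ (g : G) (y : Ωa × (∀ i, W i) × ℝ), ∃ y', ι y' = g • ι y := by
    rintro g ⟨⟨ω, hω⟩, w, x⟩
    have h1 : Aper (p (ρ g (ω, w, x)).1) := by
      by_cases hx : x ∈ Set.Ico 0 lam
      · rw [(hq g ω w x hx ω rfl w (fun _ => rfl) x hx (fun _ _ => Iff.rfl)).1]
        exact aper_rep hω _ _
      · rw [hout g ω w x hx]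
        exact hω
    exact ⟨(⟨(ρ g (ω, w, x)).1, h1⟩, (ρ g (ω, w, x)).2), rfl⟩
  obtain ⟨inst, hinst⟩ := exists_restrict ι hι hinv
  let Φ : G →* Equiv.Perm (Ωa × (∀ i, W i) × ℝ) := MulAction.toPermHom G _
  have hΦ : ∀ g z, ι (Φ g z) = ρ g (ι z) := fun g z => hinst g z
  have hΦ1 : ∀ g z, (Φ g z).1.1 = (ρ g (z.1.1, z.2)).1 := fun g z => congrArg Prod.fst (hΦ g z)
  have hΦ2 : ∀ g z, (Φ g z).2 = (ρ g (z.1.1, z.2)).2 := fun g z => congrArg Prod.snd (hΦ g z)
  let S := tailSetoid (fun ω : Ωa => p ω.1)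
  let U : Type := Quotient S × FreeGroup X
  let _ : MulAction (FreeGroup X) U := cp (Quotient S) X
  have hUsm : ∀ (l : FreeGroup X) (u : U), l • u = (u.1, l * u.2) := fun _ _ => rfl
  let rp : Ωa → Ωa := fun ω => (Quotient.mk S ω).out
  have hrp : ∀ ω : Ωa, ∃ a b, Tail (p ω.1) (p (rp ω).1) a b := by
    intro ω
    obtain ⟨a, b, h⟩ := Quotient.mk_out (s := S) ω
    exact ⟨b, a, Tail.symm h⟩
  let j₀ : Ωa → U := fun ω => (Quotient.mk S ω, kap (p (rp ω).1) (p ω.1))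
  have hj₀ : Function.Injective j₀ := by
    intro ω ω' h
    have e1 : Quotient.mk S ω = Quotient.mk S ω' := congrArg Prod.fst h
    have e2 : kap (p (rp ω).1) (p ω.1) = kap (p (rp ω').1) (p ω'.1) := congrArg Prod.snd h
    have e3 : rp ω = rp ω' := by
      change (Quotient.mk S ω).out = (Quotient.mk S ω').out
      rw [e1]
    obtain ⟨a, b, h1⟩ := hrp ω
    obtain ⟨a', b', h2⟩ := hrp ω'
    rw [← e3] at e2 h2
    exact Subtype.ext (hp (kap_inj (rp ω).2 h1 h2 e2))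
  have hfin : Finite Φ.range := by
    refine A2C_emb G hG (FreeGroup X) (fun E hE => ad_free_fin X E hE) U ?_ Ωa j₀ hj₀ T lam Φ ?_
    · intro l u h
      have h1 : l * u.2 = u.2 := congrArg Prod.snd h
      exact mul_eq_right.1 h1
    · intro g
      refine ⟨?_, B g, ?_⟩
      · intro ω w x hx
        apply hι
        rw [hΦ]
        exact hout g ω.1 w x hx
      -- finitely many classes
      let A : Type := {l : List X // l.length ≤ n g}
      have hA : Finite A := (List.finite_length_le X (n g)).to_subtype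
      let τ : Ω × (∀ i, W i) × ℝ → A × (Fin k → Fin (n g)) × (B g → Prop) := fun z =>
        (⟨pre (n g) (p z.1), by rw [pre_length]⟩, fun i => c g i (z.2.1 i),
          fun b => b.1 ≤ z.2.2)
      let val : Ω × (∀ i, W i) × ℝ → FreeGroup X × (Fin k → ℤ) × ℝ := fun z =>
        if hx : z.2.2 ∈ Set.Ico 0 lam then
          (pw (q g z.1 z.2.1 z.2.2 hx).1 * (pw (pre (n g) (p z.1)))⁻¹,
            (q g z.1 z.2.1 z.2.2 hx).2.1, (q g z.1 z.2.1 z.2.2 hx).2.2) else 1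
      let rr : A × (Fin k → Fin (n g)) × (B g → Prop) → FreeGroup X × (Fin k → ℤ) × ℝ := fun t =>
        if h : ∃ z : Ω × (∀ i, W i) × ℝ, z.2.2 ∈ Set.Ico 0 lam ∧ τ z = t then
          val h.choose else (1, 0, 0)
      refine ⟨Set.range rr, n g, c g, Set.finite_range rr, ?_⟩
      intro ω w x hx
      refine ⟨rr (τ (ω.1, w, x)), ⟨_, rfl⟩, fun w' hw x' hx' hxx => ?_⟩
      have h : ∃ z : Ω × (∀ i, W i) × ℝ, z.2.2 ∈ Set.Ico 0 lam ∧ τ z = τ (ω.1, w, x) :=
        ⟨(ω.1, w, x), hx, rfl⟩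
      have h0 : rr (τ (ω.1, w, x)) = val h.choose := dif_pos h
      obtain ⟨h1, h2⟩ := h.choose_spec
      rw [h0]
      generalize h.choose = z₀ at h1 h2 ⊢
      have g1 : pre (n g) (p z₀.1) = pre (n g) (p ω.1) :=
        congrArg Subtype.val (congrArg Prod.fst h2)
      have g2 : ∀ i, c g i (z₀.2.1 i) = c g i (w i) :=
        fun i => congrFun (congrArg (fun t => t.2.1) h2) i
      have g3 : Same (B g) z₀.2.2 x := fun b hb =>
        iff_of_eq (congrFun (congrArg (fun t => t.2.2) h2) ⟨b, hb⟩)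
      have hv : val z₀ = (pw (q g z₀.1 z₀.2.1 z₀.2.2 h1).1 * (pw (pre (n g) (p z₀.1)))⁻¹,
            (q g z₀.1 z₀.2.1 z₀.2.2 h1).2.1, (q g z₀.1 z₀.2.1 z₀.2.2 h1).2.2) := dif_pos h1
      have h3 := hq g z₀.1 z₀.2.1 z₀.2.2 h1 ω.1 g1 w' (fun i => (g2 i).trans (hw i)) x' hx'
        (fun b hb => (g3 b hb).trans (hxx b hb))
      rw [hv]
      constructor
      · have e1 : p (Φ g (ω, w', x')).1.1 = rep (q g z₀.1 z₀.2.1 z₀.2.2 h1).1 (n g) (p ω.1) := by
          rw [hΦ1]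
          exact h3.1
        obtain ⟨a, b, h4⟩ := hrp ω
        have e2 : Quotient.mk S (Φ g (ω, w', x')).1 = Quotient.mk S ω := by
          apply Quotient.sound
          change ∃ a b, Tail (p (Φ g (ω, w', x')).1.1) (p ω.1) a b
          rw [e1]
          exact ⟨_, _, (Tail.refl (p ω.1)).rep _ _⟩
        refine Prod.ext e2 ?_
        change kap (p (rp (Φ g (ω, w', x')).1).1) (p (Φ g (ω, w', x')).1.1) = _ * kap (p (rp ω).1) (p ω.1)
        have e3 : rp (Φ g (ω, w', x')).1 = rp ω := by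
          change (Quotient.mk S (Φ g (ω, w', x')).1).out = (Quotient.mk S ω).out
          rw [e2]
        rw [e3, e1, kap_rep (rp ω).2 h4, g1]
      · rw [hΦ2]
        exact h3.2
  refine finite_range_of_ker Φ ρ hfin fun g hg => ?_
  apply Equiv.ext
  rintro ⟨ω, w, x⟩
  by_cases hx : x ∈ Set.Ico 0 lam
  · obtain ⟨ω', h1, h2⟩ := hd ω (n g)
    have h3 : ρ g (ω', w, x) = (ω', w, x) := by
      have h4 := hΦ g (⟨ω', h1⟩, w, x)
      rw [hg] at h4
      exact h4.symm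
    have h5 := hq g ω w x hx ω' (pre_congr h2).symm w (fun _ => rfl) x hx (fun _ _ => Iff.rfl)
    have h6 := hq g ω w x hx ω rfl w (fun _ => rfl) x hx (fun _ _ => Iff.rfl)
    rw [h3] at h5
    refine Prod.ext ?_ ?_
    · apply hp
      rw [h6.1]
      exact rep_triv _ _ _ _ h1 h2 h5.1
    · rw [h6.2]
      exact h5.2.symm
  · exact hout g ω w x hx

end Vale.Agent.P192.H176
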